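/-
Row 282 (S0528, saturation for Spin(2n)), PART I, conditional formalisation.
File Defs: ALL definitions of the chain  "frozen statement <= Crux".  No sorry here.

Conventions.  Weights are written in the DOUBLED epsilon-coordinates of the frozen definitions
(`Fin n → ℤ`).  `rt i` are the UNDOUBLED simple roots of D_n (0-based):
  rt i = e_i - e_{i+1} (i ≤ n-2),   rt (n-1) = e_{n-2} + e_{n-1}.
`pr i v = rt i · v` (so `pr i v = 2 <h_i, true weight>`), `cart i j = rt i · rt j` is the Cartan matrix,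
`refl i v = v - (pr i v) • rt i` is the simple reflection.
-/
import Mathlib
import Claimed.Prelude.Def_0456

set_option autoImplicit false

namespace Claimed.Agent.R282
open Claims.C0456

/-! ### Root data of D_n -/

/-- undoubled simple roots of `D_n` (0-based). -/
def rt {n : ℕ} (i : Fin n) : Fin n → ℤ := fun k =>
  if (i : ℕ) + 1 < n then (if (k : ℕ) = i then 1 else 0) - (if (k : ℕ) = i + 1 then 1 else 0)
  else (if (k : ℕ) + 2 = n then 1 else 0) + (if (k : ℕ) + 1 = n then 1 else 0)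

/-- scalar product with the simple root `rt i`. -/
def pr {n : ℕ} (i : Fin n) (v : Fin n → ℤ) : ℤ := ∑ k, rt i k * v k

/-- Cartan matrix. -/
def cart {n : ℕ} (i j : Fin n) : ℤ := pr i (rt j)

/-- simple reflection (valid in doubled and undoubled coordinates). -/
def refl {n : ℕ} (i : Fin n) (v : Fin n → ℤ) : Fin n → ℤ := v - pr i v • rt i

/-- alternating sum over `W(D_n)`, in the parametrisation of the frozen `tensorMult`. -/
def altSum {n : ℕ} (F : (Fin n → ℤ) → ℤ) (v : Fin n → ℤ) : ℤ :=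
  ∑ σ : Equiv.Perm (Fin n), ∑ s : Fin n → Bool,
    if Even (Finset.univ.filter fun i => s i = true).card then
      ((Equiv.Perm.sign σ : ℤˣ) : ℤ) * F (signedPermAct σ s v)
    else 0

/-! ### Abstract Nakashima-Zelevinsky crystal on `K → ℤ`
`K` = finite linearly ordered set of positions, `ι : K → Fin n` the letter of a position. -/

section Crystal
variable {n : ℕ} {K : Type} [Fintype K] [LinearOrder K] (ι : K → Fin n)

/-- `σ_k(x) = x_k + ∑_{j>k} a_{ι k, ι j} x_j`. -/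
def sig (x : K → ℤ) (k : K) : ℤ :=
  x k + ∑ j ∈ Finset.univ.filter (fun j => k < j), cart (ι k) (ι j) * x j

/-- `<h_i, wt x>` where `wt x = lam - ∑ x_k α_{ι k}`, `lam` in fundamental-weight coordinates. -/
def hw (lam : Fin n → ℤ) (x : K → ℤ) (i : Fin n) : ℤ := lam i - ∑ j, cart i (ι j) * x j

/-- the weight of `x` as a vector in doubled coordinates (`M` = highest weight, doubled). -/
def wtv (M : Fin n → ℤ) (x : K → ℤ) : Fin n → ℤ := M - ∑ j, (2 * x j) • rt (ι j)

/-- `k` is the FIRST position of letter `i` where `σ` is maximal (there `f_i` adds 1). -/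
def IsFPos (x : K → ℤ) (i : Fin n) (k : K) : Prop :=
  ι k = i ∧ (∀ j, ι j = i → sig ι x j ≤ sig ι x k) ∧ (∀ j, ι j = i → j < k → sig ι x j < sig ι x k)

/-- `k` is the LAST position of letter `i` where `σ` is maximal (there `e_i` subtracts 1). -/
def IsEPos (x : K → ℤ) (i : Fin n) (k : K) : Prop :=
  ι k = i ∧ (∀ j, ι j = i → sig ι x j ≤ sig ι x k) ∧ (∀ j, ι j = i → k < j → sig ι x j < sig ι x k)

open Classical in
/-- `ε_i(x) = max_{ι k = i} σ_k(x)` (junk value 0 if the letter does not occur). -/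
noncomputable def eps (x : K → ℤ) (i : Fin n) : ℤ :=
  if h : ∃ k, IsFPos ι x i k then sig ι x h.choose else 0

open Classical in
/-- Kashiwara operator `f_i` on all of `K → ℤ`. -/
noncomputable def fop (i : Fin n) (x : K → ℤ) : K → ℤ :=
  if h : ∃ k, IsFPos ι x i k then Function.update x h.choose (x h.choose + 1) else x

open Classical in
/-- Kashiwara operator `e_i` on all of `K → ℤ`. -/
noncomputable def eop (i : Fin n) (x : K → ℤ) : K → ℤ :=
  if h : ∃ k, IsEPos ι x i k then Function.update x h.choose (x h.choose - 1) else x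

/-- `φ_i(x) = ε_i(x) + <h_i, wt x>`. -/
noncomputable def phi (lam : Fin n → ℤ) (x : K → ℤ) (i : Fin n) : ℤ := eps ι x i + hw ι lam x i

/-- a finite subset of `K → ℤ` which is a (seminormal) crystal of highest weight `lam`. -/
structure IsCrystal (lam : Fin n → ℤ) (X : Finset (K → ℤ)) : Prop where
  eps_nonneg : ∀ x ∈ X, ∀ i, 0 ≤ eps ι x i
  phi_nonneg : ∀ x ∈ X, ∀ i, 0 ≤ phi ι lam x i
  f_mem : ∀ x ∈ X, ∀ i, 0 < phi ι lam x i → fop ι i x ∈ X
  e_mem : ∀ x ∈ X, ∀ i, 0 < eps ι x i → eop ι i x ∈ X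

/-- `x` is `l`-good: `ε_i(x) ≤ l_i` for all `i`, written position by position. -/
def Good (l : Fin n → ℤ) (x : K → ℤ) : Prop := ∀ k, sig ι x k ≤ l (ι k)

end Crystal

/-! ### The word of D_n
Positions `(s,i,d)`, `0 ≤ s ≤ i ≤ n-2`, `d = false` ("U", ascending part of row `s`) or `d = true`
("D", descending part).  Row `s` is the subword `s, s+1, …, n-3, n-2, n-1, n-3, …, s` of letters; the
rows are read in the order `s = n-2, n-3, …, 0`.  `(s,n-2,false)` has letter `n-2`, `(s,n-2,true)` has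
letter `n-1`; all other `(s,i,d)` have letter `i`. -/

/-- positions of the word. -/
structure Pos (n : ℕ) where
  s : ℕ
  i : ℕ
  d : Bool
  hsi : s ≤ i
  hin : i + 2 ≤ n

/-- the order key: rows by decreasing `s`; inside a row `U` by increasing `i`, then `D` by decreasing `i`. -/
def Pos.key {n : ℕ} (p : Pos n) : ℕ ×ₗ ℕ :=
  toLex (n - 2 - p.s, if p.d then 2 * n - 3 - p.i else p.i)

theorem Pos.key_injective {n : ℕ} : Function.Injective (Pos.key (n := n)) := by
  intro p q h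
  obtain ⟨ps, pi, pd, h1, h2⟩ := p
  obtain ⟨qs, qi, qd, h3, h4⟩ := q
  simp only [Pos.key, EmbeddingLike.apply_eq_iff_eq, Prod.mk.injEq] at h
  obtain ⟨ha, hb⟩ := h
  have hs : ps = qs := by omega
  subst hs
  cases pd <;> cases qd <;> simp at hb <;> first | (have : pi = qi := by omega) ; subst this ; rfl | omega

instance Pos.instLinearOrder {n : ℕ} : LinearOrder (Pos n) :=
  LinearOrder.lift' Pos.key Pos.key_injective

noncomputable instance Pos.instFintype {n : ℕ} : Fintype (Pos n) :=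
  Fintype.ofInjective
    (fun p => ((⟨p.s, by have := p.hsi; have := p.hin; omega⟩ : Fin n),
      (⟨p.i, by have := p.hin; omega⟩ : Fin n), p.d))
    (by
      intro p q h
      obtain ⟨ps, pi, pd, h1, h2⟩ := p
      obtain ⟨qs, qi, qd, h3, h4⟩ := q
      simp only [Prod.mk.injEq, Fin.mk.injEq] at h
      obtain ⟨rfl, rfl, rfl⟩ := h
      rfl)

/-- the letter of a position. -/
def lett {n : ℕ} (p : Pos n) : Fin n :=
  if p.d = true ∧ p.i + 2 = n then ⟨n - 1, by have := p.hin; omega⟩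
  else ⟨p.i, by have := p.hin; omega⟩

/-- entry `U(i,s)` of `x` (0 outside the range `s ≤ i ≤ n-2`); `uu x (n-2) s` is the spin entry `S-`. -/
def uu {n : ℕ} (x : Pos n → ℤ) (i s : ℕ) : ℤ :=
  if h : s ≤ i ∧ i + 2 ≤ n then x ⟨s, i, false, h.1, h.2⟩ else 0

/-- entry `D(i,s)` of `x` (0 outside the range); `vv x (n-2) s` is the spin entry `S+`. -/
def vv {n : ℕ} (x : Pos n → ℤ) (i s : ℕ) : ℤ :=
  if h : s ≤ i ∧ i + 2 ≤ n then x ⟨s, i, true, h.1, h.2⟩ else 0

/-- `ℕ`-indexed access to a vector indexed by letters. -/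
def la {n : ℕ} (lam : Fin n → ℤ) (i : ℕ) : ℤ := if h : i < n then lam ⟨i, h⟩ else 0

/-- The inequalities of `X(lam)` for two arrays `u v : ℕ → ℕ → ℤ` (`u i s`, `v i s`) and `a : ℕ → ℤ`. -/
structure InXf (n : ℕ) (a : ℕ → ℤ) (u v : ℕ → ℕ → ℤ) : Prop where
  C1 : ∀ s i, s ≤ i → i + 3 ≤ n → u (i + 1) s ≤ u i s
  C2 : ∀ s i, s ≤ i → i + 3 = n → v (i + 1) s ≤ u i s
  C3 : ∀ s i, s ≤ i → i + 3 = n → v i s ≤ u (i + 1) s
  C4 : ∀ s i, s ≤ i → i + 3 ≤ n → v i s ≤ v (i + 1) s
  C5 : ∀ s, s + 2 ≤ n → 0 ≤ v s s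
  C5u : ∀ s, s + 2 = n → 0 ≤ u s s
  R2m : ∀ s, s + 2 = n → u s s ≤ a s
  R2p : ∀ s, s + 2 = n → v s s ≤ a (s + 1)
  E1a : ∀ s i, s ≤ i → i + 3 ≤ n → 0 ≤ a s + v i (s + 1) - v i s
  E1b : ∀ s i, s + 1 ≤ i → i + 3 ≤ n → 0 ≤ a s + u i (s + 1) - u i s
  Ea2 : ∀ s i, s ≤ i → i + 3 ≤ n →
    0 ≤ a s + u (i + 1) (s + 1) + v (i + 1) (s + 1) - v i (s + 1) - u i s
  Ed2 : ∀ s i, s ≤ i → i + 3 ≤ n → 0 ≤ a s + v i (s + 1) + u i s - u (i + 1) s - v (i + 1) s
  Spa : ∀ s i, s + 3 ≤ n → i + 2 = n → 0 ≤ a s + u i (s + 1) - v i s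
  Spb : ∀ s i, s + 3 ≤ n → i + 2 = n → 0 ≤ a s + v i (s + 1) - u i s

/-- `x ∈ X(lam)`. -/
def InX {n : ℕ} (lam : Fin n → ℤ) (x : Pos n → ℤ) : Prop := InXf n (la lam) (uu x) (vv x)

/-- lattice points of the tensor product polytope `P(l,m,v)`. -/
def PolyPt {n : ℕ} (l m v : Fin n → ℤ) (x : Pos n → ℤ) : Prop :=
  InX m x ∧ Good lett l x ∧ ∀ i, ∑ k ∈ Finset.univ.filter (fun k => lett k = i), x k = v i

/-- THE CRUX (Part II): saturation of the lattice points of `P(l,m,v)`. -/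
def Crux : Prop :=
  ∀ (n : ℕ), 2 ≤ n → ∀ (l m v : Fin n → ℤ), (∀ i, 0 ≤ l i) → (∀ i, 0 ≤ m i) →
    ∀ N : ℕ, 1 ≤ N → (∃ x, PolyPt (N • l) (N • m) (N • v) x) → ∃ x, PolyPt l m v x

end Claimed.Agent.R282
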