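/-
Row 282, Part I.  File RootData: elementary facts on `rt`, `pr`, `cart`, `refl`, `rho2`.
All proofs are direct computations with `Finset.sum` over `Fin n` and `if`s.

* `pr` is additive / homogeneous (unfold, `Finset.sum_add_distrib`, `Finset.mul_sum`).
* `pr_of_lt`:  for `i+1 < n`:  `pr i v = v i - v (i+1)`  (only the two indices `i`, `i+1` contribute;
  `Finset.sum_ite_eq`-type lemmas after `simp [rt, h, sub_mul, Finset.sum_sub_distrib]`).
* `pr_last`:   for `i+1 = n`:  `pr i v = v (n-2) + v (n-1)`.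
* `cart_eq_cartN`: apply the two formulas to `v = rt j` and split all `if`s (`omega` closes the index goals).
* `pr_rho2`:   `rho2 n k = 2 (n-1-k)`; consecutive entries differ by 2, the last two are 2 and 0.
-/
import Claimed.Agent.R282.Defs

set_option autoImplicit false

namespace Claimed.Agent.R282
open Claims.C0456

theorem pr_add {n : ℕ} (i : Fin n) (v w : Fin n → ℤ) : pr i (v + w) = pr i v + pr i w := by
  simp [pr, mul_add, Finset.sum_add_distrib]

theorem pr_sub {n : ℕ} (i : Fin n) (v w : Fin n → ℤ) : pr i (v - w) = pr i v - pr i w := by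
  simp [pr, mul_sub, Finset.sum_sub_distrib]

theorem pr_smul {n : ℕ} (i : Fin n) (c : ℤ) (v : Fin n → ℤ) : pr i (c • v) = c * pr i v := by
  simp only [pr, Pi.smul_apply, smul_eq_mul, Finset.mul_sum]
  exact Finset.sum_congr rfl (fun k _ => by ring)

theorem pr_nsmul {n : ℕ} (i : Fin n) (c : ℕ) (v : Fin n → ℤ) : pr i (c • v) = c * pr i v := by
  simp only [pr, Pi.smul_apply, nsmul_eq_mul, Finset.mul_sum]
  exact Finset.sum_congr rfl (fun k _ => by ring)

theorem pr_zero {n : ℕ} (i : Fin n) : pr i (0 : Fin n → ℤ) = 0 := by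
  simp [pr]

theorem pr_sum {n : ℕ} {α : Type} (i : Fin n) (s : Finset α) (f : α → Fin n → ℤ) :
    pr i (∑ a ∈ s, f a) = ∑ a ∈ s, pr i (f a) := by
  classical
  induction s using Finset.induction_on with
  | empty => simp [pr_zero]
  | insert a s ha ih => rw [Finset.sum_insert ha, Finset.sum_insert ha, pr_add, ih]

theorem pr_of_lt {n : ℕ} (i : Fin n) (h : (i : ℕ) + 1 < n) (v : Fin n → ℤ) :
    pr i v = v i - v ⟨i + 1, h⟩ := by
  have h1 : ∀ k : Fin n, rt i k * v k
      = (if k = i then v k else 0) - (if k = (⟨i + 1, h⟩ : Fin n) then v k else 0) := by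
    intro k
    have e1 : ((k : ℕ) = i) ↔ k = i := by
      constructor
      · intro hk; exact Fin.ext hk
      · intro hk; rw [hk]
    have e2 : ((k : ℕ) = i + 1) ↔ k = (⟨i + 1, h⟩ : Fin n) := by
      constructor
      · intro hk; exact Fin.ext hk
      · intro hk; rw [hk]
    simp only [rt, if_pos h, e1, e2]
    split_ifs <;> ring
  simp only [pr, h1, Finset.sum_sub_distrib, Finset.sum_ite_eq', Finset.mem_univ, if_true]

theorem pr_last {n : ℕ} (hn : 2 ≤ n) (i : Fin n) (h : (i : ℕ) + 1 = n) (v : Fin n → ℤ) :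
    pr i v = v ⟨n - 2, by omega⟩ + v ⟨n - 1, by omega⟩ := by
  have hlt : ¬ ((i : ℕ) + 1 < n) := by omega
  have h1 : ∀ k : Fin n, rt i k * v k
      = (if k = (⟨n - 2, by omega⟩ : Fin n) then v k else 0)
        + (if k = (⟨n - 1, by omega⟩ : Fin n) then v k else 0) := by
    intro k
    have e1 : ((k : ℕ) + 2 = n) ↔ k = (⟨n - 2, by omega⟩ : Fin n) := by
      constructor
      · intro hk; apply Fin.ext; simp only; omega
      · intro hk; rw [hk]; simp only; omega
    have e2 : ((k : ℕ) + 1 = n) ↔ k = (⟨n - 1, by omega⟩ : Fin n) := by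
      constructor
      · intro hk; apply Fin.ext; simp only; omega
      · intro hk; rw [hk]; simp only; omega
    simp only [rt, if_neg hlt, e1, e2]
    split_ifs <;> ring
  simp only [pr, h1, Finset.sum_add_distrib, Finset.sum_ite_eq', Finset.mem_univ, if_true]

/-- the Cartan matrix of `D_n` on `ℕ`-valued letters: chain `0 - 1 - ⋯ - (n-2)`, and `n-1` joined to `n-3`. -/
def cartN (n a b : ℕ) : ℤ :=
  if a = b then 2
  else if (a + 1 = b ∧ b + 1 < n) ∨ (b + 1 = a ∧ a + 1 < n) ∨ (a + 3 = n ∧ b + 1 = n) ∨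
      (b + 3 = n ∧ a + 1 = n) then -1
  else 0

theorem cart_eq_cartN {n : ℕ} (hn : 2 ≤ n) (i j : Fin n) : cart i j = cartN n i j := by
  have hi := i.isLt
  have hj := j.isLt
  by_cases h : (i : ℕ) + 1 < n
  · rw [cart, pr_of_lt i h]
    simp only [rt, cartN]
    split_ifs <;> first | omega | rfl
  · have h' : (i : ℕ) + 1 = n := by omega
    rw [cart, pr_last hn i h']
    simp only [rt, cartN]
    split_ifs <;> first | omega | rfl

theorem cart_self {n : ℕ} (hn : 2 ≤ n) (i : Fin n) : cart i i = 2 := by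
  rw [cart_eq_cartN hn]; simp [cartN]

theorem pr_rho2 {n : ℕ} (hn : 2 ≤ n) (i : Fin n) : pr i (rho2 n) = 2 := by
  have hi := i.isLt
  by_cases h : (i : ℕ) + 1 < n
  · rw [pr_of_lt i h]
    simp only [rho2]
    push_cast
    ring
  · have h' : (i : ℕ) + 1 = n := by omega
    rw [pr_last hn i h']
    simp only [rho2]
    have e1 : ((n - 2 : ℕ) : ℤ) = (n : ℤ) - 2 := by omega
    have e2 : ((n - 1 : ℕ) : ℤ) = (n : ℤ) - 1 := by omega
    rw [e1, e2]
    ring

end Claimed.Agent.R282
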