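/-
Row 282, Part I.  File CrysSig (T1a): how `sig` depends on the coordinates.
Setting: `K` finite linear order, `ι : K → Fin n`, `2 ≤ n` (only used for `cart_self : cart i i = 2`).
  σ_k(x) = x_k + ∑_{j>k} cart (ι k) (ι j) x_j   (`sig`),   hw lam x i = lam i - ∑_j cart i (ι j) x_j.
PROOFS.
* `sig_update`: changing `x_k` by `t` changes `σ_j` by `t` (j = k), by `cart (ι j) (ι k) t` (j < k), by 0 (j > k).
    Unfold `sig`; for `j < k` split off the term `k` of the filtered sum (`Finset.sum_update_of_mem`, or
    `Finset.sum_congr` + `Finset.sum_ite_eq`); for `j ≥ k` the filtered sum does not contain `k`.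
* `sig_sub_sig`: for `k < k'` with the same letter, `{j > k} = {k < j < k'} ∪ {k'} ∪ {j > k'}` (disjoint) and `cart i i = 2`.
* `sig_add_hw`: `∑_j = ∑_{j<k} + (j = k) + ∑_{j>k}` and `cart i i = 2`.
-/
import Claimed.Agent.R282.RootData

set_option autoImplicit false

namespace Claimed.Agent.R282
open Claims.C0456

variable {n : ℕ} {K : Type} [Fintype K] [LinearOrder K] (ι : K → Fin n)

theorem sig_update (x : K → ℤ) (k j : K) (t : ℤ) :
    sig ι (Function.update x k (x k + t)) j =
      sig ι x j + (if j = k then t else if j < k then cart (ι j) (ι k) * t else 0) := by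
  have hu : ∀ l, Function.update x k (x k + t) l = x l + (if l = k then t else 0) := by
    intro l
    by_cases h : l = k
    · subst h
      simp
    · simp [h]
  unfold sig
  simp only [hu, Finset.sum_filter]
  have h1 : ∀ l, (if j < l then cart (ι j) (ι l) * (x l + if l = k then t else 0) else 0) =
      (if j < l then cart (ι j) (ι l) * x l else 0) +
        (if l = k then (if j < k then cart (ι j) (ι k) * t else 0) else 0) := by
    intro l
    by_cases hl : l = k
    · subst hl
      by_cases hj : j < l <;> simp [hj, mul_add]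
    · simp [hl]
  simp only [h1, Finset.sum_add_distrib, Finset.sum_ite_eq', Finset.mem_univ, if_true]
  by_cases hjk : j = k
  · subst hjk
    simp
    ring
  · simp only [hjk, if_false]
    ring

theorem sig_sub_sig (hn : 2 ≤ n) (x : K → ℤ) (k k' : K) (hk : k < k') (hl : ι k = ι k') :
    sig ι x k - sig ι x k' =
      x k + x k' + ∑ j ∈ Finset.univ.filter (fun j => k < j ∧ j < k'), cart (ι k) (ι j) * x j := by
  unfold sig
  rw [← hl]
  simp only [Finset.sum_filter]
  have h1 : ∀ j, (if k < j then cart (ι k) (ι j) * x j else 0) =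
      (if k' < j then cart (ι k) (ι j) * x j else 0) +
        (if k < j ∧ j < k' then cart (ι k) (ι j) * x j else 0) +
        (if j = k' then cart (ι k) (ι j) * x j else 0) := by
    intro j
    rcases lt_trichotomy j k' with h | h | h
    · have h2 : ¬ k' < j := not_lt.2 h.le
      have h3 : j ≠ k' := h.ne
      by_cases h4 : k < j <;> simp [h, h2, h3, h4]
    · subst h
      simp [hk]
    · have h2 : k < j := hk.trans h
      have h3 : ¬ j < k' := not_lt.2 h.le
      simp [h, h2, h3, h.ne']
  simp only [h1, Finset.sum_add_distrib, Finset.sum_ite_eq', Finset.mem_univ, if_true]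
  rw [← hl, cart_self hn]
  ring

theorem sig_add_hw (hn : 2 ≤ n) (lam : Fin n → ℤ) (x : K → ℤ) (k : K) :
    sig ι x k + hw ι lam x (ι k) =
      lam (ι k) - x k - ∑ j ∈ Finset.univ.filter (fun j => j < k), cart (ι k) (ι j) * x j := by
  unfold sig hw
  simp only [Finset.sum_filter]
  have h1 : ∀ j, cart (ι k) (ι j) * x j =
      (if j < k then cart (ι k) (ι j) * x j else 0) +
        (if j = k then cart (ι k) (ι j) * x j else 0) +
        (if k < j then cart (ι k) (ι j) * x j else 0) := by
    intro j
    rcases lt_trichotomy j k with h | h | h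
    · simp [h, h.ne, not_lt.2 h.le]
    · subst h
      simp
    · simp [h, h.ne', not_lt.2 h.le]
  have h2 : ∑ j, cart (ι k) (ι j) * x j =
      ∑ j, (if j < k then cart (ι k) (ι j) * x j else 0) + cart (ι k) (ι k) * x k +
        ∑ j, (if k < j then cart (ι k) (ι j) * x j else 0) := by
    calc ∑ j, cart (ι k) (ι j) * x j
        = ∑ j, ((if j < k then cart (ι k) (ι j) * x j else 0) +
            (if j = k then cart (ι k) (ι j) * x j else 0) +
            (if k < j then cart (ι k) (ι j) * x j else 0)) := Finset.sum_congr rfl (fun j _ => h1 j)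
      _ = _ := by
        simp only [Finset.sum_add_distrib, Finset.sum_ite_eq', Finset.mem_univ, if_true]
  rw [h2, cart_self hn]
  ring

end Claimed.Agent.R282
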