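/-
Row 282, Part I.  File ClosDefs: notation for the closure lemmas at the level of arrays `u v : ℕ → ℕ → ℤ`.
`bUD`, `bDU`, `bSm`, `bSp` are the differences of `σ` at consecutive positions of the same letter (see file Beta*).
-/
import Claimed.Agent.R282.Defs

set_option autoImplicit false

namespace Claimed.Agent.R282

/-- the array vanishes outside the range `s ≤ i ≤ n-2`. -/
def Supp (n : ℕ) (w : ℕ → ℕ → ℤ) : Prop := ∀ i s, ¬ (s ≤ i ∧ i + 2 ≤ n) → w i s = 0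

/-- add `t` to the entry `(i,s)`. -/
def bump (w : ℕ → ℕ → ℤ) (i s : ℕ) (t : ℤ) : ℕ → ℕ → ℤ :=
  fun i' s' => w i' s' + if i' = i ∧ s' = s then t else 0

/-- `σ_{U(i,s)} - σ_{D(i,s)}`   (`s ≤ i`, `i+3 ≤ n`). -/
def bUD (u v : ℕ → ℕ → ℤ) (i s : ℕ) : ℤ := u i s + v i s - u (i + 1) s - v (i + 1) s

/-- `σ_{D(i+1,s+1)} - σ_{U(i+1,s)}`   (`s ≤ i`, `i+4 ≤ n`). -/
def bDU (u v : ℕ → ℕ → ℤ) (i s : ℕ) : ℤ := v (i + 1) (s + 1) + u (i + 1) s - v i (s + 1) - u i s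

/-- `σ_{S-(s+1)} - σ_{S-(s)}`, `S-(s) = U(i+1,s)`   (`s ≤ i`, `i+3 = n`). -/
def bSm (u v : ℕ → ℕ → ℤ) (i s : ℕ) : ℤ := u (i + 1) (s + 1) + u (i + 1) s - v i (s + 1) - u i s

/-- `σ_{S+(s+1)} - σ_{S+(s)}`, `S+(s) = D(i+1,s)`   (`s ≤ i`, `i+3 = n`). -/
def bSp (u v : ℕ → ℕ → ℤ) (i s : ℕ) : ℤ := v (i + 1) (s + 1) + v (i + 1) s - v i (s + 1) - u i s

end Claimed.Agent.R282
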