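/-
Row 282, Part I.  File PosApi: basic API for the positions `Pos n`, the letters `lett`, and the accessors `uu`, `vv`, `la`.

PROOFS.
* `Pos.lt_iff`: by definition (`LinearOrder.lift'`) `p < q ↔ p.key < q.key`; `Prod.Lex.lt_iff` (or `Prod.Lex.toLex_lt_toLex`), then
   `n - 2 - p.s < n - 2 - q.s ↔ q.s < p.s` and `n-2-p.s = n-2-q.s ↔ p.s = q.s` by `omega` using `p.hsi, p.hin, q.hsi, q.hin`.
* `lett_val`: unfold `lett`, `split_ifs`.
* `lett_surjective`: letter `j ≤ n-2` is the letter of `⟨j, j, false, _, _⟩`; letter `n-1` is the letter of `⟨n-2, n-2, true, _, _⟩`.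
* `uu_update`, `vv_update`: unfold; `split_ifs`/`by_cases` on the range condition; `Function.update_apply`; two positions are equal iff their
   `s, i, d` agree (`Pos.ext_iff'` below).
-/
import Claimed.Agent.R282.ClosDefs

set_option autoImplicit false

namespace Claimed.Agent.R282

/-- in-row code of a position. -/
def Pos.code {n : ℕ} (p : Pos n) : ℕ := if p.d then 2 * n - 3 - p.i else p.i

theorem Pos.ext_iff' {n : ℕ} (p q : Pos n) : p = q ↔ p.s = q.s ∧ p.i = q.i ∧ p.d = q.d := by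
  constructor
  · rintro rfl; exact ⟨rfl, rfl, rfl⟩
  · obtain ⟨ps, pi, pd, h1, h2⟩ := p
    obtain ⟨qs, qi, qd, h3, h4⟩ := q
    rintro ⟨h5, h6, h7⟩
    simp only at h5 h6 h7
    subst h5 h6 h7
    rfl

theorem Pos.lt_iff {n : ℕ} (p q : Pos n) :
    p < q ↔ q.s < p.s ∨ (p.s = q.s ∧ p.code < q.code) := by
  have h0 : p < q ↔ p.key < q.key := Iff.rfl
  rw [h0, Prod.Lex.lt_iff]
  have h1 := p.hsi
  have h2 := p.hin
  have h3 := q.hsi
  have h4 := q.hin
  simp only [Pos.key, ofLex_toLex, Pos.code]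
  constructor
  · rintro (h | ⟨h, h'⟩)
    · left; omega
    · right; exact ⟨by omega, h'⟩
  · rintro (h | ⟨h, h'⟩)
    · left; omega
    · right; exact ⟨by omega, h'⟩

theorem lett_val {n : ℕ} (p : Pos n) :
    ((lett p : Fin n) : ℕ) = if p.d = true ∧ p.i + 2 = n then n - 1 else p.i := by
  unfold lett
  split_ifs <;> rfl

theorem lett_surjective {n : ℕ} (hn : 2 ≤ n) : Function.Surjective (lett (n := n)) := by
  intro j
  by_cases hj : (j : ℕ) + 2 ≤ n
  · refine ⟨⟨j, j, false, le_rfl, hj⟩, ?_⟩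
    apply Fin.ext
    rw [lett_val]
    simp
  · refine ⟨⟨n - 2, n - 2, true, le_rfl, by omega⟩, ?_⟩
    apply Fin.ext
    rw [lett_val]
    have h1 : n - 2 + 2 = n := by omega
    have := j.2
    simp only [h1, and_self, if_true]
    omega

theorem uu_of {n : ℕ} (x : Pos n → ℤ) (s i : ℕ) (h1 : s ≤ i) (h2 : i + 2 ≤ n) :
    uu x i s = x ⟨s, i, false, h1, h2⟩ := by
  simp [uu, h1, h2]

theorem vv_of {n : ℕ} (x : Pos n → ℤ) (s i : ℕ) (h1 : s ≤ i) (h2 : i + 2 ≤ n) :
    vv x i s = x ⟨s, i, true, h1, h2⟩ := by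
  simp [vv, h1, h2]

theorem supp_uu {n : ℕ} (x : Pos n → ℤ) : Supp n (uu x) := by
  intro i s h
  simp [uu, h]

theorem supp_vv {n : ℕ} (x : Pos n → ℤ) : Supp n (vv x) := by
  intro i s h
  simp [vv, h]

theorem la_of {n : ℕ} (lam : Fin n → ℤ) (i : Fin n) : la lam i = lam i := by
  simp [la]

theorem uu_update {n : ℕ} (x : Pos n → ℤ) (k : Pos n) (t : ℤ) :
    uu (Function.update x k (x k + t)) =
      if k.d = false then bump (uu x) k.i k.s t else uu x := by
  funext i s
  have hk1 := k.hsi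
  have hk2 := k.hin
  by_cases h : s ≤ i ∧ i + 2 ≤ n
  · rw [uu_of _ s i h.1 h.2]
    by_cases hk : (⟨s, i, false, h.1, h.2⟩ : Pos n) = k
    · have hd : k.d = false := by rw [← hk]
      have hi : i = k.i := by rw [← hk]
      have hs : s = k.s := by rw [← hk]
      rw [if_pos hd]
      unfold bump
      rw [if_pos ⟨hi, hs⟩, uu_of x s i h.1 h.2, hk, Function.update_self]
    · rw [Function.update_of_ne hk]
      split_ifs with hd
      · unfold bump
        rw [if_neg, add_zero, uu_of x s i h.1 h.2]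
        rintro ⟨hi, hs⟩
        apply hk
        rw [Pos.ext_iff']
        exact ⟨hs, hi, hd.symm⟩
      · rw [uu_of x s i h.1 h.2]
  · rw [supp_uu _ i s h]
    split_ifs
    · unfold bump
      rw [supp_uu _ i s h, if_neg (by rintro ⟨rfl, rfl⟩; exact h ⟨hk1, hk2⟩), add_zero]
    · rw [supp_uu _ i s h]

theorem vv_update {n : ℕ} (x : Pos n → ℤ) (k : Pos n) (t : ℤ) :
    vv (Function.update x k (x k + t)) =
      if k.d = true then bump (vv x) k.i k.s t else vv x := by
  funext i s
  have hk1 := k.hsi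
  have hk2 := k.hin
  by_cases h : s ≤ i ∧ i + 2 ≤ n
  · rw [vv_of _ s i h.1 h.2]
    by_cases hk : (⟨s, i, true, h.1, h.2⟩ : Pos n) = k
    · have hd : k.d = true := by rw [← hk]
      have hi : i = k.i := by rw [← hk]
      have hs : s = k.s := by rw [← hk]
      rw [if_pos hd]
      unfold bump
      rw [if_pos ⟨hi, hs⟩, vv_of x s i h.1 h.2, hk, Function.update_self]
    · rw [Function.update_of_ne hk]
      split_ifs with hd
      · unfold bump
        rw [if_neg, add_zero, vv_of x s i h.1 h.2]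
        rintro ⟨hi, hs⟩
        apply hk
        rw [Pos.ext_iff']
        exact ⟨hs, hi, hd.symm⟩
      · rw [vv_of x s i h.1 h.2]
  · rw [supp_vv _ i s h]
    split_ifs
    · unfold bump
      rw [supp_vv _ i s h, if_neg (by rintro ⟨rfl, rfl⟩; exact h ⟨hk1, hk2⟩), add_zero]
    · rw [supp_vv _ i s h]

end Claimed.Agent.R282
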