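/-
Row 282, Part I.  File BetaDU: `σ_{D(i+1,s+1)} - σ_{U(i+1,s)}` for `s ≤ i`, `i+4 ≤ n`.
Common tools: `sig_sub_sig` / `sig_add_hw` (file CrysSig) reduce the claim to a sum `∑ j ∈ univ.filter (…), cart (lett k) (lett j) * x j` over the positions
strictly between two positions (resp. before / after one position).  `cart_eq_cartN`, `lett_val` turn `cart (lett k) (lett j)` into an explicit `if` on
`j.s, j.i, j.d`; `Pos.lt_iff` (+ `Pos.code`) turns the order conditions into arithmetic (`omega`).  In each case exactly the listed positions contribute `-x j`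
(`Finset.sum_eq_add_of_mem`/`Finset.sum_eq_add`, `Finset.sum_eq_single`, or: show the filtered sum equals the sum over an explicit `{p, q}`), all the other
`j` in the range have `cartN = 0`.  `uu_of`, `vv_of` (valid index) and `supp_uu`, `supp_vv` (index out of range, value 0) translate `x ⟨..⟩` into `uu`, `vv`.
Word order: rows `s = n-2, …, 0`; row `s` = `U(s,s), U(s+1,s), …, U(n-3,s), S-(s)=U(n-2,s), S+(s)=D(n-2,s), D(n-3,s), …, D(s,s)`;
letters: `U(i,s), D(i,s) ↦ i` except `D(n-2,s) ↦ n-1`.  Cartan matrix: chain `0 - 1 - ⋯ - (n-3) - (n-2)` and `(n-3) - (n-1)`.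
HERE (letter `i+1 ≤ n-3`): between `D(i+1,s+1)` and `U(i+1,s)` lie `D(i',s+1)` with `s+1 ≤ i' ≤ i` and `U(i',s)` with `s ≤ i' ≤ i`.
  Adjacent letter: only `i`, i.e. `D(i,s+1)` (present iff `s+1 ≤ i`; otherwise `vv x i (s+1) = 0` by `supp_vv`) and `U(i,s)`.
-/
import Claimed.Agent.R282.PosApi
import Claimed.Agent.R282.CrysSig

set_option autoImplicit false

namespace Claimed.Agent.R282

theorem betaDU_sum_pos {n : ℕ} (x : Pos n → ℤ) (s i : ℕ) (d : Bool) :
    ∑ j : Pos n, (if j.s = s ∧ j.i = i ∧ j.d = d then - x j else 0) =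
      - (if h : s ≤ i ∧ i + 2 ≤ n then x ⟨s, i, d, h.1, h.2⟩ else 0) := by
  by_cases h : s ≤ i ∧ i + 2 ≤ n
  · rw [dif_pos h]
    rw [Finset.sum_eq_single (⟨s, i, d, h.1, h.2⟩ : Pos n)]
    · simp
    · intro j _ hj
      rw [if_neg]
      intro hh
      exact hj ((Pos.ext_iff' _ _).2 hh)
    · intro hh; exact absurd (Finset.mem_univ _) hh
  · rw [dif_neg h]
    simp only [neg_zero]
    apply Finset.sum_eq_zero
    intro j _
    rw [if_neg]
    rintro ⟨h1, h2, _⟩
    exact h ⟨by have := j.hsi; omega, by have := j.hin; omega⟩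

theorem sig_D_sub_U {n : ℕ} (x : Pos n → ℤ) (s i : ℕ) (h1 : s ≤ i) (h4 : i + 4 ≤ n) :
    sig lett x ⟨s + 1, i + 1, true, by omega, by omega⟩ -
        sig lett x ⟨s, i + 1, false, by omega, by omega⟩ =
      bDU (uu x) (vv x) i s := by
  have hn : 2 ≤ n := by omega
  have hlt : (⟨s + 1, i + 1, true, by omega, by omega⟩ : Pos n) <
      ⟨s, i + 1, false, by omega, by omega⟩ := by
    rw [Pos.lt_iff]; left; show s < s + 1; omega
  have hl : lett (⟨s + 1, i + 1, true, by omega, by omega⟩ : Pos n) =
      lett (⟨s, i + 1, false, by omega, by omega⟩ : Pos n) := by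
    apply Fin.ext
    rw [lett_val, lett_val]
    simp only [Bool.false_eq_true, false_and, if_false, true_and]
    rw [if_neg (by omega)]
  rw [sig_sub_sig lett hn x _ _ hlt hl]
  have hsum : ∑ j ∈ Finset.univ.filter (fun j : Pos n =>
        (⟨s + 1, i + 1, true, by omega, by omega⟩ : Pos n) < j ∧
          j < (⟨s, i + 1, false, by omega, by omega⟩ : Pos n)),
        cart (lett (⟨s + 1, i + 1, true, by omega, by omega⟩ : Pos n)) (lett j) * x j
      = ∑ j : Pos n, ((if j.s = s ∧ j.i = i ∧ j.d = false then - x j else 0) +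
          (if j.s = s + 1 ∧ j.i = i ∧ j.d = true then - x j else 0)) := by
    rw [Finset.sum_filter]
    apply Finset.sum_congr rfl
    intro j _
    rw [cart_eq_cartN hn, lett_val, lett_val]
    have hj1 := j.hsi
    have hj2 := j.hin
    simp only [Pos.lt_iff, Pos.code, cartN, true_and, if_true, Bool.false_eq_true, if_false]
    rw [if_neg (show ¬ (i + 1 + 2 = n) by omega)]
    rcases hd : j.d with _ | _
    · simp only [Bool.false_eq_true, false_and, if_false, and_true, and_false, add_zero]
      by_cases hc : j.s = s ∧ j.i = i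
      · rw [if_pos hc, if_pos (by omega), if_neg (by omega), if_pos (by omega)]
        ring
      · rw [if_neg hc]
        split_ifs <;> first | rfl | (exfalso; omega) | ring
    · simp only [true_and, if_true, and_true, and_false, if_false, zero_add, Bool.true_eq_false]
      by_cases hc : j.s = s + 1 ∧ j.i = i
      · rw [if_pos hc]
        split_ifs <;> first | (exfalso; omega) | ring
      · rw [if_neg hc]
        split_ifs <;> first | rfl | (exfalso; omega) | ring
  rw [hsum, Finset.sum_add_distrib, betaDU_sum_pos, betaDU_sum_pos]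
  rw [bDU, vv_of x (s + 1) (i + 1) (by omega) (by omega), uu_of x s (i + 1) (by omega) (by omega)]
  unfold uu vv
  ring

end Claimed.Agent.R282
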