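/-
Row 282, Part I.  File BetaFirst: `σ_k + <h_i, wt>` at the FIRST position `k` of each letter `i`.
Common tools: `sig_sub_sig` / `sig_add_hw` (file CrysSig) reduce the claim to a sum `∑ j ∈ univ.filter (…), cart (lett k) (lett j) * x j` over the positions
strictly between two positions (resp. before / after one position).  `cart_eq_cartN`, `lett_val` turn `cart (lett k) (lett j)` into an explicit `if` on
`j.s, j.i, j.d`; `Pos.lt_iff` (+ `Pos.code`) turns the order conditions into arithmetic (`omega`).  In each case exactly the listed positions contribute `-x j`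
(`Finset.sum_eq_add_of_mem`/`Finset.sum_eq_add`, `Finset.sum_eq_single`, or: show the filtered sum equals the sum over an explicit `{p, q}`), all the other
`j` in the range have `cartN = 0`.  `uu_of`, `vv_of` (valid index) and `supp_uu`, `supp_vv` (index out of range, value 0) translate `x ⟨..⟩` into `uu`, `vv`.
Word order: rows `s = n-2, …, 0`; row `s` = `U(s,s), U(s+1,s), …, U(n-3,s), S-(s)=U(n-2,s), S+(s)=D(n-2,s), D(n-3,s), …, D(s,s)`;
letters: `U(i,s), D(i,s) ↦ i` except `D(n-2,s) ↦ n-1`.  Cartan matrix: chain `0 - 1 - ⋯ - (n-3) - (n-2)` and `(n-3) - (n-1)`.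
HERE use `sig_add_hw`:  `σ_k + hw lam x (lett k) = lam (lett k) - x_k - ∑_{j<k} cart (lett k) (lett j) x_j`.
  First position of the letter `s ≤ n-3` is `U(s,s)` (first position of row `s`); before it come the rows `s' > s`, with letters `≥ s+1`;
  adjacent letter(s): `s+1` if `s+1 ≤ n-3`, occurring before only in row `s+1` as `U(s+1,s+1)`, `D(s+1,s+1)`; if `s = n-3`: letters `n-2`, `n-1` = the two positions of row `n-2 = s+1`.
  In both cases the contributions are `⟨s+1,s+1,false⟩`, `⟨s+1,s+1,true⟩`.
  First position of the letter `n-2` is `⟨n-2,n-2,false⟩` (the very first position); of the letter `n-1`: `⟨n-2,n-2,true⟩`, preceded only by `⟨n-2,n-2,false⟩` (not adjacent).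
  `la_of`: `la lam i = lam i`.
-/
import Claimed.Agent.R282.PosApi
import Claimed.Agent.R282.CrysSig

set_option autoImplicit false

namespace Claimed.Agent.R282

theorem betaFirst_term_U {n : ℕ} (x : Pos n → ℤ) (s : ℕ) (h3 : s + 3 ≤ n) (j : Pos n) :
    (if j < (⟨s, s, false, le_refl _, by omega⟩ : Pos n) then
        cart (lett (⟨s, s, false, le_refl _, by omega⟩ : Pos n)) (lett j) * x j else 0) =
      (if j = (⟨s + 1, s + 1, false, le_refl _, by omega⟩ : Pos n) then - x j else 0) +
      (if j = (⟨s + 1, s + 1, true, le_refl _, by omega⟩ : Pos n) then - x j else 0) := by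
  obtain ⟨js, ji, jd, h1, h2⟩ := j
  rw [cart_eq_cartN (by omega), lett_val, lett_val]
  simp only [Pos.lt_iff, Pos.ext_iff', Pos.code, cartN]
  cases jd
  · simp only [Bool.false_eq_true, false_and, if_false, and_true, and_false]
    split_ifs <;> omega
  · simp only [Bool.false_eq_true, false_and, if_false, and_true, and_false, true_and, if_true,
      Bool.true_eq_false]
    split_ifs <;> omega

theorem betaFirst_term_Sm {n : ℕ} (x : Pos n → ℤ) (s : ℕ) (h2 : s + 2 = n) (j : Pos n) :
    (if j < (⟨s, s, false, le_refl _, by omega⟩ : Pos n) then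
        cart (lett (⟨s, s, false, le_refl _, by omega⟩ : Pos n)) (lett j) * x j else 0) = 0 := by
  obtain ⟨js, ji, jd, h1, h2'⟩ := j
  simp only [Pos.lt_iff, Pos.code]
  cases jd
  · simp only [Bool.false_eq_true, if_false]
    split_ifs <;> omega
  · simp only [Bool.false_eq_true, if_false, if_true]
    split_ifs <;> omega

theorem betaFirst_term_Sp {n : ℕ} (x : Pos n → ℤ) (s : ℕ) (h2 : s + 2 = n) (j : Pos n) :
    (if j < (⟨s, s, true, le_refl _, by omega⟩ : Pos n) then
        cart (lett (⟨s, s, true, le_refl _, by omega⟩ : Pos n)) (lett j) * x j else 0) = 0 := by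
  obtain ⟨js, ji, jd, h1, h2'⟩ := j
  rw [cart_eq_cartN (by omega), lett_val, lett_val]
  simp only [Pos.lt_iff, Pos.code, cartN]
  cases jd
  · simp only [Bool.false_eq_true, false_and, if_false, true_and, if_true]
    split_ifs <;> omega
  · simp only [true_and, if_true]
    split_ifs <;> omega

theorem sig_first_U {n : ℕ} (lam : Fin n → ℤ) (x : Pos n → ℤ) (s : ℕ) (h3 : s + 3 ≤ n) :
    sig lett x ⟨s, s, false, le_refl _, by omega⟩ +
        hw lett lam x (lett ⟨s, s, false, le_refl _, by omega⟩) =
      la lam s + uu x (s + 1) (s + 1) + vv x (s + 1) (s + 1) - uu x s s := by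
  rw [sig_add_hw lett (by omega), Finset.sum_filter]
  simp only [betaFirst_term_U x s h3, Finset.sum_add_distrib, Finset.sum_ite_eq', Finset.mem_univ,
    if_true]
  rw [uu_of x (s + 1) (s + 1) le_rfl (by omega), vv_of x (s + 1) (s + 1) le_rfl (by omega),
    uu_of x s s le_rfl (by omega), ← la_of lam, lett_val]
  simp only [Bool.false_eq_true, false_and, if_false]
  ring

theorem sig_first_Sm {n : ℕ} (lam : Fin n → ℤ) (x : Pos n → ℤ) (s : ℕ) (h2 : s + 2 = n) :
    sig lett x ⟨s, s, false, le_refl _, by omega⟩ +
        hw lett lam x (lett ⟨s, s, false, le_refl _, by omega⟩) =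
      la lam s - uu x s s := by
  rw [sig_add_hw lett (by omega), Finset.sum_filter]
  simp only [betaFirst_term_Sm x s h2, Finset.sum_const_zero]
  rw [uu_of x s s le_rfl (by omega), ← la_of lam, lett_val]
  simp only [Bool.false_eq_true, false_and, if_false]
  ring

theorem sig_first_Sp {n : ℕ} (lam : Fin n → ℤ) (x : Pos n → ℤ) (s : ℕ) (h2 : s + 2 = n) :
    sig lett x ⟨s, s, true, le_refl _, by omega⟩ +
        hw lett lam x (lett ⟨s, s, true, le_refl _, by omega⟩) =
      la lam (s + 1) - vv x s s := by
  rw [sig_add_hw lett (by omega), Finset.sum_filter]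
  simp only [betaFirst_term_Sp x s h2, Finset.sum_const_zero]
  rw [vv_of x s s le_rfl (by omega), ← la_of lam, lett_val]
  simp only [true_and, if_pos h2]
  have h : n - 1 = s + 1 := by omega
  rw [h]
  ring

end Claimed.Agent.R282
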