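/-
Row 282, Part I.  File BetaLast: `σ` at the LAST position of each letter (all in the last row `s = 0`).
Common tools: `sig_sub_sig` / `sig_add_hw` (file CrysSig) reduce the claim to a sum `∑ j ∈ univ.filter (…), cart (lett k) (lett j) * x j` over the positions
strictly between two positions (resp. before / after one position).  `cart_eq_cartN`, `lett_val` turn `cart (lett k) (lett j)` into an explicit `if` on
`j.s, j.i, j.d`; `Pos.lt_iff` (+ `Pos.code`) turns the order conditions into arithmetic (`omega`).  In each case exactly the listed positions contribute `-x j`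
(`Finset.sum_eq_add_of_mem`/`Finset.sum_eq_add`, `Finset.sum_eq_single`, or: show the filtered sum equals the sum over an explicit `{p, q}`), all the other
`j` in the range have `cartN = 0`.  `uu_of`, `vv_of` (valid index) and `supp_uu`, `supp_vv` (index out of range, value 0) translate `x ⟨..⟩` into `uu`, `vv`.
Word order: rows `s = n-2, …, 0`; row `s` = `U(s,s), U(s+1,s), …, U(n-3,s), S-(s)=U(n-2,s), S+(s)=D(n-2,s), D(n-3,s), …, D(s,s)`;
letters: `U(i,s), D(i,s) ↦ i` except `D(n-2,s) ↦ n-1`.  Cartan matrix: chain `0 - 1 - ⋯ - (n-3) - (n-2)` and `(n-3) - (n-1)`.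
HERE unfold `sig` directly: `σ_k = x_k + ∑_{j>k} cart (lett k) (lett j) x_j`.
  After `D(i+1,0)` come only `D(i',0)`, `i' ≤ i`; adjacent letter: `i' = i`.   After `D(0,0)` comes nothing.
  After `S-(0) = ⟨0,i+1,false⟩` (`i+3 = n`) come `S+(0)` (not adjacent) and `D(i',0)`, `i' ≤ i = n-3`; adjacent: `D(i,0)`.  Same for `S+(0)`.
  For `n = 2` the only positions are `⟨0,0,false⟩ < ⟨0,0,true⟩` with the non-adjacent letters `0, 1`.
-/
import Claimed.Agent.R282.PosApi
import Claimed.Agent.R282.CrysSig

set_option autoImplicit false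

namespace Claimed.Agent.R282

/-- explicit form of `cart (lett k) (lett j)`. -/
theorem betaLast_cart {n : ℕ} (hn : 2 ≤ n) (k j : Pos n) :
    cart (lett k) (lett j) =
      cartN n (if k.d = true ∧ k.i + 2 = n then n - 1 else k.i)
        (if j.d = true ∧ j.i + 2 = n then n - 1 else j.i) := by
  rw [cart_eq_cartN hn, lett_val, lett_val]

theorem sig_last_D0 {n : ℕ} (x : Pos n → ℤ) (h3 : 3 ≤ n) :
    sig lett x ⟨0, 0, true, le_refl _, by omega⟩ = vv x 0 0 := by
  unfold sig
  rw [vv_of x 0 0 (le_refl _) (by omega)]
  rw [Finset.sum_eq_zero, add_zero]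
  intro j hj
  exfalso
  obtain ⟨js, ji, jd, h1, h2⟩ := j
  simp only [Finset.mem_filter, Finset.mem_univ, true_and, Pos.lt_iff, Pos.code] at hj
  cases jd <;> simp at hj <;> omega

theorem sig_last_D {n : ℕ} (x : Pos n → ℤ) (i : ℕ) (h4 : i + 4 ≤ n) :
    sig lett x ⟨0, i + 1, true, by omega, by omega⟩ = vv x (i + 1) 0 - vv x i 0 := by
  unfold sig
  rw [vv_of x 0 (i + 1) (by omega) (by omega), vv_of x 0 i (by omega) (by omega)]
  rw [Finset.sum_eq_single (⟨0, i, true, by omega, by omega⟩ : Pos n)]
  · rw [betaLast_cart (by omega)]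
    have : cartN n (i + 1) i = -1 := by
      unfold cartN
      rw [if_neg (by omega), if_pos (by omega)]
    simp only [true_and]
    rw [if_neg (by omega), if_neg (by omega), this]
    ring
  · intro j hj hne
    obtain ⟨js, ji, jd, h1, h2⟩ := j
    simp only [Finset.mem_filter, Finset.mem_univ, true_and, Pos.lt_iff, Pos.code] at hj
    rw [Ne, Pos.ext_iff'] at hne
    simp only at hne
    rw [betaLast_cart (by omega)]
    simp only [true_and]
    rw [if_neg (by omega)]
    cases jd
    · simp at hj
      omega
    · simp at hj hne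
      simp only [true_and]
      rw [if_neg (by omega)]
      unfold cartN
      rw [if_neg (by omega), if_neg (by omega), zero_mul]
  · intro h
    exfalso
    apply h
    simp only [Finset.mem_filter, Finset.mem_univ, true_and, Pos.lt_iff, Pos.code]
    simp
    omega

theorem sig_last_Sm {n : ℕ} (x : Pos n → ℤ) (i : ℕ) (h3 : i + 3 = n) :
    sig lett x ⟨0, i + 1, false, by omega, by omega⟩ = uu x (i + 1) 0 - vv x i 0 := by
  unfold sig
  rw [uu_of x 0 (i + 1) (by omega) (by omega), vv_of x 0 i (by omega) (by omega)]
  rw [Finset.sum_eq_single (⟨0, i, true, by omega, by omega⟩ : Pos n)]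
  · rw [betaLast_cart (by omega)]
    have : cartN n (i + 1) i = -1 := by
      unfold cartN
      rw [if_neg (by omega), if_pos (by omega)]
    simp only [true_and]
    rw [if_neg (by simp), if_neg (by omega), this]
    ring
  · intro j hj hne
    obtain ⟨js, ji, jd, h1, h2⟩ := j
    simp only [Finset.mem_filter, Finset.mem_univ, true_and, Pos.lt_iff, Pos.code] at hj
    rw [Ne, Pos.ext_iff'] at hne
    simp only at hne
    rw [betaLast_cart (by omega)]
    rw [if_neg (by simp)]
    cases jd
    · simp at hj
      omega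
    · simp at hj hne
      simp only [true_and]
      unfold cartN
      split_ifs <;> omega
  · intro h
    exfalso
    apply h
    simp only [Finset.mem_filter, Finset.mem_univ, true_and, Pos.lt_iff, Pos.code]
    simp
    omega

theorem sig_last_Sp {n : ℕ} (x : Pos n → ℤ) (i : ℕ) (h3 : i + 3 = n) :
    sig lett x ⟨0, i + 1, true, by omega, by omega⟩ = vv x (i + 1) 0 - vv x i 0 := by
  unfold sig
  rw [vv_of x 0 (i + 1) (by omega) (by omega), vv_of x 0 i (by omega) (by omega)]
  rw [Finset.sum_eq_single (⟨0, i, true, by omega, by omega⟩ : Pos n)]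
  · rw [betaLast_cart (by omega)]
    have : cartN n (n - 1) i = -1 := by
      unfold cartN
      rw [if_neg (by omega), if_pos (by omega)]
    simp only [true_and]
    rw [if_pos (by omega), if_neg (by omega), this]
    ring
  · intro j hj hne
    obtain ⟨js, ji, jd, h1, h2⟩ := j
    simp only [Finset.mem_filter, Finset.mem_univ, true_and, Pos.lt_iff, Pos.code] at hj
    rw [Ne, Pos.ext_iff'] at hne
    simp only at hne
    rw [betaLast_cart (by omega)]
    simp only [true_and]
    rw [if_pos (by omega)]
    cases jd
    · simp at hj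
      omega
    · simp at hj hne
      simp only [true_and]
      unfold cartN
      split_ifs <;> omega
  · intro h
    exfalso
    apply h
    simp only [Finset.mem_filter, Finset.mem_univ, true_and, Pos.lt_iff, Pos.code]
    simp
    omega

theorem sig_last_Sm2 {n : ℕ} (x : Pos n → ℤ) (h2 : n = 2) :
    sig lett x ⟨0, 0, false, le_refl _, by omega⟩ = uu x 0 0 := by
  unfold sig
  rw [uu_of x 0 0 (le_refl _) (by omega)]
  rw [Finset.sum_eq_zero, add_zero]
  intro j hj
  obtain ⟨js, ji, jd, h1, h2⟩ := j
  simp only [Finset.mem_filter, Finset.mem_univ, true_and, Pos.lt_iff, Pos.code] at hj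
  rw [betaLast_cart (by omega)]
  rw [if_neg (by simp)]
  cases jd
  · simp at hj
    omega
  · simp at hj
    simp only [true_and]
    rw [if_pos (by omega)]
    unfold cartN
    rw [if_neg (by omega), if_neg (by omega), zero_mul]

theorem sig_last_Sp2 {n : ℕ} (x : Pos n → ℤ) (h2 : n = 2) :
    sig lett x ⟨0, 0, true, le_refl _, by omega⟩ = vv x 0 0 := by
  unfold sig
  rw [vv_of x 0 0 (le_refl _) (by omega)]
  rw [Finset.sum_eq_zero, add_zero]
  intro j hj
  exfalso
  obtain ⟨js, ji, jd, h1, h2⟩ := j
  simp only [Finset.mem_filter, Finset.mem_univ, true_and, Pos.lt_iff, Pos.code] at hj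
  cases jd <;> simp at hj <;> omega

end Claimed.Agent.R282
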