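/-
Row 282, Part I.  File BetaS: `σ_{S±(s+1)} - σ_{S±(s)}` (`i + 3 = n`, `s ≤ i`; `S-(s) = ⟨s,i+1,false⟩` letter `n-2`, `S+(s) = ⟨s,i+1,true⟩` letter `n-1`).
Common tools: `sig_sub_sig` / `sig_add_hw` (file CrysSig) reduce the claim to a sum `∑ j ∈ univ.filter (…), cart (lett k) (lett j) * x j` over the positions
strictly between two positions (resp. before / after one position).  `cart_eq_cartN`, `lett_val` turn `cart (lett k) (lett j)` into an explicit `if` on
`j.s, j.i, j.d`; `Pos.lt_iff` (+ `Pos.code`) turns the order conditions into arithmetic (`omega`).  In each case exactly the listed positions contribute `-x j`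
(`Finset.sum_eq_add_of_mem`/`Finset.sum_eq_add`, `Finset.sum_eq_single`, or: show the filtered sum equals the sum over an explicit `{p, q}`), all the other
`j` in the range have `cartN = 0`.  `uu_of`, `vv_of` (valid index) and `supp_uu`, `supp_vv` (index out of range, value 0) translate `x ⟨..⟩` into `uu`, `vv`.
Word order: rows `s = n-2, …, 0`; row `s` = `U(s,s), U(s+1,s), …, U(n-3,s), S-(s)=U(n-2,s), S+(s)=D(n-2,s), D(n-3,s), …, D(s,s)`;
letters: `U(i,s), D(i,s) ↦ i` except `D(n-2,s) ↦ n-1`.  Cartan matrix: chain `0 - 1 - ⋯ - (n-3) - (n-2)` and `(n-3) - (n-1)`.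
HERE: between `S-(s+1)` and `S-(s)` lie `S+(s+1)` (letter `n-1`, NOT adjacent to `n-2`), `D(i',s+1)` (`s+1 ≤ i' ≤ n-3`), `U(i',s)` (`s ≤ i' ≤ n-3`).
  Adjacent to `n-2`: letter `n-3 = i`: `D(i,s+1)` (present iff `s+1 ≤ i`, else `vv x i (s+1) = 0`) and `U(i,s)`.
  Between `S+(s+1)` and `S+(s)`: `D(i',s+1)`, `U(i',s)` as before and `S-(s)` (not adjacent to `n-1`).  Same two contributions.
-/
import Claimed.Agent.R282.PosApi
import Claimed.Agent.R282.CrysSig

set_option autoImplicit false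

namespace Claimed.Agent.R282

theorem betaS_sum_uu {n : ℕ} (x : Pos n → ℤ) (a b : ℕ) :
    ∑ j : Pos n, (if j.s = b ∧ j.i = a ∧ j.d = false then x j else 0) = uu x a b := by
  by_cases h : b ≤ a ∧ a + 2 ≤ n
  · rw [uu_of x b a h.1 h.2, Finset.sum_eq_single (⟨b, a, false, h.1, h.2⟩ : Pos n)]
    · simp
    · intro j _ hj
      rw [if_neg]
      intro hc
      exact hj ((Pos.ext_iff' _ _).2 hc)
    · intro hh
      exact absurd (Finset.mem_univ _) hh
  · rw [supp_uu x a b h]
    apply Finset.sum_eq_zero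
    intro j _
    rw [if_neg]
    rintro ⟨h1, h2, -⟩
    exact h ⟨by have := j.hsi; omega, by have := j.hin; omega⟩

theorem betaS_sum_vv {n : ℕ} (x : Pos n → ℤ) (a b : ℕ) :
    ∑ j : Pos n, (if j.s = b ∧ j.i = a ∧ j.d = true then x j else 0) = vv x a b := by
  by_cases h : b ≤ a ∧ a + 2 ≤ n
  · rw [vv_of x b a h.1 h.2, Finset.sum_eq_single (⟨b, a, true, h.1, h.2⟩ : Pos n)]
    · simp
    · intro j _ hj
      rw [if_neg]
      intro hc
      exact hj ((Pos.ext_iff' _ _).2 hc)
    · intro hh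
      exact absurd (Finset.mem_univ _) hh
  · rw [supp_vv x a b h]
    apply Finset.sum_eq_zero
    intro j _
    rw [if_neg]
    rintro ⟨h1, h2, -⟩
    exact h ⟨by have := j.hsi; omega, by have := j.hin; omega⟩

/-- the contribution of a position `j` between `S±(s+1)` and `S±(s)`. -/
theorem betaS_term {n : ℕ} (x : Pos n → ℤ) (s i : ℕ) (h1 : s ≤ i) (h3 : i + 3 = n) (d : Bool)
    (j : Pos n) :
    (if (⟨s + 1, i + 1, d, by omega, by omega⟩ : Pos n) < j ∧
        j < (⟨s, i + 1, d, by omega, by omega⟩ : Pos n) then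
      cart (lett (⟨s + 1, i + 1, d, by omega, by omega⟩ : Pos n)) (lett j) * x j else 0) =
    - (if j.s = s + 1 ∧ j.i = i ∧ j.d = true then x j else 0)
      - (if j.s = s ∧ j.i = i ∧ j.d = false then x j else 0) := by
  rw [cart_eq_cartN (by omega), lett_val, lett_val]
  simp only [Pos.lt_iff]
  generalize x j = X
  obtain ⟨js, ji, jd, hj1, hj2⟩ := j
  cases jd <;> cases d <;>
    simp only [Pos.code, cartN, Bool.false_eq_true, false_and, and_false, if_false, and_true,
      true_and, if_true, neg_zero, zero_sub] <;>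
    split_ifs <;> first | omega | tauto

theorem betaS_sum {n : ℕ} (x : Pos n → ℤ) (s i : ℕ) (h1 : s ≤ i) (h3 : i + 3 = n) (d : Bool) :
    ∑ j ∈ Finset.univ.filter (fun j => (⟨s + 1, i + 1, d, by omega, by omega⟩ : Pos n) < j ∧
        j < (⟨s, i + 1, d, by omega, by omega⟩ : Pos n)),
      cart (lett (⟨s + 1, i + 1, d, by omega, by omega⟩ : Pos n)) (lett j) * x j =
    - vv x i (s + 1) - uu x i s := by
  rw [Finset.sum_filter, Finset.sum_congr rfl (fun j _ => betaS_term x s i h1 h3 d j),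
    Finset.sum_sub_distrib, Finset.sum_neg_distrib, betaS_sum_vv, betaS_sum_uu]

theorem sig_Sm_sub {n : ℕ} (x : Pos n → ℤ) (s i : ℕ) (h1 : s ≤ i) (h3 : i + 3 = n) :
    sig lett x ⟨s + 1, i + 1, false, by omega, by omega⟩ -
        sig lett x ⟨s, i + 1, false, by omega, by omega⟩ =
      bSm (uu x) (vv x) i s := by
  rw [sig_sub_sig lett (by omega) x _ _ ((Pos.lt_iff _ _).2 (Or.inl (Nat.lt_succ_self s)))
    (Fin.ext (by rw [lett_val, lett_val])), betaS_sum x s i h1 h3 false, bSm,
    uu_of x (s + 1) (i + 1) (by omega) (by omega), uu_of x s (i + 1) (by omega) (by omega)]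
  ring

theorem sig_Sp_sub {n : ℕ} (x : Pos n → ℤ) (s i : ℕ) (h1 : s ≤ i) (h3 : i + 3 = n) :
    sig lett x ⟨s + 1, i + 1, true, by omega, by omega⟩ -
        sig lett x ⟨s, i + 1, true, by omega, by omega⟩ =
      bSp (uu x) (vv x) i s := by
  rw [sig_sub_sig lett (by omega) x _ _ ((Pos.lt_iff _ _).2 (Or.inl (Nat.lt_succ_self s)))
    (Fin.ext (by rw [lett_val, lett_val])), betaS_sum x s i h1 h3 true, bSp,
    vv_of x (s + 1) (i + 1) (by omega) (by omega), vv_of x s (i + 1) (by omega) (by omega)]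
  ring

end Claimed.Agent.R282
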