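/-
Row 282, Part I.  File BetaUD: `σ_{U(i,s)} - σ_{D(i,s)}` for `s ≤ i ≤ n-3`.
Common tools: `sig_sub_sig` / `sig_add_hw` (file CrysSig) reduce the claim to a sum `∑ j ∈ univ.filter (…), cart (lett k) (lett j) * x j` over the positions
strictly between two positions (resp. before / after one position).  `cart_eq_cartN`, `lett_val` turn `cart (lett k) (lett j)` into an explicit `if` on
`j.s, j.i, j.d`; `Pos.lt_iff` (+ `Pos.code`) turns the order conditions into arithmetic (`omega`).  In each case exactly the listed positions contribute `-x j`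
(`Finset.sum_eq_add_of_mem`/`Finset.sum_eq_add`, `Finset.sum_eq_single`, or: show the filtered sum equals the sum over an explicit `{p, q}`), all the other
`j` in the range have `cartN = 0`.  `uu_of`, `vv_of` (valid index) and `supp_uu`, `supp_vv` (index out of range, value 0) translate `x ⟨..⟩` into `uu`, `vv`.
Word order: rows `s = n-2, …, 0`; row `s` = `U(s,s), U(s+1,s), …, U(n-3,s), S-(s)=U(n-2,s), S+(s)=D(n-2,s), D(n-3,s), …, D(s,s)`;
letters: `U(i,s), D(i,s) ↦ i` except `D(n-2,s) ↦ n-1`.  Cartan matrix: chain `0 - 1 - ⋯ - (n-3) - (n-2)` and `(n-3) - (n-1)`.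
HERE: between `U(i,s)` and `D(i,s)` lie `U(i',s)`, `D(i',s)` with `i < i' ≤ n-2`.  Letter adjacent to `i`:
  if `i+1 ≤ n-3`: only `i' = i+1` (both `U(i+1,s)`, `D(i+1,s)`, letter `i+1`);
  if `i = n-3`: `U(n-2,s)` (letter `n-2`) and `D(n-2,s)` (letter `n-1`), both adjacent to `n-3`.  In both cases the two positions are `⟨s,i+1,false⟩, ⟨s,i+1,true⟩`.
-/
import Claimed.Agent.R282.PosApi
import Claimed.Agent.R282.CrysSig

set_option autoImplicit false

namespace Claimed.Agent.R282

theorem sig_U_sub_D {n : ℕ} (x : Pos n → ℤ) (s i : ℕ) (h1 : s ≤ i) (h3 : i + 3 ≤ n) :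
    sig lett x ⟨s, i, false, h1, by omega⟩ - sig lett x ⟨s, i, true, h1, by omega⟩ =
      bUD (uu x) (vv x) i s := by
  have hn : 2 ≤ n := by omega
  set k : Pos n := ⟨s, i, false, h1, by omega⟩ with hk
  set k' : Pos n := ⟨s, i, true, h1, by omega⟩ with hk'
  set p : Pos n := ⟨s, i + 1, false, by omega, by omega⟩ with hp
  set q : Pos n := ⟨s, i + 1, true, by omega, by omega⟩ with hq
  have hkk' : k < k' := by
    rw [Pos.lt_iff]
    right
    refine ⟨rfl, ?_⟩
    simp only [Pos.code, hk, hk']
    simp
    omega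
  have hl : lett k = lett k' := by
    apply Fin.ext
    rw [lett_val, lett_val]
    simp only [hk, hk']
    simp
    omega
  have hlk : ((lett k : Fin n) : ℕ) = i := by
    rw [lett_val]; simp [hk]
  rw [sig_sub_sig lett hn x k k' hkk' hl]
  have hpq : p ≠ q := by
    intro h
    have := (Pos.ext_iff' p q).1 h
    simp [hp, hq] at this
  have hsub : ({p, q} : Finset (Pos n)) ⊆ Finset.univ.filter (fun j => k < j ∧ j < k') := by
    intro j hj
    rw [Finset.mem_insert, Finset.mem_singleton] at hj
    rw [Finset.mem_filter]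
    refine ⟨Finset.mem_univ _, ?_⟩
    rcases hj with rfl | rfl
    · rw [Pos.lt_iff, Pos.lt_iff]
      simp only [Pos.code, hk, hk', hp]
      simp
      omega
    · rw [Pos.lt_iff, Pos.lt_iff]
      simp only [Pos.code, hk, hk', hq]
      simp
      omega
  have hzero : ∀ j ∈ Finset.univ.filter (fun j => k < j ∧ j < k'), j ∉ ({p, q} : Finset (Pos n)) →
      cart (lett k) (lett j) * x j = 0 := by
    intro j hj hnot
    rw [Finset.mem_filter] at hj
    obtain ⟨-, hj1, hj2⟩ := hj
    rw [Finset.mem_insert, Finset.mem_singleton, not_or] at hnot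
    obtain ⟨hnp, hnq⟩ := hnot
    rw [Pos.ext_iff'] at hnp hnq
    rw [Pos.lt_iff] at hj1 hj2
    have hc : cart (lett k) (lett j) = 0 := by
      rw [cart_eq_cartN hn, hlk, lett_val]
      obtain ⟨js, ji, jd, g1, g2⟩ := j
      simp only [Pos.code, hk, hk', hp, hq] at hj1 hj2 hnp hnq ⊢
      cases jd
      · simp at hj1 hj2 hnp hnq ⊢
        unfold cartN
        rw [if_neg (by omega), if_neg (by omega)]
      · simp at hj1 hj2 hnp hnq ⊢
        unfold cartN
        split_ifs <;> omega
    rw [hc, zero_mul]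
  rw [← Finset.sum_subset hsub hzero, Finset.sum_pair hpq]
  have hcp : cart (lett k) (lett p) = -1 := by
    rw [cart_eq_cartN hn, hlk, lett_val]
    simp only [hp]
    simp
    unfold cartN
    rw [if_neg (by omega), if_pos (by omega)]
  have hcq : cart (lett k) (lett q) = -1 := by
    rw [cart_eq_cartN hn, hlk, lett_val]
    simp only [hq]
    simp
    unfold cartN
    split_ifs <;> omega
  rw [hcp, hcq, bUD, uu_of x s i h1 (by omega), vv_of x s i h1 (by omega),
    uu_of x s (i + 1) (by omega) (by omega), vv_of x s (i + 1) (by omega) (by omega)]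
  ring

end Claimed.Agent.R282
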