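/-
Row 282, Part I.  File BridgeCoord: coordinates of an integer combination of simple roots; linear independence.

PROOFS.
* `sum_smul_rt_apply`: `(∑ i, c i • rt i) k = ∑ i, c i * rt i k` (`Finset.sum_apply`, `Pi.smul_apply`, `smul_eq_mul`).  By definition, for `i+1 < n`: `rt i k = [k = i] - [k = i+1]`, and for `i = n-1`:
    `rt i k = [k+2 = n] + [k+1 = n]`.   Split the sum according to `i+1 < n` or not (`Finset.sum_ite`/`Finset.sum_filter`, or `Fin.sum_univ_castSucc` after `obtain ⟨m, rfl⟩ : ∃ m, n = m+1`), and use `Finset.sum_ite_eq`.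
    `la c j = c ⟨j,_⟩` for `j < n` (unfold `la`, `dif_pos`).
* `rt_lin_indep`: evaluate at the coordinates:  `k = 0` (`n ≥ 3`): `c 0 = 0`;  `1 ≤ k ≤ n-3`: `c k = c (k-1)`; so `la c k = 0` for `k + 3 ≤ n` by induction on `k`.
    `k = n-2`: `c (n-2) - c (n-3) + c (n-1) = 0` (no middle term if `n = 2`);  `k = n-1`: `- c (n-2) + c (n-1) = 0`.  Hence `c (n-2) = c (n-1)`, `2 c (n-1) = 0`.
-/
import Claimed.Agent.R282.RootData

set_option autoImplicit false

namespace Claimed.Agent.R282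
open Claims.C0456

theorem bridgeCoord_sum_pick {n : ℕ} (c : Fin n → ℤ) (j : ℕ) (P : Prop) [Decidable P] :
    ∑ i : Fin n, (if (i : ℕ) = j ∧ P then c i else 0) = if P then la c j else 0 := by
  by_cases hj : j < n
  · rw [Finset.sum_eq_single (⟨j, hj⟩ : Fin n)]
    · by_cases hP : P
      · simp [hP, la, hj]
      · simp [hP]
    · intro b _ hb
      have : (b : ℕ) ≠ j := fun h => hb (Fin.ext h)
      simp [this]
    · intro h
      exact absurd (Finset.mem_univ _) h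
  · have h0 : la c j = 0 := by simp [la, hj]
    rw [h0, ite_self]
    apply Finset.sum_eq_zero
    intro i _
    have : (i : ℕ) ≠ j := fun h => hj (h ▸ i.2)
    simp [this]

theorem sum_smul_rt_apply {n : ℕ} (hn : 2 ≤ n) (c : Fin n → ℤ) (k : Fin n) :
    (∑ i, c i • rt i) k =
      (if (k : ℕ) + 1 < n then la c k else 0) - (if 1 ≤ (k : ℕ) then la c (k - 1) else 0) +
        (if (k : ℕ) + 2 = n ∨ (k : ℕ) + 1 = n then la c (n - 1) else 0) := by
  rw [Finset.sum_apply]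
  rw [← bridgeCoord_sum_pick c k ((k : ℕ) + 1 < n), ← bridgeCoord_sum_pick c (k - 1) (1 ≤ (k : ℕ)),
    ← bridgeCoord_sum_pick c (n - 1) ((k : ℕ) + 2 = n ∨ (k : ℕ) + 1 = n),
    ← Finset.sum_sub_distrib, ← Finset.sum_add_distrib]
  refine Finset.sum_congr rfl fun i _ => ?_
  have hi := i.2
  have hk := k.2
  simp only [Pi.smul_apply, smul_eq_mul, rt]
  by_cases h1 : (i : ℕ) + 1 < n
  · have e3 : ¬ ((i : ℕ) = n - 1 ∧ ((k : ℕ) + 2 = n ∨ (k : ℕ) + 1 = n)) := by omega
    rw [if_pos h1, if_neg e3]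
    by_cases h2 : (k : ℕ) = i
    · have e1 : (i : ℕ) = k ∧ (k : ℕ) + 1 < n := by omega
      have e2 : ¬ ((i : ℕ) = k - 1 ∧ 1 ≤ (k : ℕ)) := by omega
      have e4 : ¬ ((k : ℕ) = i + 1) := by omega
      rw [if_pos h2, if_neg e4, if_pos e1, if_neg e2]
      ring
    · by_cases h3 : (k : ℕ) = i + 1
      · have e1 : ¬ ((i : ℕ) = k ∧ (k : ℕ) + 1 < n) := by omega
        have e2 : (i : ℕ) = k - 1 ∧ 1 ≤ (k : ℕ) := by omega
        rw [if_neg h2, if_pos h3, if_neg e1, if_pos e2]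
        ring
      · have e1 : ¬ ((i : ℕ) = k ∧ (k : ℕ) + 1 < n) := by omega
        have e2 : ¬ ((i : ℕ) = k - 1 ∧ 1 ≤ (k : ℕ)) := by omega
        rw [if_neg h2, if_neg h3, if_neg e1, if_neg e2]
        ring
  · rw [if_neg h1]
    by_cases h2 : (k : ℕ) + 2 = n
    · have e1 : ¬ ((i : ℕ) = k ∧ (k : ℕ) + 1 < n) := by omega
      have e2 : ¬ ((i : ℕ) = k - 1 ∧ 1 ≤ (k : ℕ)) := by omega
      have e3 : (i : ℕ) = n - 1 ∧ ((k : ℕ) + 2 = n ∨ (k : ℕ) + 1 = n) := by omega
      have e4 : ¬ ((k : ℕ) + 1 = n) := by omega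
      rw [if_pos h2, if_neg e4, if_neg e1, if_neg e2, if_pos e3]
      ring
    · by_cases h3 : (k : ℕ) + 1 = n
      · have e1 : ¬ ((i : ℕ) = k ∧ (k : ℕ) + 1 < n) := by omega
        have e2 : ¬ ((i : ℕ) = k - 1 ∧ 1 ≤ (k : ℕ)) := by omega
        have e3 : (i : ℕ) = n - 1 ∧ ((k : ℕ) + 2 = n ∨ (k : ℕ) + 1 = n) := by omega
        rw [if_neg h2, if_pos h3, if_neg e1, if_neg e2, if_pos e3]
        ring
      · have e1 : ¬ ((i : ℕ) = k ∧ (k : ℕ) + 1 < n) := by omega
        have e2 : ¬ ((i : ℕ) = k - 1 ∧ 1 ≤ (k : ℕ)) := by omega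
        have e3 : ¬ ((i : ℕ) = n - 1 ∧ ((k : ℕ) + 2 = n ∨ (k : ℕ) + 1 = n)) := by omega
        rw [if_neg h2, if_neg h3, if_neg e1, if_neg e2, if_neg e3]
        ring

theorem rt_lin_indep {n : ℕ} (hn : 2 ≤ n) (c : Fin n → ℤ) (h : ∑ i, c i • rt i = 0) : c = 0 := by
  have key : ∀ k : Fin n,
      (if (k : ℕ) + 1 < n then la c k else 0) - (if 1 ≤ (k : ℕ) then la c (k - 1) else 0) +
        (if (k : ℕ) + 2 = n ∨ (k : ℕ) + 1 = n then la c (n - 1) else 0) = 0 := by
    intro k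
    rw [← sum_smul_rt_apply hn c k, h]
    rfl
  have hA : ∀ j : ℕ, j + 3 ≤ n → la c j = 0 := by
    intro j
    induction j with
    | zero =>
      intro hj
      have := key ⟨0, by omega⟩
      have e1 : (0 : ℕ) + 1 < n := by omega
      have e2 : ¬ (1 ≤ (0 : ℕ)) := by omega
      have e3 : ¬ ((0 : ℕ) + 2 = n ∨ (0 : ℕ) + 1 = n) := by omega
      simp only [if_pos e1, if_neg e2, if_neg e3] at this
      linarith
    | succ j ih =>
      intro hj
      have := key ⟨j + 1, by omega⟩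
      have e1 : (j + 1) + 1 < n := by omega
      have e2 : 1 ≤ j + 1 := by omega
      have e3 : ¬ ((j + 1) + 2 = n ∨ (j + 1) + 1 = n) := by omega
      simp only [if_pos e1, if_pos e2, if_neg e3, Nat.add_sub_cancel] at this
      have h0 := ih (by omega)
      linarith
  have hB := key ⟨n - 2, by omega⟩
  have hC := key ⟨n - 1, by omega⟩
  have b1 : (n - 2) + 1 < n := by omega
  have b3 : (n - 2) + 2 = n ∨ (n - 2) + 1 = n := by omega
  have c1 : ¬ ((n - 1) + 1 < n) := by omega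
  have c2 : 1 ≤ n - 1 := by omega
  have c3 : (n - 1) + 2 = n ∨ (n - 1) + 1 = n := by omega
  have c4 : n - 1 - 1 = n - 2 := by omega
  simp only [if_pos b1, if_pos b3] at hB
  simp only [if_neg c1, if_pos c2, if_pos c3, c4] at hC
  have hmid : (if 1 ≤ n - 2 then la c (n - 2 - 1) else 0) = 0 := by
    split_ifs with h1
    · exact hA _ (by omega)
    · rfl
  rw [hmid] at hB
  have h2 : la c (n - 2) = 0 := by linarith
  have h1 : la c (n - 1) = 0 := by linarith
  funext i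
  have hi := i.2
  have hla : la c i = c i := by simp [la]
  rw [← hla]
  by_cases g1 : (i : ℕ) + 3 ≤ n
  · exact hA _ g1
  · by_cases g2 : (i : ℕ) = n - 2
    · rw [g2]; exact h2
    · have g3 : (i : ℕ) = n - 1 := by omega
      rw [g3]; exact h1

end Claimed.Agent.R282
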