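/-
Row 282, Part I.  File BridgeDom: dominant weights in the frozen doubled coordinates versus fundamental-weight coordinates.

PROOFS.  `IsDominantWeight2 L` = (all `L i - L j` even) ∧ (`|L j| ≤ L i` for `i < j`).   `pr_of_lt`, `pr_last` compute `pr i L`.
* `dom_fund`: for `i+1 < n`: `pr i L = L i - L (i+1)` is even and `≥ 0` (`L (i+1) ≤ |L (i+1)| ≤ L i`).  For `i+1 = n`:
    `pr i L = L (n-2) + L (n-1) = (L (n-2) - L (n-1)) + 2 L (n-1)` is even and `≥ 0` (`-L (n-1) ≤ |L (n-1)| ≤ L (n-2)`).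
    Take `l i := pr i L / 2` (`Int.ediv_mul_cancel`/`Even` ⇒ `∃ r, _ = r + r`; or use `choose`).
* `dual_dominant`: for `n` even nothing changes.  For `n` odd only the last entry changes sign: `|−K_last| = |K_last|`;
    `K i + K last = (K i - K last) + 2 K last` is even.
* `dual_nsmul`: unfold, `split_ifs`, `funext`.
-/
import Claimed.Agent.R282.RootData

set_option autoImplicit false

namespace Claimed.Agent.R282
open Claims.C0456

theorem dom_fund {n : ℕ} (hn : 2 ≤ n) (L : Fin n → ℤ) (hL : IsDominantWeight2 L) :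
    ∃ l : Fin n → ℤ, (∀ i, 0 ≤ l i) ∧ ∀ i, pr i L = 2 * l i := by
  have key : ∀ i : Fin n, ∃ r : ℤ, 0 ≤ r ∧ pr i L = 2 * r := by
    intro i
    by_cases h : (i : ℕ) + 1 < n
    · rw [pr_of_lt i h]
      obtain ⟨r, hr⟩ := hL.1 i ⟨i + 1, h⟩
      have h1 : |L ⟨i + 1, h⟩| ≤ L i := hL.2 i ⟨i + 1, h⟩ (by
        rw [Fin.lt_def]
        show (i : ℕ) < (i : ℕ) + 1
        omega)
      have h2 := le_abs_self (L ⟨i + 1, h⟩)
      exact ⟨r, by omega, by omega⟩
    · have h' : (i : ℕ) + 1 = n := by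
        have := i.2
        omega
      rw [pr_last hn i h']
      obtain ⟨r, hr⟩ := hL.1 ⟨n - 2, by omega⟩ ⟨n - 1, by omega⟩
      have h1 : |L ⟨n - 1, by omega⟩| ≤ L ⟨n - 2, by omega⟩ :=
        hL.2 ⟨n - 2, by omega⟩ ⟨n - 1, by omega⟩ (by
          rw [Fin.lt_def]
          show n - 2 < n - 1
          omega)
      have h2 := neg_abs_le (L ⟨n - 1, by omega⟩)
      exact ⟨r + L ⟨n - 1, by omega⟩, by omega, by omega⟩
  choose l hl using key
  exact ⟨l, fun i => (hl i).1, fun i => (hl i).2⟩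

theorem dual_dominant {n : ℕ} (K : Fin n → ℤ) (hK : IsDominantWeight2 K) :
    IsDominantWeight2 (dualWeightD K) := by
  unfold dualWeightD
  by_cases hn : Even n
  · rw [if_pos hn]
    exact hK
  · rw [if_neg hn]
    refine ⟨fun i j => ?_, fun i j hij => ?_⟩
    · obtain ⟨r, hr⟩ := hK.1 i j
      show Even ((if (i : ℕ) + 1 = n then -K i else K i) - (if (j : ℕ) + 1 = n then -K j else K j))
      split_ifs
      · exact ⟨-r, by omega⟩
      · exact ⟨r - K i, by omega⟩
      · exact ⟨r + K j, by omega⟩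
      · exact ⟨r, hr⟩
    · have h1 := hK.2 i j hij
      have hi : ¬ ((i : ℕ) + 1 = n) := by
        have h2 : (i : ℕ) < (j : ℕ) := hij
        have h3 := j.2
        omega
      show |(if (j : ℕ) + 1 = n then -K j else K j)| ≤ (if (i : ℕ) + 1 = n then -K i else K i)
      rw [if_neg hi]
      split_ifs
      · rw [abs_neg]
        exact h1
      · exact h1

theorem dual_nsmul {n : ℕ} (N : ℕ) (K : Fin n → ℤ) : dualWeightD (N • K) = N • dualWeightD K := by
  unfold dualWeightD
  split_ifs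
  · rfl
  · funext i
    show (if (i : ℕ) + 1 = n then -((N • K) i) else (N • K) i)
      = N • (if (i : ℕ) + 1 = n then -K i else K i)
    split_ifs
    · rw [Pi.smul_apply, smul_neg]
    · rfl

end Claimed.Agent.R282
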