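/-
Row 282, Part I.  File BridgeLat: the root lattice of D_n in doubled coordinates.

PROOF of `mem_root_lattice` (black box: `sum_smul_rt_apply`).  All `β k` even and `4 ∣ ∑ β k`: write `β k = 2 z k` (`choose`), then `∑ z` is even, `∑_k z k = 2 w`.
   Put  `v i = ∑_{k ≤ i} z k` for `i + 3 ≤ n`,   `v (n-1) = w`,   `v (n-2) = w - z (n-1)`.
   Check `(∑ i, (2 v i) • rt i) k = β k` with `sum_smul_rt_apply` (applied to `c i = 2 * v i`):
     `k + 3 ≤ n`: `2 v k - 2 v (k-1) = 2 z k` (for `k = 0`: `2 v 0 = 2 z 0`);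
     `k = n-2`: `2 v (n-2) - 2 v (n-3) + 2 v (n-1) = 2 (2 w - z (n-1) - ∑_{k ≤ n-3} z k) = 2 z (n-2)`   (for `n = 2` there is no `v (n-3)` term);
     `k = n-1`: `- 2 v (n-2) + 2 v (n-1) = 2 z (n-1)`.
   (Partial sums: e.g. `∑ k ∈ Finset.univ.filter (fun k : Fin n => (k:ℕ) ≤ i), z k`; `Finset.filter` splitting lemmas, or `Fin.sum_univ_castSucc` twice after writing `n = m + 2`.)
-/
import Claimed.Agent.R282.BridgeCoord

set_option autoImplicit false

namespace Claimed.Agent.R282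
open Claims.C0456

theorem mem_root_lattice {n : ℕ} (hn : 2 ≤ n) (β : Fin n → ℤ) (h2 : ∀ k, Even (β k))
    (h4 : (4 : ℤ) ∣ ∑ k, β k) : ∃ v : Fin n → ℤ, β = ∑ i, (2 * v i) • rt i := by
  obtain ⟨m, rfl⟩ : ∃ m, n = m + 2 := ⟨n - 2, by omega⟩
  choose z hz using fun k => (even_iff_two_dvd.1 (h2 k))
  have hsum : ∑ k, β k = 2 * ∑ k, z k := by
    rw [Finset.mul_sum]; exact Finset.sum_congr rfl fun k _ => hz k
  obtain ⟨w, hw⟩ : ∃ w, ∑ k, z k = 2 * w := by
    obtain ⟨t, ht⟩ := h4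
    exact ⟨t, by linarith⟩
  obtain ⟨Z, hZdef⟩ : ∃ Z : ℕ → ℤ, Z = la z := ⟨_, rfl⟩
  have hZ : ∀ k : Fin (m + 2), Z k = z k := by
    intro k; simp [hZdef, la, k.2]
  have htot : ∑ k ∈ Finset.range (m + 2), Z k = 2 * w := by
    rw [← hw, ← Fin.sum_univ_eq_sum_range]; exact Finset.sum_congr rfl fun k _ => hZ k
  obtain ⟨V, hV⟩ : ∃ V : ℕ → ℤ, V = fun j => if j < m then ∑ k ∈ Finset.range (j + 1), Z k
      else if j = m then w - Z (m + 1) else w := ⟨_, rfl⟩
  refine ⟨fun i => V i, ?_⟩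
  funext k
  rw [sum_smul_rt_apply hn (fun i => 2 * V i) k]
  have hla : ∀ j, j < m + 2 → la (fun i : Fin (m + 2) => 2 * V i) j = 2 * V j := by
    intro j hj; simp [la, hj]
  rw [hz k, ← hZ k]
  obtain ⟨k, hk⟩ := k
  simp only
  rw [Finset.sum_range_succ, Finset.sum_range_succ] at htot
  rcases lt_trichotomy k m with h | h | h
  · have c1 : k + 1 < m + 2 := by omega
    have c3 : ¬ (k + 2 = m + 2 ∨ k + 1 = m + 2) := by omega
    rw [if_pos c1, if_neg c3, hla k hk]
    rcases Nat.eq_zero_or_pos k with h0 | h0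
    · subst h0
      have c2 : ¬ (1 ≤ 0) := by omega
      rw [if_neg c2, hV]
      simp [h]
    · have c2 : 1 ≤ k := h0
      rw [if_pos c2, hla (k - 1) (by omega), hV]
      simp only [if_pos h, if_pos (show k - 1 < m by omega)]
      obtain ⟨j, rfl⟩ : ∃ j, k = j + 1 := ⟨k - 1, by omega⟩
      rw [Nat.add_sub_cancel, Finset.sum_range_succ _ (j + 1)]
      ring
  · subst h
    have c1 : k + 1 < k + 2 := by omega
    have c3 : (k + 2 = k + 2 ∨ k + 1 = k + 2) := by omega
    rw [if_pos c1, if_pos c3, hla k hk, hla (k + 2 - 1) (by omega)]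
    have e1 : V k = w - Z (k + 1) := by rw [hV]; simp
    have e2 : V (k + 2 - 1) = w := by
      rw [hV]
      simp only [if_neg (show ¬ (k + 2 - 1 < k) by omega), if_neg (show ¬ (k + 2 - 1 = k) by omega)]
    rw [e1, e2]
    rcases Nat.eq_zero_or_pos k with h0 | h0
    · subst h0
      have c2 : ¬ (1 ≤ 0) := by omega
      rw [if_neg c2]
      simp at htot ⊢
      linarith
    · have c2 : 1 ≤ k := h0
      rw [if_pos c2, hla (k - 1) (by omega)]
      have e3 : V (k - 1) = ∑ x ∈ Finset.range k, Z x := by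
        rw [hV]
        simp only [if_pos (show k - 1 < k by omega)]
        rw [Nat.sub_add_cancel h0]
      rw [e3]
      linarith
  · have hk' : k = m + 1 := by omega
    subst hk'
    have c1 : ¬ (m + 1 + 1 < m + 2) := by omega
    have c2 : 1 ≤ m + 1 := by omega
    have c3 : (m + 1 + 2 = m + 2 ∨ m + 1 + 1 = m + 2) := by omega
    rw [if_neg c1, if_pos c2, if_pos c3, hla _ (by omega), hla _ (by omega), hV]
    simp
    ring

end Claimed.Agent.R282
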