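/-
Row 282, Part I.  File BridgeSum: `L + M - dualWeightD K` satisfies the parity conditions of the root lattice.

PROOF.  `β = L + M - dualWeightD K`.  `hQ`: every `L k + M k + K k` is even, `4 ∣ ∑ (L k + M k + K k)`.  `hK.1`: all `K i - K j` are even (all `K k` have the same parity).
   `n` even: `dualWeightD K = K` (`if_pos`), `β k = (L k + M k + K k) - 2 K k`: even; `∑ β = ∑ (L+M+K) - 2 ∑ K k`, and `∑_k K k` is even because
        `∑_k K k = n K_0 - ∑_k (K_0 - K k)`, `n` even, each `K_0 - K k` even (`Finset.even_sum`-type lemma / `Finset.sum_induction`).  So `4 ∣ 2 ∑ K`.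
   `n` odd: `dualWeightD K k = K k` for `k+1 ≠ n`, `= - K k` for `k + 1 = n`.  `β k = (L+M+K) k - 2 K k` (`k+1 ≠ n`), `β k = (L+M+K) k` (`k+1 = n`): even.
        `∑ β = ∑ (L+M+K) - 2 ∑_{k+1≠n} K k`, and `∑_{k+1≠n} K k` has `n-1` (even number of) terms of equal parity, hence is even.
   (`0 < n` from `hn`; `K_0 = K ⟨0,_⟩`.)
-/
import Claimed.Agent.R282.RootData

set_option autoImplicit false

namespace Claimed.Agent.R282
open Claims.C0456

theorem bridgeSum_even_sum {n : ℕ} (K : Fin n → ℤ) (hpar : ∀ i j : Fin n, Even (K i - K j))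
    (s : Finset (Fin n)) (hs : Even s.card) : Even (∑ k ∈ s, K k) := by
  rcases s.eq_empty_or_nonempty with rfl | ⟨i0, _⟩
  · simp
  · have e : ∑ k ∈ s, K k = (s.card : ℤ) * K i0 - ∑ k ∈ s, (K i0 - K k) := by
      rw [Finset.sum_sub_distrib, Finset.sum_const, nsmul_eq_mul]
      ring
    rw [e]
    refine Even.sub (Even.mul_right ?_ _) ?_
    · exact_mod_cast hs
    · exact Finset.sum_induction _ (fun x : ℤ => Even x) (fun a b ha hb => ha.add hb) Even.zero
        (fun k _ => hpar i0 k)

theorem bridgeSum_core {n : ℕ} (L M K D : Fin n → ℤ) (s : Finset (Fin n)) (hs : Even s.card)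
    (hpar : ∀ i j : Fin n, Even (K i - K j)) (hQ : SumInRootLatticeD L M K)
    (hD : ∀ k, D k = if k ∈ s then K k else - K k) :
    (∀ k, Even ((L + M - D) k)) ∧ (4 : ℤ) ∣ ∑ k, (L + M - D) k := by
  have e : ∀ k, (L + M - D) k = (L k + M k + K k) - 2 * (if k ∈ s then K k else 0) := by
    intro k
    simp only [Pi.sub_apply, Pi.add_apply, hD k]
    split_ifs <;> ring
  constructor
  · intro k
    rw [e k]
    exact (hQ.1 k).sub (even_two_mul _)
  · rw [Finset.sum_congr rfl (fun k _ => e k), Finset.sum_sub_distrib, ← Finset.mul_sum,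
      Finset.sum_ite_mem, Finset.univ_inter]
    refine dvd_sub hQ.2 ?_
    obtain ⟨c, hc⟩ := bridgeSum_even_sum K hpar s hs
    rw [hc]
    exact ⟨c, by ring⟩

theorem sum_in_lattice {n : ℕ} (hn : 2 ≤ n) (L M K : Fin n → ℤ) (hK : IsDominantWeight2 K)
    (hQ : SumInRootLatticeD L M K) :
    (∀ k, Even ((L + M - dualWeightD K) k)) ∧ (4 : ℤ) ∣ ∑ k, (L + M - dualWeightD K) k := by
  by_cases hev : Even n
  · refine bridgeSum_core L M K (dualWeightD K) Finset.univ ?_ hK.1 hQ ?_
    · rw [Finset.card_univ, Fintype.card_fin]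
      exact hev
    · intro k
      rw [if_pos (Finset.mem_univ k)]
      unfold dualWeightD
      rw [if_pos hev]
  · refine bridgeSum_core L M K (dualWeightD K)
      (Finset.univ.erase (⟨n - 1, by omega⟩ : Fin n)) ?_ hK.1 hQ ?_
    · rw [Finset.card_erase_of_mem (Finset.mem_univ _), Finset.card_univ, Fintype.card_fin]
      rcases Nat.even_or_odd n with h | h
      · exact absurd h hev
      · obtain ⟨c, hc⟩ := h
        exact ⟨c, by omega⟩
    · intro k
      unfold dualWeightD
      rw [if_neg hev]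
      by_cases hk : (k : ℕ) + 1 = n
      · have hk' : k = (⟨n - 1, by omega⟩ : Fin n) := Fin.ext (by simp only; omega)
        have hmem : k ∉ Finset.univ.erase (⟨n - 1, by omega⟩ : Fin n) :=
          fun h => (Finset.mem_erase.1 h).1 hk'
        simp only [if_pos hk, if_neg hmem]
      · have hk' : k ≠ (⟨n - 1, by omega⟩ : Fin n) := by
          intro h
          apply hk
          rw [h]
          simp only
          omega
        have hmem : k ∈ Finset.univ.erase (⟨n - 1, by omega⟩ : Fin n) :=
          Finset.mem_erase.2 ⟨hk', Finset.mem_univ k⟩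
        simp only [if_neg hk, if_pos hmem]

end Claimed.Agent.R282
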