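/-
Row 282, Part I.  File BridgeWt: the weight condition in coordinates; homogeneity of `PolyPt`.

PROOFS.
* `wtv_eq_fiber`: `∑_k (2 x_k) • rt (lett k) = ∑_i (2 ∑_{lett k = i} x_k) • rt i`:  `Finset.sum_fiberwise`-type lemma (`Finset.sum_fiberwise'`, or `Finset.sum_comm` after
     writing `rt (lett k) = ∑ i, if lett k = i then rt i else 0`), `Finset.sum_smul`, `Finset.mul_sum`.
* `wt_cond_iff`: with `β = L + M - K' = ∑ (2 v i) • rt i`:  `L + wtv M x = K'` ⇔ `∑_i (2 X_i) • rt i = ∑_i (2 v i) • rt i` ⇔ `∑ (2 X_i - 2 v i) • rt i = 0`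
     ⇔ (`rt_lin_indep`) `X_i = v i` for all `i`.
* `PolyPt.nsmul`: `uu (N • x) i s = N * uu x i s`, same for `vv`, `la (N • lam) i = N * la lam i` (unfold, `split_ifs`, `simp`); each inequality of `InXf` is multiplied by `N ≥ 0`
     (`nlinarith`/`mul_le_mul_of_nonneg_left`; e.g. rewrite the goal as `0 ≤ N * (…)`, `mul_nonneg`);
     `sig lett (N • x) k = N * sig lett x k` (`Finset.mul_sum`); the weight sums are linear.
-/
import Claimed.Agent.R282.BridgeCoord
import Claimed.Agent.R282.PosApi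

set_option autoImplicit false

namespace Claimed.Agent.R282
open Claims.C0456

theorem wtv_eq_fiber {n : ℕ} (M : Fin n → ℤ) (x : Pos n → ℤ) :
    wtv lett M x = M - ∑ i, (2 * ∑ k ∈ Finset.univ.filter (fun k => lett k = i), x k) • rt i := by
  unfold wtv
  congr 1
  rw [← Finset.sum_fiberwise Finset.univ lett]
  refine Finset.sum_congr rfl fun i _ => ?_
  rw [Finset.mul_sum, Finset.sum_smul]
  refine Finset.sum_congr rfl fun k hk => ?_
  rw [(Finset.mem_filter.1 hk).2]

theorem wt_cond_iff {n : ℕ} (hn : 2 ≤ n) (L M K' v : Fin n → ℤ)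
    (hv : L + M - K' = ∑ i, (2 * v i) • rt i) (x : Pos n → ℤ) :
    L + wtv lett M x = K' ↔ ∀ i, ∑ k ∈ Finset.univ.filter (fun k => lett k = i), x k = v i := by
  rw [wtv_eq_fiber]
  constructor
  · intro h
    have h1 : ∑ i, (2 * (∑ k ∈ Finset.univ.filter (fun k => lett k = i), x k) - 2 * v i) • rt i = 0 := by
      simp only [sub_smul, Finset.sum_sub_distrib]
      rw [← hv, ← h]
      abel
    have h2 := rt_lin_indep hn _ h1
    intro i
    have h3 := congrFun h2 i
    simp only [Pi.zero_apply] at h3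
    omega
  · intro h
    simp only [h]
    rw [← hv]
    abel

theorem bridgeWt_uu_nsmul {n : ℕ} (N : ℕ) (x : Pos n → ℤ) (i s : ℕ) :
    uu (N • x) i s = N * uu x i s := by
  unfold uu
  split_ifs <;> simp

theorem bridgeWt_vv_nsmul {n : ℕ} (N : ℕ) (x : Pos n → ℤ) (i s : ℕ) :
    vv (N • x) i s = N * vv x i s := by
  unfold vv
  split_ifs <;> simp

theorem bridgeWt_la_nsmul {n : ℕ} (N : ℕ) (lam : Fin n → ℤ) (i : ℕ) :
    la (N • lam) i = N * la lam i := by
  unfold la
  split_ifs <;> simp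

theorem bridgeWt_sig_nsmul {n : ℕ} (N : ℕ) (x : Pos n → ℤ) (k : Pos n) :
    sig lett (N • x) k = N * sig lett x k := by
  unfold sig
  rw [mul_add, Finset.mul_sum]
  simp only [Pi.smul_apply, nsmul_eq_mul]
  congr 1
  refine Finset.sum_congr rfl fun j _ => ?_
  ring

theorem bridgeWt_InXf_mul {n : ℕ} {a : ℕ → ℤ} {u v : ℕ → ℕ → ℤ} (h : InXf n a u v) (N : ℤ)
    (hN : 0 ≤ N) : InXf n (fun i => N * a i) (fun i s => N * u i s) (fun i s => N * v i s) where
  C1 s i h1 h2 := mul_le_mul_of_nonneg_left (h.C1 s i h1 h2) hN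
  C2 s i h1 h2 := mul_le_mul_of_nonneg_left (h.C2 s i h1 h2) hN
  C3 s i h1 h2 := mul_le_mul_of_nonneg_left (h.C3 s i h1 h2) hN
  C4 s i h1 h2 := mul_le_mul_of_nonneg_left (h.C4 s i h1 h2) hN
  C5 s h1 := mul_nonneg hN (h.C5 s h1)
  C5u s h1 := mul_nonneg hN (h.C5u s h1)
  R2m s h1 := mul_le_mul_of_nonneg_left (h.R2m s h1) hN
  R2p s h1 := mul_le_mul_of_nonneg_left (h.R2p s h1) hN
  E1a s i h1 h2 := by
    have := mul_nonneg hN (h.E1a s i h1 h2)
    linarith
  E1b s i h1 h2 := by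
    have := mul_nonneg hN (h.E1b s i h1 h2)
    linarith
  Ea2 s i h1 h2 := by
    have := mul_nonneg hN (h.Ea2 s i h1 h2)
    linarith
  Ed2 s i h1 h2 := by
    have := mul_nonneg hN (h.Ed2 s i h1 h2)
    linarith
  Spa s i h1 h2 := by
    have := mul_nonneg hN (h.Spa s i h1 h2)
    linarith
  Spb s i h1 h2 := by
    have := mul_nonneg hN (h.Spb s i h1 h2)
    linarith

theorem PolyPt.nsmul {n : ℕ} {l m v : Fin n → ℤ} {x : Pos n → ℤ} (h : PolyPt l m v x) (N : ℕ) :
    PolyPt (N • l) (N • m) (N • v) (N • x) := by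
  obtain ⟨h1, h2, h3⟩ := h
  have hN : (0 : ℤ) ≤ (N : ℤ) := Int.natCast_nonneg N
  refine ⟨?_, ?_, ?_⟩
  · have h4 := bridgeWt_InXf_mul h1 (N : ℤ) hN
    have e1 : la (N • m) = fun i => (N : ℤ) * la m i := by
      funext i; exact bridgeWt_la_nsmul N m i
    have e2 : uu (N • x) = fun i s => (N : ℤ) * uu x i s := by
      funext i s; exact bridgeWt_uu_nsmul N x i s
    have e3 : vv (N • x) = fun i s => (N : ℤ) * vv x i s := by
      funext i s; exact bridgeWt_vv_nsmul N x i s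
    unfold InX
    rw [e1, e2, e3]
    exact h4
  · intro k
    rw [bridgeWt_sig_nsmul]
    simp only [Pi.smul_apply, nsmul_eq_mul]
    exact mul_le_mul_of_nonneg_left (h2 k) hN
  · intro i
    simp only [Pi.smul_apply, nsmul_eq_mul]
    rw [← Finset.mul_sum, h3 i]

end Claimed.Agent.R282
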