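/-
Row 282, Part I.  File ClosED: array-level closure of the inequalities `InXf` when the entry `v i s` changes by `-1`.
Pure linear arithmetic over `ℤ`; no crystals here.  `bump w i s t = fun i' s' => w i' s' + if i' = i ∧ s' = s then t else 0`; unfold `bUD bDU bSm bSp` in the hypotheses.

RECIPE.  `refine ⟨?_, …⟩` (14 fields) / `constructor`.  In each field: `intro` the indices `(s₀, i₀)` and side conditions, `simp only [bump]`, take the corresponding field of `hX`
at the same indices, and case-split every `if` (`split_ifs`, or `by_cases` on the index equalities; contradictory index combinations die by `omega`).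
If the changed entry does not occur, or occurs with the harmless sign, `linarith`/`omega` closes the goal from the field of `hX`.
The entry `v i s` occurs with the DANGEROUS (POSITIVE) sign only in the following fields; there the inequality of `hX` must be improved by 1, and
   (field) = (strict hypothesis, gives ≥ 1) + (another field of `hX`, ≥ 0)      -- an exact linear identity, so `linarith [hyp, field]` works after `subst`:
   * C4 at (s, j), j+1 = i, case s = 0:   use hA1  and  nothing.
   * C4 at (s, j), j+1 = i, case s = s'+1:   use hB  and  C1 at (s', j).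
   * C5 at s  (i = s), case s = 0:   use hA0  and  nothing.
   * C5 at s  (i = s), case s = s'+1 (i = j+1 with j = s'):   use hB  and  C1 at (s', j)  and `v j (s'+1) = v s' (s'+1) = 0` (hv).
   * E1a at (s', i), s'+1 = s:   use hB  and  Ed2 at (s', j).
   * Ea2 at (s', j), s'+1 = s, j+1 = i:   use hB  and  E1b at (s', i).
   * Ed2 at (s', i), s'+1 = s:   use hC  and  Ed2 at (s', j).
(Indices: `X at (s₀,i₀)` means `hX.X s₀ i₀ _ _`, side conditions by `omega`; `hu`/`hv : Supp n _` give the value `0` outside `s ≤ i ≤ n-2`.)
All statements were machine-checked for `n ≤ 8` (exact certificates) before being written here.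
-/
import Claimed.Agent.R282.ClosDefs

set_option autoImplicit false

namespace Claimed.Agent.R282

variable {n : ℕ} {a : ℕ → ℤ} {u v : ℕ → ℕ → ℤ}

/-- `e` acts at `D(i,s)`, `i ≤ n-3`. -/
theorem clos_e_D (hX : InXf n a u v) (hu : Supp n u) (hv : Supp n v) (i s : ℕ) (hsi : s ≤ i)
    (hi : i + 3 ≤ n)
    (hA0 : s = 0 → i = 0 → 1 ≤ v 0 0)
    (hA1 : ∀ j, s = 0 → i = j + 1 → 1 ≤ v (j + 1) 0 - v j 0)
    (hB : ∀ s' j, s = s' + 1 → i = j + 1 → 1 ≤ bDU u v j s')
    (hC : ∀ s' j, s = s' + 1 → i = j + 1 → 1 ≤ bDU u v j s' + bUD u v i s') :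
    InXf n a u (bump v i s (-1)) := by
  refine ⟨hX.C1, ?_, ?_, ?_, ?_, hX.C5u, hX.R2m, ?_, ?_, hX.E1b, ?_, ?_, ?_, ?_⟩
  · -- C2
    intro s₀ i₀ h1 h2
    have h0 := hX.C2 s₀ i₀ h1 h2
    simp only [bump]
    split_ifs <;> linarith
  · -- C3
    intro s₀ i₀ h1 h2
    have h0 := hX.C3 s₀ i₀ h1 h2
    simp only [bump]
    split_ifs <;> linarith
  · -- C4
    intro s₀ i₀ h1 h2
    have h0 := hX.C4 s₀ i₀ h1 h2
    simp only [bump]
    split_ifs with c1 c2 c2
    · omega
    · linarith
    · obtain ⟨rfl, rfl⟩ := c2
      cases s₀ with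
      | zero =>
        have h3 := hA1 i₀ rfl rfl
        linarith
      | succ s' =>
        have h3 := hB s' i₀ rfl rfl
        have h4 := hX.C1 s' i₀ (by omega) h2
        simp only [bDU] at h3
        linarith
    · linarith
  · -- C5
    intro s₀ h1
    have h0 := hX.C5 s₀ h1
    simp only [bump]
    split_ifs with c1
    · obtain ⟨rfl, rfl⟩ := c1
      cases s₀ with
      | zero =>
        have h3 := hA0 rfl rfl
        linarith
      | succ s' =>
        have h3 := hB s' s' rfl rfl
        have h4 := hX.C1 s' s' le_rfl (by omega)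
        have h5 := hv s' (s' + 1) (by omega)
        simp only [bDU] at h3
        linarith
    · linarith
  · -- R2p
    intro s₀ h1
    have h0 := hX.R2p s₀ h1
    simp only [bump]
    split_ifs <;> linarith
  · -- E1a
    intro s₀ i₀ h1 h2
    have h0 := hX.E1a s₀ i₀ h1 h2
    simp only [bump]
    split_ifs with c1 c2 c2
    · omega
    · obtain ⟨rfl, rfl⟩ := c1
      cases i₀ with
      | zero => omega
      | succ j =>
        have h3 := hB s₀ j rfl rfl
        have h4 := hX.Ed2 s₀ j (by omega) (by omega)
        simp only [bDU] at h3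
        linarith
    · linarith
    · linarith
  · -- Ea2
    intro s₀ i₀ h1 h2
    have h0 := hX.Ea2 s₀ i₀ h1 h2
    simp only [bump]
    split_ifs with c1 c2 c2
    · omega
    · obtain ⟨rfl, rfl⟩ := c1
      have h3 := hB s₀ i₀ rfl rfl
      have h4 := hX.E1b s₀ (i₀ + 1) (by omega) hi
      simp only [bDU] at h3
      linarith
    · linarith
    · linarith
  · -- Ed2
    intro s₀ i₀ h1 h2
    have h0 := hX.Ed2 s₀ i₀ h1 h2
    simp only [bump]
    split_ifs with c1 c2 c2
    · omega
    · obtain ⟨rfl, rfl⟩ := c1
      cases i₀ with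
      | zero => omega
      | succ j =>
        have h3 := hC s₀ j rfl rfl
        have h4 := hX.Ed2 s₀ j (by omega) (by omega)
        simp only [bDU, bUD] at h3
        linarith
    · linarith
    · linarith
  · -- Spa
    intro s₀ i₀ h1 h2
    have h0 := hX.Spa s₀ i₀ h1 h2
    simp only [bump]
    split_ifs <;> linarith
  · -- Spb
    intro s₀ i₀ h1 h2
    have h0 := hX.Spb s₀ i₀ h1 h2
    simp only [bump]
    split_ifs with c1
    · omega
    · linarith

end Claimed.Agent.R282
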