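/-
Row 282, Part I.  File ClosESm: array-level closure of the inequalities `InXf` when the entry `u i s` changes by `-1`.
Pure linear arithmetic over `ℤ`; no crystals here.  `bump w i s t = fun i' s' => w i' s' + if i' = i ∧ s' = s then t else 0`; unfold `bUD bDU bSm bSp` in the hypotheses.

RECIPE.  `refine ⟨?_, …⟩` (14 fields) / `constructor`.  In each field: `intro` the indices `(s₀, i₀)` and side conditions, `simp only [bump]`, take the corresponding field of `hX`
at the same indices, and case-split every `if` (`split_ifs`, or `by_cases` on the index equalities; contradictory index combinations die by `omega`).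
If the changed entry does not occur, or occurs with the harmless sign, `linarith`/`omega` closes the goal from the field of `hX`.
The entry `u i s` occurs with the DANGEROUS (POSITIVE) sign only in the following fields; there the inequality of `hX` must be improved by 1, and
   (field) = (strict hypothesis, gives ≥ 1) + (another field of `hX`, ≥ 0)      -- an exact linear identity, so `linarith [hyp, field]` works after `subst`:
   * C3 at (s, j), j+1 = i, case s = 0:   use hA1  and  nothing.
   * C3 at (s, j), j+1 = i, case s = s'+1:   use hB  and  C1 at (s', j).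
   * C5u at s (i = s), case s = 0:   use hA0  and  nothing.
   * C5u at s (i = s), case s = s'+1 (j = s'):   use hB  and  C1 at (s', j)  and `v s' (s'+1) = 0` (hv).
   * Ea2 at (s', j), s'+1 = s, j+1 = i:   use hB  and  Spb at (s', i).
   * Spa at (s', i), s'+1 = s:   use hB  and  Ed2 at (s', j).
(Indices: `X at (s₀,i₀)` means `hX.X s₀ i₀ _ _`, side conditions by `omega`; `hu`/`hv : Supp n _` give the value `0` outside `s ≤ i ≤ n-2`.)
All statements were machine-checked for `n ≤ 8` (exact certificates) before being written here.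
-/
import Claimed.Agent.R282.ClosDefs

set_option autoImplicit false

namespace Claimed.Agent.R282

variable {n : ℕ} {a : ℕ → ℤ} {u v : ℕ → ℕ → ℤ}

theorem closESm_le (w : ℕ → ℕ → ℤ) (i s i' s' : ℕ) : bump w i s (-1) i' s' ≤ w i' s' := by
  unfold bump
  split_ifs <;> linarith

theorem closESm_ne (w : ℕ → ℕ → ℤ) (i s i' s' : ℕ) (h : ¬ (i' = i ∧ s' = s)) :
    bump w i s (-1) i' s' = w i' s' := by
  unfold bump
  rw [if_neg h, add_zero]

theorem closESm_eq (w : ℕ → ℕ → ℤ) (i s : ℕ) : bump w i s (-1) i s = w i s - 1 := by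
  unfold bump
  rw [if_pos ⟨rfl, rfl⟩]
  ring

/-- `e` acts at `S-(s) = U(n-2,s)`. -/
theorem clos_e_Sm (hX : InXf n a u v) (hu : Supp n u) (hv : Supp n v) (i s : ℕ) (hsi : s ≤ i)
    (hi : i + 2 = n)
    (hA0 : s = 0 → i = 0 → 1 ≤ u 0 0)
    (hA1 : ∀ j, s = 0 → i = j + 1 → 1 ≤ u (j + 1) 0 - v j 0)
    (hB : ∀ s' j, s = s' + 1 → i = j + 1 → 1 ≤ bSm u v j s') :
    InXf n a (bump u i s (-1)) v := by
  refine ⟨?_, ?_, ?_, ?_, ?_, ?_, ?_, ?_, ?_, ?_, ?_, ?_, ?_, ?_⟩
  · -- C1
    intro s0 i0 h1 h2
    rw [closESm_ne u i s i0 s0 (by omega)]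
    exact (closESm_le u i s (i0 + 1) s0).trans (hX.C1 s0 i0 h1 h2)
  · -- C2
    intro s0 i0 h1 h2
    rw [closESm_ne u i s i0 s0 (by omega)]
    exact hX.C2 s0 i0 h1 h2
  · -- C3
    intro s0 i0 h1 h2
    by_cases hs : s0 = s
    · subst hs
      have hi0 : i = i0 + 1 := by omega
      subst hi0
      rw [closESm_eq]
      rcases Nat.eq_zero_or_pos s0 with h0 | h0
      · subst h0
        have := hA1 i0 rfl rfl
        linarith
      · obtain ⟨s', rfl⟩ : ∃ s', s0 = s' + 1 := ⟨s0 - 1, by omega⟩
        have hb := hB s' i0 rfl rfl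
        unfold bSm at hb
        have hc := hX.C1 s' i0 (by omega) (by omega)
        linarith
    · rw [closESm_ne u i s (i0 + 1) s0 (by omega)]
      exact hX.C3 s0 i0 h1 h2
  · exact hX.C4
  · exact hX.C5
  · -- C5u
    intro s0 h1
    have hi0 : s0 = i := by omega
    subst hi0
    by_cases hs : s = s0
    · subst hs
      rw [closESm_eq]
      rcases Nat.eq_zero_or_pos s with h0 | h0
      · subst h0
        have := hA0 rfl rfl
        linarith
      · obtain ⟨s', rfl⟩ : ∃ s', s = s' + 1 := ⟨s - 1, by omega⟩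
        have hb := hB s' s' rfl rfl
        unfold bSm at hb
        have hc := hX.C1 s' s' le_rfl (by omega)
        have hz := hv s' (s' + 1) (by omega)
        linarith
    · rw [closESm_ne u s0 s s0 s0 (by omega)]
      exact hX.C5u s0 h1
  · -- R2m
    intro s0 h1
    exact (closESm_le u i s s0 s0).trans (hX.R2m s0 h1)
  · exact hX.R2p
  · exact hX.E1a
  · -- E1b
    intro s0 i0 h1 h2
    rw [closESm_ne u i s i0 (s0 + 1) (by omega), closESm_ne u i s i0 s0 (by omega)]
    exact hX.E1b s0 i0 h1 h2
  · -- Ea2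
    intro s0 i0 h1 h2
    rw [closESm_ne u i s i0 s0 (by omega)]
    by_cases hs : i0 + 1 = i ∧ s0 + 1 = s
    · obtain ⟨rfl, rfl⟩ := hs
      rw [closESm_eq]
      have hb := hB s0 i0 rfl rfl
      unfold bSm at hb
      have hc := hX.Spb s0 (i0 + 1) (by omega) hi
      linarith
    · rw [closESm_ne u i s (i0 + 1) (s0 + 1) hs]
      exact hX.Ea2 s0 i0 h1 h2
  · -- Ed2
    intro s0 i0 h1 h2
    rw [closESm_ne u i s i0 s0 (by omega)]
    have h3 := closESm_le u i s (i0 + 1) s0
    have h4 := hX.Ed2 s0 i0 h1 h2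
    linarith
  · -- Spa
    intro s0 i0 h1 h2
    have hi0 : i0 = i := by omega
    subst hi0
    by_cases hs : s0 + 1 = s
    · subst hs
      rw [closESm_eq]
      obtain ⟨j, rfl⟩ : ∃ j, i0 = j + 1 := ⟨i0 - 1, by omega⟩
      have hb := hB s0 j rfl rfl
      unfold bSm at hb
      have hc := hX.Ed2 s0 j (by omega) (by omega)
      linarith
    · rw [closESm_ne u i0 s i0 (s0 + 1) (by omega)]
      exact hX.Spa s0 i0 h1 h2
  · -- Spb
    intro s0 i0 h1 h2
    have h3 := closESm_le u i s i0 s0
    have h4 := hX.Spb s0 i0 h1 h2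
    linarith

end Claimed.Agent.R282
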