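/-
Row 282, Part I.  File ClosEU: array-level closure of the inequalities `InXf` when the entry `u i s` changes by `-1`.
Pure linear arithmetic over `ℤ`; no crystals here.  `bump w i s t = fun i' s' => w i' s' + if i' = i ∧ s' = s then t else 0`; unfold `bUD bDU bSm bSp` in the hypotheses.

RECIPE.  `refine ⟨?_, …⟩` (14 fields) / `constructor`.  In each field: `intro` the indices `(s₀, i₀)` and side conditions, `simp only [bump]`, take the corresponding field of `hX`
at the same indices, and case-split every `if` (`split_ifs`, or `by_cases` on the index equalities; contradictory index combinations die by `omega`).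
If the changed entry does not occur, or occurs with the harmless sign, `linarith`/`omega` closes the goal from the field of `hX`.
The entry `u i s` occurs with the DANGEROUS (POSITIVE) sign only in the following fields; there the inequality of `hX` must be improved by 1, and
   (field) = (strict hypothesis, gives ≥ 1) + (another field of `hX`, ≥ 0)      -- an exact linear identity, so `linarith [hyp, field]` works after `subst`:
   * C1 at (s, i):   use hA  and  C4 at (s, i).
   * C2 at (s, i)  (i+3 = n):   use hA  and  C3 at (s, i).
   * E1b at (s', i), s'+1 = s:   use hA  and  Ea2 at (s', i).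
   * Ea2 at (s', j), s'+1 = s, j+1 = i:   use hB  and  Ea2 at (s', i).
   * Ed2 at (s, i):   use hA  and  E1a at (s, i).
(Indices: `X at (s₀,i₀)` means `hX.X s₀ i₀ _ _`, side conditions by `omega`; `hu`/`hv : Supp n _` give the value `0` outside `s ≤ i ≤ n-2`.)
All statements were machine-checked for `n ≤ 8` (exact certificates) before being written here.
-/
import Claimed.Agent.R282.ClosDefs

set_option autoImplicit false

namespace Claimed.Agent.R282

variable {n : ℕ} {a : ℕ → ℤ} {u v : ℕ → ℕ → ℤ}

/-- `e` acts at `U(i,s)`, `i ≤ n-3`. -/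
theorem clos_e_U (hX : InXf n a u v) (hu : Supp n u) (hv : Supp n v) (i s : ℕ) (hsi : s ≤ i)
    (hi : i + 3 ≤ n)
    (hA : 1 ≤ bUD u v i s)
    (hB : ∀ s' j, s = s' + 1 → i = j + 1 → 1 ≤ bUD u v i s + bDU u v j s') :
    InXf n a (bump u i s (-1)) v := by
  simp only [bUD] at hA
  simp only [bUD, bDU] at hB
  refine ⟨?_, ?_, ?_, hX.C4, hX.C5, ?_, ?_, hX.R2p, hX.E1a, ?_, ?_, ?_, ?_, ?_⟩
  · -- C1
    intro s0 i0 h1 h2
    have h := hX.C1 s0 i0 h1 h2
    simp only [bump]
    split_ifs with c1 c2 c2
    · omega
    · linarith
    · obtain ⟨rfl, rfl⟩ := c2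
      have := hX.C4 s0 i0 h1 h2
      linarith
    · linarith
  · -- C2
    intro s0 i0 h1 h2
    have h := hX.C2 s0 i0 h1 h2
    simp only [bump]
    split_ifs with c1
    · obtain ⟨rfl, rfl⟩ := c1
      have := hX.C3 s0 i0 h1 h2
      linarith
    · linarith
  · -- C3
    intro s0 i0 h1 h2
    have h := hX.C3 s0 i0 h1 h2
    simp only [bump]
    split_ifs with c1
    · omega
    · linarith
  · -- C5u
    intro s0 h1
    have h := hX.C5u s0 h1
    simp only [bump]
    split_ifs with c1
    · omega
    · linarith
  · -- R2m
    intro s0 h1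
    have h := hX.R2m s0 h1
    simp only [bump]
    split_ifs with c1
    · linarith
    · linarith
  · -- E1b
    intro s0 i0 h1 h2
    have h := hX.E1b s0 i0 h1 h2
    simp only [bump]
    split_ifs with c1 c2 c2
    · omega
    · obtain ⟨rfl, rfl⟩ := c1
      have := hX.Ea2 s0 i0 (by omega) h2
      linarith
    · linarith
    · linarith
  · -- Ea2
    intro s0 i0 h1 h2
    have h := hX.Ea2 s0 i0 h1 h2
    simp only [bump]
    split_ifs with c1 c2 c2
    · omega
    · obtain ⟨rfl, rfl⟩ := c1
      have := hX.Ea2 s0 (i0 + 1) (by omega) hi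
      have := hB s0 i0 rfl rfl
      linarith
    · linarith
    · linarith
  · -- Ed2
    intro s0 i0 h1 h2
    have h := hX.Ed2 s0 i0 h1 h2
    simp only [bump]
    split_ifs with c1 c2 c2
    · omega
    · obtain ⟨rfl, rfl⟩ := c1
      have := hX.E1a s0 i0 h1 h2
      linarith
    · linarith
    · linarith
  · -- Spa
    intro s0 i0 h1 h2
    have h := hX.Spa s0 i0 h1 h2
    simp only [bump]
    split_ifs with c1
    · omega
    · linarith
  · -- Spb
    intro s0 i0 h1 h2
    have h := hX.Spb s0 i0 h1 h2
    simp only [bump]
    split_ifs with c1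
    · linarith
    · linarith

end Claimed.Agent.R282
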