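/-
Row 282, Part I.  File ClosFD: array-level closure of the inequalities `InXf` when the entry `v i s` changes by `+1`.
Pure linear arithmetic over `ℤ`; no crystals here.  `bump w i s t = fun i' s' => w i' s' + if i' = i ∧ s' = s then t else 0`; unfold `bUD bDU bSm bSp` in the hypotheses.

RECIPE.  `refine ⟨?_, …⟩` (14 fields) / `constructor`.  In each field: `intro` the indices `(s₀, i₀)` and side conditions, `simp only [bump]`, take the corresponding field of `hX`
at the same indices, and case-split every `if` (`split_ifs`, or `by_cases` on the index equalities; contradictory index combinations die by `omega`).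
If the changed entry does not occur, or occurs with the harmless sign, `linarith`/`omega` closes the goal from the field of `hX`.
The entry `v i s` occurs with the DANGEROUS (NEGATIVE) sign only in the following fields; there the inequality of `hX` must be improved by 1, and
   (field) = (strict hypothesis, gives ≥ 1) + (another field of `hX`, ≥ 0)      -- an exact linear identity, so `linarith [hyp, field]` works after `subst`:
   * C3 at (s, i)  (i+3 = n):   use hA  and  C2 at (s, i).
   * C4 at (s, i):   use hA  and  C1 at (s, i).
   * E1a at (s, i):   use hA  and  Ed2 at (s, i).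
   * Ea2 at (s', i), s'+1 = s:   use hA  and  E1b at (s', i).
   * Ed2 at (s, j), j+1 = i:   use hB  and  Ed2 at (s, i).
(Indices: `X at (s₀,i₀)` means `hX.X s₀ i₀ _ _`, side conditions by `omega`; `hu`/`hv : Supp n _` give the value `0` outside `s ≤ i ≤ n-2`.)
All statements were machine-checked for `n ≤ 8` (exact certificates) before being written here.
-/
import Claimed.Agent.R282.ClosDefs

set_option autoImplicit false

namespace Claimed.Agent.R282

variable {n : ℕ} {a : ℕ → ℤ} {u v : ℕ → ℕ → ℤ}

/-- `f` acts at `D(i,s)`, `i ≤ n-3`. -/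
theorem clos_f_D (hX : InXf n a u v) (hu : Supp n u) (hv : Supp n v) (i s : ℕ) (hsi : s ≤ i)
    (hi : i + 3 ≤ n)
    (hA : bUD u v i s ≤ -1)
    (hB : ∀ j, i = j + 1 → s ≤ j → bDU u v j s + bUD u v i s ≤ -1) :
    InXf n a u (bump v i s 1) := by
  unfold bUD at hA
  simp only [bUD, bDU] at hB
  have C1si := hX.C1 s i hsi hi
  have C2si := hX.C2 s i hsi
  have Ed2si := hX.Ed2 s i hsi hi
  refine ⟨hX.C1, ?_, ?_, ?_, ?_, hX.C5u, hX.R2m, ?_, ?_, hX.E1b, ?_, ?_, ?_, ?_⟩
  · -- C2
    intro s0 i0 h1 h2
    have h := hX.C2 s0 i0 h1 h2
    simp only [bump]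
    split_ifs with c
    · omega
    · omega
  · -- C3
    intro s0 i0 h1 h2
    have h := hX.C3 s0 i0 h1 h2
    simp only [bump]
    split_ifs with c
    · obtain ⟨rfl, rfl⟩ := c
      omega
    · omega
  · -- C4
    intro s0 i0 h1 h2
    have h := hX.C4 s0 i0 h1 h2
    simp only [bump]
    split_ifs with c c' c'
    · omega
    · obtain ⟨rfl, rfl⟩ := c
      omega
    · omega
    · omega
  · -- C5
    intro s0 h1
    have h := hX.C5 s0 h1
    simp only [bump]
    split_ifs with c
    · omega
    · omega
  · -- R2p
    intro s0 h1
    have h := hX.R2p s0 h1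
    simp only [bump]
    split_ifs with c
    · omega
    · omega
  · -- E1a
    intro s0 i0 h1 h2
    have h := hX.E1a s0 i0 h1 h2
    simp only [bump]
    split_ifs with c c' c'
    · omega
    · omega
    · obtain ⟨rfl, rfl⟩ := c'
      omega
    · omega
  · -- Ea2
    intro s0 i0 h1 h2
    have h := hX.Ea2 s0 i0 h1 h2
    simp only [bump]
    split_ifs with c c' c'
    · omega
    · omega
    · obtain ⟨rfl, rfl⟩ := c'
      have h3 := hX.E1b s0 i0 (by omega) hi
      omega
    · omega
  · -- Ed2
    intro s0 i0 h1 h2
    have h := hX.Ed2 s0 i0 h1 h2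
    simp only [bump]
    split_ifs with c c' c'
    · omega
    · omega
    · obtain ⟨rfl, rfl⟩ := c'
      have h3 := hB i0 rfl h1
      omega
    · omega
  · -- Spa
    intro s0 i0 h1 h2
    have h := hX.Spa s0 i0 h1 h2
    simp only [bump]
    split_ifs with c
    · omega
    · omega
  · -- Spb
    intro s0 i0 h1 h2
    have h := hX.Spb s0 i0 h1 h2
    simp only [bump]
    split_ifs with c
    · omega
    · omega

end Claimed.Agent.R282
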