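/-
Row 282, Part I.  File ClosFSm: array-level closure of the inequalities `InXf` when the entry `u i s` changes by `+1`.
Pure linear arithmetic over `ℤ`; no crystals here.  `bump w i s t = fun i' s' => w i' s' + if i' = i ∧ s' = s then t else 0`; unfold `bUD bDU bSm bSp` in the hypotheses.

RECIPE.  `refine ⟨?_, …⟩` (14 fields) / `constructor`.  In each field: `intro` the indices `(s₀, i₀)` and side conditions, `simp only [bump]`, take the corresponding field of `hX`
at the same indices, and case-split every `if` (`split_ifs`, or `by_cases` on the index equalities; contradictory index combinations die by `omega`).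
If the changed entry does not occur, or occurs with the harmless sign, `linarith`/`omega` closes the goal from the field of `hX`.
The entry `u i s` occurs with the DANGEROUS (NEGATIVE) sign only in the following fields; there the inequality of `hX` must be improved by 1, and
   (field) = (strict hypothesis, gives ≥ 1) + (another field of `hX`, ≥ 0)      -- an exact linear identity, so `linarith [hyp, field]` works after `subst`:
   * C1 at (s, j), j+1 = i:   use hB  and  C3 at (s+1, j) if s+1 ≤ j;  if j = s: `v s (s+1) = 0` (hv) and C5u at s+1.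
   * Ed2 at (s, j), j+1 = i:   use hB  and  Spa at (s, i).
   * R2m at s  (i = s):   use hA  and  nothing.
   * Spb at (s, i)  (then s+3 ≤ n, i = j+1, s ≤ j):   use hB  and  Ea2 at (s, j).
(Indices: `X at (s₀,i₀)` means `hX.X s₀ i₀ _ _`, side conditions by `omega`; `hu`/`hv : Supp n _` give the value `0` outside `s ≤ i ≤ n-2`.)
All statements were machine-checked for `n ≤ 8` (exact certificates) before being written here.
-/
import Claimed.Agent.R282.ClosDefs

set_option autoImplicit false

namespace Claimed.Agent.R282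

variable {n : ℕ} {a : ℕ → ℤ} {u v : ℕ → ℕ → ℤ}

/-- `f` acts at `S-(s) = U(n-2,s)`. -/
theorem clos_f_Sm (hX : InXf n a u v) (hu : Supp n u) (hv : Supp n v) (i s : ℕ) (hsi : s ≤ i)
    (hi : i + 2 = n)
    (hA : i = s → 1 ≤ a s - u s s)
    (hB : ∀ j, i = j + 1 → s ≤ j → bSm u v j s ≤ -1) :
    InXf n a (bump u i s 1) v := by
  refine ⟨?_, ?_, ?_, ?_, ?_, ?_, ?_, ?_, ?_, ?_, ?_, ?_, ?_, ?_⟩
  · -- C1
    intro s₀ i₀ h1 h2
    have h := hX.C1 s₀ i₀ h1 h2
    simp only [bump]
    by_cases hc : i₀ + 1 = i ∧ s₀ = s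
    · obtain ⟨hc1, hc2⟩ := hc
      subst hc1
      subst hc2
      have hb := hB i₀ rfl h1
      simp only [bSm] at hb
      have hne : ¬ (i₀ = i₀ + 1 ∧ s₀ = s₀) := by omega
      rw [if_pos ⟨rfl, rfl⟩, if_neg hne]
      by_cases hs : s₀ + 1 ≤ i₀
      · have h3 := hX.C3 (s₀ + 1) i₀ hs (by omega)
        linarith
      · have hi₀ : i₀ = s₀ := by omega
        subst hi₀
        have h0 : v i₀ (i₀ + 1) = 0 := hv _ _ (by omega)
        have h5 := hX.C5u (i₀ + 1) (by omega)
        linarith
    · have hne : ¬ (i₀ = i ∧ s₀ = s) := by omega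
      rw [if_neg hc, if_neg hne]
      linarith
  · -- C2
    intro s₀ i₀ h1 h2
    have h := hX.C2 s₀ i₀ h1 h2
    simp only [bump]
    split_ifs <;> linarith
  · -- C3
    intro s₀ i₀ h1 h2
    have h := hX.C3 s₀ i₀ h1 h2
    simp only [bump]
    split_ifs <;> linarith
  · exact hX.C4
  · exact hX.C5
  · -- C5u
    intro s₀ h1
    have h := hX.C5u s₀ h1
    simp only [bump]
    split_ifs <;> linarith
  · -- R2m
    intro s₀ h1
    have h := hX.R2m s₀ h1
    simp only [bump]
    by_cases hc : s₀ = i ∧ s₀ = s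
    · obtain ⟨hc1, hc2⟩ := hc
      subst hc1
      subst hc2
      have ha := hA rfl
      rw [if_pos ⟨rfl, rfl⟩]
      linarith
    · rw [if_neg hc]
      linarith
  · exact hX.R2p
  · exact hX.E1a
  · -- E1b
    intro s₀ i₀ h1 h2
    have h := hX.E1b s₀ i₀ h1 h2
    simp only [bump]
    have hne1 : ¬ (i₀ = i ∧ s₀ + 1 = s) := by omega
    have hne2 : ¬ (i₀ = i ∧ s₀ = s) := by omega
    rw [if_neg hne1, if_neg hne2]
    linarith
  · -- Ea2
    intro s₀ i₀ h1 h2
    have h := hX.Ea2 s₀ i₀ h1 h2
    simp only [bump]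
    have hne2 : ¬ (i₀ = i ∧ s₀ = s) := by omega
    rw [if_neg hne2]
    split_ifs <;> linarith
  · -- Ed2
    intro s₀ i₀ h1 h2
    have h := hX.Ed2 s₀ i₀ h1 h2
    simp only [bump]
    have hne2 : ¬ (i₀ = i ∧ s₀ = s) := by omega
    rw [if_neg hne2]
    by_cases hc : i₀ + 1 = i ∧ s₀ = s
    · obtain ⟨hc1, hc2⟩ := hc
      subst hc1
      subst hc2
      have hb := hB i₀ rfl h1
      simp only [bSm] at hb
      have h3 := hX.Spa s₀ (i₀ + 1) (by omega) hi
      rw [if_pos ⟨rfl, rfl⟩]
      linarith
    · rw [if_neg hc]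
      linarith
  · -- Spa
    intro s₀ i₀ h1 h2
    have h := hX.Spa s₀ i₀ h1 h2
    simp only [bump]
    split_ifs <;> linarith
  · -- Spb
    intro s₀ i₀ h1 h2
    have h := hX.Spb s₀ i₀ h1 h2
    simp only [bump]
    by_cases hc : i₀ = i ∧ s₀ = s
    · obtain ⟨hc1, hc2⟩ := hc
      subst hc1
      subst hc2
      obtain ⟨j, rfl⟩ : ∃ j, i₀ = j + 1 := ⟨i₀ - 1, by omega⟩
      have hb := hB j rfl (by omega)
      simp only [bSm] at hb
      have h3 := hX.Ea2 s₀ j (by omega) (by omega)
      rw [if_pos ⟨rfl, rfl⟩]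
      linarith
    · rw [if_neg hc]
      linarith

end Claimed.Agent.R282
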