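/-
Row 282, Part I.  File ClosFSp: array-level closure of the inequalities `InXf` when the entry `v i s` changes by `+1`.
Pure linear arithmetic over `ℤ`; no crystals here.  `bump w i s t = fun i' s' => w i' s' + if i' = i ∧ s' = s then t else 0`; unfold `bUD bDU bSm bSp` in the hypotheses.

RECIPE.  `refine ⟨?_, …⟩` (14 fields) / `constructor`.  In each field: `intro` the indices `(s₀, i₀)` and side conditions, `simp only [bump]`, take the corresponding field of `hX`
at the same indices, and case-split every `if` (`split_ifs`, or `by_cases` on the index equalities; contradictory index combinations die by `omega`).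
If the changed entry does not occur, or occurs with the harmless sign, `linarith`/`omega` closes the goal from the field of `hX`.
The entry `v i s` occurs with the DANGEROUS (NEGATIVE) sign only in the following fields; there the inequality of `hX` must be improved by 1, and
   (field) = (strict hypothesis, gives ≥ 1) + (another field of `hX`, ≥ 0)      -- an exact linear identity, so `linarith [hyp, field]` works after `subst`:
   * C2 at (s, j), j+1 = i:   use hB  and  C4 at (s+1, j) if s+1 ≤ j;  if j = s: `v s (s+1) = 0` (hv) and C5 at s+1.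
   * Ed2 at (s, j), j+1 = i:   use hB  and  Spb at (s, i).
   * R2p at s  (i = s):   use hA  and  nothing.
   * Spa at (s, i)  (then i = j+1, s ≤ j):   use hB  and  Ea2 at (s, j).
(Indices: `X at (s₀,i₀)` means `hX.X s₀ i₀ _ _`, side conditions by `omega`; `hu`/`hv : Supp n _` give the value `0` outside `s ≤ i ≤ n-2`.)
All statements were machine-checked for `n ≤ 8` (exact certificates) before being written here.
-/
import Claimed.Agent.R282.ClosDefs

set_option autoImplicit false

namespace Claimed.Agent.R282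

variable {n : ℕ} {a : ℕ → ℤ} {u v : ℕ → ℕ → ℤ}

theorem closFSp_bump_eq (w : ℕ → ℕ → ℤ) (i s : ℕ) (t : ℤ) : bump w i s t i s = w i s + t := by
  show w i s + (if i = i ∧ s = s then t else 0) = w i s + t
  simp

theorem closFSp_bump_ne (w : ℕ → ℕ → ℤ) (i s : ℕ) (t : ℤ) {i' s' : ℕ} (h : i' ≠ i ∨ s' ≠ s) :
    bump w i s t i' s' = w i' s' := by
  show w i' s' + (if i' = i ∧ s' = s then t else 0) = w i' s'
  rw [if_neg (by tauto), add_zero]

theorem closFSp_le_bump (w : ℕ → ℕ → ℤ) (i s i' s' : ℕ) : w i' s' ≤ bump w i s 1 i' s' := by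
  show w i' s' ≤ w i' s' + (if i' = i ∧ s' = s then 1 else 0)
  split_ifs <;> linarith

/-- `f` acts at `S+(s) = D(n-2,s)`. -/
theorem clos_f_Sp (hX : InXf n a u v) (hu : Supp n u) (hv : Supp n v) (i s : ℕ) (hsi : s ≤ i)
    (hi : i + 2 = n)
    (hA : i = s → 1 ≤ a (s + 1) - v s s)
    (hB : ∀ j, i = j + 1 → s ≤ j → bSp u v j s ≤ -1) :
    InXf n a u (bump v i s 1) := by
  refine ⟨hX.C1, ?_, ?_, ?_, ?_, hX.C5u, hX.R2m, ?_, ?_, hX.E1b, ?_, ?_, ?_, ?_⟩
  · -- C2
    intro s0 i0 h1 h2
    obtain rfl : i = i0 + 1 := by omega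
    by_cases hs : s0 = s
    · subst hs
      rw [closFSp_bump_eq]
      have hb : v (i0 + 1) (s0 + 1) + v (i0 + 1) s0 - v i0 (s0 + 1) - u i0 s0 ≤ -1 := hB i0 rfl h1
      by_cases h : s0 + 1 ≤ i0
      · have h4 := hX.C4 (s0 + 1) i0 h (by omega)
        linarith
      · obtain rfl : i0 = s0 := by omega
        have h0 : v i0 (i0 + 1) = 0 := hv i0 (i0 + 1) (by omega)
        have h5 := hX.C5 (i0 + 1) (by omega)
        linarith
    · rw [closFSp_bump_ne _ _ _ _ (Or.inr hs)]
      exact hX.C2 s0 i0 h1 h2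
  · -- C3
    intro s0 i0 h1 h2
    rw [closFSp_bump_ne _ _ _ _ (Or.inl (by omega))]
    exact hX.C3 s0 i0 h1 h2
  · -- C4
    intro s0 i0 h1 h2
    rw [closFSp_bump_ne v i s 1 (i' := i0) (Or.inl (by omega))]
    exact (hX.C4 s0 i0 h1 h2).trans (closFSp_le_bump _ _ _ _ _)
  · -- C5
    intro s0 h1
    exact (hX.C5 s0 h1).trans (closFSp_le_bump _ _ _ _ _)
  · -- R2p
    intro s0 h1
    obtain rfl : s0 = i := by omega
    by_cases hs : s0 = s
    · subst hs
      rw [closFSp_bump_eq]
      have := hA rfl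
      linarith
    · rw [closFSp_bump_ne _ _ _ _ (Or.inr hs)]
      exact hX.R2p s0 h1
  · -- E1a
    intro s0 i0 h1 h2
    rw [closFSp_bump_ne v i s 1 (i' := i0) (s' := s0 + 1) (Or.inl (by omega)),
      closFSp_bump_ne v i s 1 (i' := i0) (s' := s0) (Or.inl (by omega))]
    exact hX.E1a s0 i0 h1 h2
  · -- Ea2
    intro s0 i0 h1 h2
    rw [closFSp_bump_ne v i s 1 (i' := i0) (s' := s0 + 1) (Or.inl (by omega))]
    have h3 := hX.Ea2 s0 i0 h1 h2
    have h4 := closFSp_le_bump v i s (i0 + 1) (s0 + 1)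
    linarith
  · -- Ed2
    intro s0 i0 h1 h2
    rw [closFSp_bump_ne v i s 1 (i' := i0) (s' := s0 + 1) (Or.inl (by omega))]
    have h3 := hX.Ed2 s0 i0 h1 h2
    by_cases hs : i0 + 1 = i ∧ s0 = s
    · obtain ⟨rfl, rfl⟩ := hs
      rw [closFSp_bump_eq]
      have hb : v (i0 + 1) (s0 + 1) + v (i0 + 1) s0 - v i0 (s0 + 1) - u i0 s0 ≤ -1 := hB i0 rfl h1
      have h4 := hX.Spb s0 (i0 + 1) (by omega) hi
      linarith
    · rw [closFSp_bump_ne v i s 1 (i' := i0 + 1) (s' := s0) (by omega)]
      exact h3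
  · -- Spa
    intro s0 i0 h1 h2
    obtain rfl : i0 = i := by omega
    by_cases hs : s0 = s
    · subst hs
      rw [closFSp_bump_eq]
      obtain ⟨j, rfl⟩ : ∃ j, i0 = j + 1 := ⟨i0 - 1, by omega⟩
      have hb : v (j + 1) (s0 + 1) + v (j + 1) s0 - v j (s0 + 1) - u j s0 ≤ -1 :=
        hB j rfl (by omega)
      have h4 := hX.Ea2 s0 j (by omega) (by omega)
      linarith
    · rw [closFSp_bump_ne _ _ _ _ (Or.inr hs)]
      exact hX.Spa s0 i0 h1 h2
  · -- Spb
    intro s0 i0 h1 h2
    have h3 := hX.Spb s0 i0 h1 h2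
    have h4 := closFSp_le_bump v i s i0 (s0 + 1)
    linarith

end Claimed.Agent.R282
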