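/-
Row 282, Part I.  File CrysBad (T3a): the LAST bad position is stable along the `i`-string.

`l : Fin n → ℤ`.  `x` is `l`-good if `σ_k(x) ≤ l (ι k)` for all `k`.  `IsLastBad l x k`:  `σ_k(x) > l (ι k)` and `σ_j(x) ≤ l (ι j)` for all `j > k`.

PROOFS (`i := ι k`).
* `exists_isLastBad`: the finset of bad positions is non-empty; take `Finset.max'`.   Uniqueness: trichotomy.
* `IsLastBad.fop`: let `kf` be the F-position of `(x,i)` (`exists_isFPos`).  `σ_{kf}(x) ≥ σ_k(x) > l i`, while positions `j > k` of letter `i`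
    have `σ_j(x) ≤ l i`; hence `kf ≤ k`.  `y = fop ι i x = update x kf (x kf + 1)` (`fop_eq`).  By `sig_update`:
    `σ_j(y) = σ_j(x)` for all `j > kf`, in particular for all `j > k`; and `σ_k(y) = σ_k(x) + 1` if `k = kf`, `= σ_k(x)` if `kf < k`.
* `IsLastBad.eop` (hypothesis `l i + 2 ≤ eps x i`): let `ke` be the E-position; `σ_{ke}(x) = eps x i > l i`, so `ke ≤ k` as before.
    `y = update x ke (x ke - 1)` (write `x ke - 1 = x ke + (-1)` to use `sig_update`): `σ_j` unchanged for `j > ke`;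
    if `ke = k` then `σ_k(y) = eps x i - 1 ≥ l i + 1`.
* `IsLastBad.zpow`: `Int.induction_on t`: up-steps by `.fop` (`Fp_zpow_add_one`), no condition needed;
    down-steps (`Fp_zpow_sub_one`): `eps ((F^(-t)) x) i = eps x i - t` (`eps_zpow`), and the hypothesis for `-t-1` says `l i + 1 ≤ eps x i - t - 1`.
    (For the induction generalise: prove `∀ t, l i + 1 ≤ eps x i + t → …`; for `t ≥ 0` the hypothesis is automatic from
     `l i < σ_k(x) ≤ eps x i` (`sig_le_eps`).)
-/
import Claimed.Agent.R282.CrysPow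

set_option autoImplicit false

namespace Claimed.Agent.R282
open Claims.C0456

variable {n : ℕ} {K : Type} [Fintype K] [LinearOrder K] {ι : K → Fin n}

/-- `k` is the last position where `x` violates `σ_k ≤ l (ι k)`. -/
def IsLastBad (ι : K → Fin n) (l : Fin n → ℤ) (x : K → ℤ) (k : K) : Prop :=
  l (ι k) < sig ι x k ∧ ∀ j, k < j → sig ι x j ≤ l (ι j)

theorem exists_isLastBad {l : Fin n → ℤ} {x : K → ℤ} (h : ¬ Good ι l x) : ∃ k, IsLastBad ι l x k := by
  classical
  unfold Good at h
  simp only [not_forall, not_le] at h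
  have hA : (Finset.univ.filter (fun k => l (ι k) < sig ι x k)).Nonempty := by
    obtain ⟨k, hk⟩ := h
    exact ⟨k, Finset.mem_filter.2 ⟨Finset.mem_univ _, hk⟩⟩
  refine ⟨(Finset.univ.filter (fun k => l (ι k) < sig ι x k)).max' hA,
    (Finset.mem_filter.1 (Finset.max'_mem _ hA)).2, fun j hj => ?_⟩
  by_contra hcon
  have hjA : j ∈ Finset.univ.filter (fun k => l (ι k) < sig ι x k) :=
    Finset.mem_filter.2 ⟨Finset.mem_univ _, not_le.1 hcon⟩
  exact absurd (Finset.le_max' _ j hjA) (not_le.2 hj)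

theorem IsLastBad.unique {l : Fin n → ℤ} {x : K → ℤ} {k k' : K} (h : IsLastBad ι l x k)
    (h' : IsLastBad ι l x k') : k = k' := by
  rcases lt_trichotomy k k' with h1 | h1 | h1
  · exact absurd (h.2 k' h1) (not_le.2 h'.1)
  · exact h1
  · exact absurd (h'.2 k h1) (not_le.2 h.1)

theorem IsLastBad.not_good {l : Fin n → ℤ} {x : K → ℤ} {k : K} (h : IsLastBad ι l x k) :
    ¬ Good ι l x := fun hg => absurd (hg k) (not_le.mpr h.1)

theorem IsLastBad.fop (hι : Function.Surjective ι) {l : Fin n → ℤ} {x : K → ℤ} {k : K}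
    (h : IsLastBad ι l x k) : IsLastBad ι l (fop ι (ι k) x) k := by
  obtain ⟨kf, hkf⟩ := exists_isFPos hι x (ι k)
  have hle : kf ≤ k := by
    by_contra hcon
    have h1 : k < kf := not_le.1 hcon
    have h2 := h.2 kf h1
    rw [hkf.1] at h2
    have h3 := hkf.2.1 k rfl
    have h4 := h.1
    omega
  rw [fop_eq hkf]
  constructor
  · rw [sig_update]
    have h4 := h.1
    rcases hle.eq_or_lt with he | hl
    · rw [if_pos he.symm]
      omega
    · rw [if_neg hl.ne', if_neg (not_lt.2 hl.le), add_zero]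
      exact h4
  · intro j hj
    have hlt : kf < j := lt_of_le_of_lt hle hj
    rw [sig_update, if_neg hlt.ne', if_neg (not_lt.2 hlt.le), add_zero]
    exact h.2 j hj

theorem IsLastBad.eop (hι : Function.Surjective ι) {l : Fin n → ℤ} {x : K → ℤ} {k : K}
    (h : IsLastBad ι l x k) (h2 : l (ι k) + 2 ≤ eps ι x (ι k)) : IsLastBad ι l (eop ι (ι k) x) k := by
  obtain ⟨ke, hke⟩ := exists_isEPos hι x (ι k)
  have heps := eps_eq_of_isEPos hι hke
  have hle : ke ≤ k := by
    by_contra hcon
    have h1 : k < ke := not_le.1 hcon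
    have h3 := h.2 ke h1
    rw [hke.1] at h3
    have h4 := hke.2.1 k rfl
    have h5 := h.1
    omega
  rw [eop_eq hke, sub_eq_add_neg]
  constructor
  · rw [sig_update]
    have h4 := h.1
    rcases hle.eq_or_lt with he | hl
    · rw [if_pos he.symm]
      rw [he] at heps
      omega
    · rw [if_neg hl.ne', if_neg (not_lt.2 hl.le), add_zero]
      exact h4
  · intro j hj
    have hlt : ke < j := lt_of_le_of_lt hle hj
    rw [sig_update, if_neg hlt.ne', if_neg (not_lt.2 hlt.le), add_zero]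
    exact h.2 j hj

theorem IsLastBad.zpow (hn : 2 ≤ n) (hι : Function.Surjective ι) {l : Fin n → ℤ} {x : K → ℤ} {k : K}
    (h : IsLastBad ι l x k) (t : ℤ) (ht : l (ι k) + 1 ≤ eps ι x (ι k) + t) :
    IsLastBad ι l (((Fp hn hι (ι k)) ^ t) x) k := by
  have h0 : l (ι k) + 1 ≤ eps ι x (ι k) := by
    have h1 := h.1
    have h2 := sig_le_eps hι x k
    omega
  revert ht
  refine Int.induction_on t ?_ ?_ ?_
  · intro _
    rw [zpow_zero]
    exact h
  · intro m ih _
    rw [Fp_zpow_add_one]
    exact (ih (by omega)).fop hι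
  · intro m ih hm
    rw [Fp_zpow_sub_one]
    refine (ih (by omega)).eop hι ?_
    rw [eps_zpow]
    omega

end Claimed.Agent.R282
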