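/-
Row 282, Part I.  File CrysBK (T3b): the Brauer-Klimyk sign-reversing involution; the bad elements cancel.

Data: crystal `X` of highest weight `lam` (`IsCrystal ι lam X`), `M` with `pr i M = 2 lam i`, `l ≥ 0`, `Lr` with `pr i Lr = 2 (l i + 1)`
(think `Lr = L + rho`).  For a bad `x` with last bad position `k`, `i = ι k`, put  `t = l i + 1 + hw lam x i`,  `bk x = (F_i^t) x`.

PROOF of `bk_spec` (`x ∈ X`, `IsLastBad ι l x k`, `i = ι k`, `y = (F_i^t) x`):
 (1) `y ∈ X` by `zpow_mem`:  `t ≤ phi x i = eps x i + hw x i`  ⇔ `l i + 1 ≤ eps x i`, true since `l i < σ_k(x) ≤ eps x i` (`sig_le_eps`);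
     `-eps x i ≤ t` ⇔ `0 ≤ l i + 1 + phi x i`, true since `phi ≥ 0`, `l ≥ 0`.
 (2) `IsLastBad ι l y k` by `IsLastBad.zpow`: `l i + 1 ≤ eps x i + t = l i + 1 + phi x i`.
 (3) `l i + 1 + hw lam y i = t - 2 t = -t` (`hw_zpow`), so applying the same recipe to `y` gives `(F_i^(-t)) ((F_i^t) x) = x`.
 (4) `Lr + wtv M y = Lr + wtv M x - (2 t) • rt i = refl i (Lr + wtv M x)`, since `pr i (Lr + wtv M x) = 2 (l i + 1) + 2 hw lam x i = 2 t`
     (`pr_add`, `pr_wtv`, `wtv_zpow`, unfold `refl`).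
PROOF of `sum_bad`: define `bk x` by choice of the last bad position (`exists_isLastBad`; use `IsLastBad.unique` to identify the position of `bk x`).
  `bk` maps the bad part `B` of `X` to itself and `bk (bk x) = x`; `T x := altSum g (Lr + wtv M x)` satisfies `T (bk x) = - T x` by (4) and
  `altSum_refl`.  Hence `S = ∑_{x∈B} T x = ∑_{x∈B} T (bk x) = -S` (`Finset.sum_nbij'` with `bk`, `bk`), so `S = 0` (`omega`/`linarith`).
-/
import Claimed.Agent.R282.CrysBad
import Claimed.Agent.R282.WeylAlt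

set_option autoImplicit false

namespace Claimed.Agent.R282
open Claims.C0456

variable {n : ℕ} {K : Type} [Fintype K] [LinearOrder K] {ι : K → Fin n}

theorem bk_spec (hn : 2 ≤ n) (hι : Function.Surjective ι) {lam : Fin n → ℤ} {X : Finset (K → ℤ)}
    (hX : IsCrystal ι lam X) (M : Fin n → ℤ) (hM : ∀ i, pr i M = 2 * lam i)
    (l : Fin n → ℤ) (hl : ∀ i, 0 ≤ l i) (Lr : Fin n → ℤ) (hLr : ∀ i, pr i Lr = 2 * (l i + 1))
    {x : K → ℤ} (hx : x ∈ X) {k : K} (hk : IsLastBad ι l x k) :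
    let t := l (ι k) + 1 + hw ι lam x (ι k)
    let y := ((Fp hn hι (ι k)) ^ t) x
    y ∈ X ∧ IsLastBad ι l y k ∧ l (ι k) + 1 + hw ι lam y (ι k) = - t ∧
      Lr + wtv ι M y = refl (ι k) (Lr + wtv ι M x) := by
  intro t y
  have ht : t = l (ι k) + 1 + hw ι lam x (ι k) := rfl
  have hy : y = ((Fp hn hι (ι k)) ^ t) x := rfl
  clear_value y
  clear_value t
  subst hy
  have h1 : l (ι k) < sig ι x k := hk.1
  have h2 : sig ι x k ≤ eps ι x (ι k) := sig_le_eps hι x k
  have h3 : 0 ≤ phi ι lam x (ι k) := hX.phi_nonneg x hx (ι k)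
  have hphi : phi ι lam x (ι k) = eps ι x (ι k) + hw ι lam x (ι k) := rfl
  have hli := hl (ι k)
  refine ⟨?_, ?_, ?_, ?_⟩
  · apply zpow_mem hn hι hX (ι k) hx t
    · linarith
    · linarith
  · apply hk.zpow hn hι t
    linarith
  · rw [hw_zpow]
    linarith
  · rw [wtv_zpow]
    unfold refl
    rw [pr_add, hLr, pr_wtv lam M hM]
    have e : 2 * (l (ι k) + 1) + 2 * hw ι lam x (ι k) = 2 * t := by
      rw [ht]
      ring
    rw [e, add_sub_assoc]

open Classical in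
theorem sum_bad (hn : 2 ≤ n) (hι : Function.Surjective ι) {lam : Fin n → ℤ} {X : Finset (K → ℤ)}
    (hX : IsCrystal ι lam X) (M : Fin n → ℤ) (hM : ∀ i, pr i M = 2 * lam i)
    (l : Fin n → ℤ) (hl : ∀ i, 0 ≤ l i) (Lr : Fin n → ℤ) (hLr : ∀ i, pr i Lr = 2 * (l i + 1))
    (g : (Fin n → ℤ) → ℤ) :
    ∑ x ∈ X.filter (fun x => ¬ Good ι l x), altSum g (Lr + wtv ι M x) = 0 := by
  have hch : ∀ x ∈ X.filter (fun x => ¬ Good ι l x), ∃ k, IsLastBad ι l x k :=
    fun x hx => exists_isLastBad (Finset.mem_filter.1 hx).2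
  choose pos hpos using hch
  have hspec : ∀ x (hx : x ∈ X.filter (fun x => ¬ Good ι l x)),
      ((Fp hn hι (ι (pos x hx))) ^ (l (ι (pos x hx)) + 1 + hw ι lam x (ι (pos x hx)))) x ∈ X ∧
      IsLastBad ι l (((Fp hn hι (ι (pos x hx))) ^
        (l (ι (pos x hx)) + 1 + hw ι lam x (ι (pos x hx)))) x) (pos x hx) ∧
      l (ι (pos x hx)) + 1 + hw ι lam (((Fp hn hι (ι (pos x hx))) ^
        (l (ι (pos x hx)) + 1 + hw ι lam x (ι (pos x hx)))) x) (ι (pos x hx))
          = -(l (ι (pos x hx)) + 1 + hw ι lam x (ι (pos x hx))) ∧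
      Lr + wtv ι M (((Fp hn hι (ι (pos x hx))) ^
        (l (ι (pos x hx)) + 1 + hw ι lam x (ι (pos x hx)))) x)
          = refl (ι (pos x hx)) (Lr + wtv ι M x) :=
    fun x hx => bk_spec hn hι hX M hM l hl Lr hLr (Finset.mem_filter.1 hx).1 (hpos x hx)
  have hmem : ∀ x (hx : x ∈ X.filter (fun x => ¬ Good ι l x)),
      ((Fp hn hι (ι (pos x hx))) ^ (l (ι (pos x hx)) + 1 + hw ι lam x (ι (pos x hx)))) x
        ∈ X.filter (fun x => ¬ Good ι l x) :=
    fun x hx => Finset.mem_filter.2 ⟨(hspec x hx).1, (hspec x hx).2.1.not_good⟩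
  have hneg : ∀ x (hx : x ∈ X.filter (fun x => ¬ Good ι l x)),
      altSum g (Lr + wtv ι M x) + altSum g (Lr + wtv ι M (((Fp hn hι (ι (pos x hx))) ^
        (l (ι (pos x hx)) + 1 + hw ι lam x (ι (pos x hx)))) x)) = 0 := by
    intro x hx
    rw [(hspec x hx).2.2.2, altSum_refl hn]
    ring
  refine Finset.sum_involution
    (fun x hx => ((Fp hn hι (ι (pos x hx))) ^ (l (ι (pos x hx)) + 1 + hw ι lam x (ι (pos x hx)))) x)
    hneg ?_ hmem ?_
  · intro x hx hne heq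
    have h := hneg x hx
    rw [heq] at h
    apply hne
    omega
  · intro x hx
    have hk : pos _ (hmem x hx) = pos x hx := (hpos _ (hmem x hx)).unique (hspec x hx).2.1
    rw [hk, (hspec x hx).2.2.1, ← Equiv.Perm.mul_apply, ← zpow_add, neg_add_cancel, zpow_zero,
      Equiv.Perm.one_apply]

end Claimed.Agent.R282
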