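/-
Row 282, Part I.  File CrysPos (T1b): existence and uniqueness of the positions where `f_i`, `e_i` act.
Setting: `K` finite linear order, `ι : K → Fin n`, `2 ≤ n` (only used for `cart_self : cart i i = 2`).
  σ_k(x) = x_k + ∑_{j>k} cart (ι k) (ι j) x_j   (`sig`),   hw lam x i = lam i - ∑_j cart i (ι j) x_j.
PROOFS.
* `exists_isFPos`: the finset `A` of positions of letter `i` is non-empty (surjectivity); let `m` be the maximum of `σ` on `A`
    (`Finset.exists_max_image`), and `k` the least element (`Finset.min'`) of `{j ∈ A | σ_j = m}`.  `exists_isEPos`: greatest element.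
* uniqueness: if `k < k'` are both F-positions, then `σ_k < σ_{k'} ≤ σ_k`.
* `fop_eq`, `eop_eq`, `eps_eq_of_isFPos`: `dif_pos ⟨k, h⟩` and uniqueness applied to `Exists.choose_spec`.
* `eps_eq_of_isEPos`: take an F-position `k'` (exists); `σ_k ≤ σ_{k'} ≤ σ_k`.   `sig_le_eps`: same.
-/
import Claimed.Agent.R282.CrysSig

set_option autoImplicit false

namespace Claimed.Agent.R282
open Claims.C0456

variable {n : ℕ} {K : Type} [Fintype K] [LinearOrder K] {ι : K → Fin n}

theorem exists_isFPos (hι : Function.Surjective ι) (x : K → ℤ) (i : Fin n) : ∃ k, IsFPos ι x i k := by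
  classical
  obtain ⟨k0, hk0⟩ := hι i
  set A : Finset K := Finset.univ.filter (fun j => ι j = i) with hA
  have hAne : A.Nonempty := ⟨k0, by simp [hA, hk0]⟩
  obtain ⟨m, hmA, hm⟩ := Finset.exists_max_image A (sig ι x) hAne
  set B : Finset K := A.filter (fun j => sig ι x j = sig ι x m) with hB
  have hBne : B.Nonempty := ⟨m, by simp [hB, hmA]⟩
  have hkB : B.min' hBne ∈ B := Finset.min'_mem B hBne
  have hmemB : ∀ j, j ∈ B → ι j = i ∧ sig ι x j = sig ι x m := by
    intro j hj
    rw [hB, Finset.mem_filter, hA, Finset.mem_filter] at hj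
    exact ⟨hj.1.2, hj.2⟩
  have hkB' := hmemB _ hkB
  refine ⟨B.min' hBne, hkB'.1, ?_, ?_⟩
  · intro j hj
    rw [hkB'.2]
    exact hm j (by simp [hA, hj])
  · intro j hj hlt
    rw [hkB'.2]
    have hle : sig ι x j ≤ sig ι x m := hm j (by simp [hA, hj])
    refine lt_of_le_of_ne hle ?_
    intro heq
    have hjB : j ∈ B := by simp [hB, hA, hj, heq]
    exact absurd (Finset.min'_le B j hjB) (not_le.2 hlt)

theorem exists_isEPos (hι : Function.Surjective ι) (x : K → ℤ) (i : Fin n) : ∃ k, IsEPos ι x i k := by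
  classical
  obtain ⟨k0, hk0⟩ := hι i
  set A : Finset K := Finset.univ.filter (fun j => ι j = i) with hA
  have hAne : A.Nonempty := ⟨k0, by simp [hA, hk0]⟩
  obtain ⟨m, hmA, hm⟩ := Finset.exists_max_image A (sig ι x) hAne
  set B : Finset K := A.filter (fun j => sig ι x j = sig ι x m) with hB
  have hBne : B.Nonempty := ⟨m, by simp [hB, hmA]⟩
  have hkB : B.max' hBne ∈ B := Finset.max'_mem B hBne
  have hmemB : ∀ j, j ∈ B → ι j = i ∧ sig ι x j = sig ι x m := by
    intro j hj
    rw [hB, Finset.mem_filter, hA, Finset.mem_filter] at hj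
    exact ⟨hj.1.2, hj.2⟩
  have hkB' := hmemB _ hkB
  refine ⟨B.max' hBne, hkB'.1, ?_, ?_⟩
  · intro j hj
    rw [hkB'.2]
    exact hm j (by simp [hA, hj])
  · intro j hj hlt
    rw [hkB'.2]
    have hle : sig ι x j ≤ sig ι x m := hm j (by simp [hA, hj])
    refine lt_of_le_of_ne hle ?_
    intro heq
    have hjB : j ∈ B := by simp [hB, hA, hj, heq]
    exact absurd (Finset.le_max' B j hjB) (not_le.2 hlt)

theorem IsFPos.unique {x : K → ℤ} {i : Fin n} {k k' : K} (h : IsFPos ι x i k) (h' : IsFPos ι x i k') :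
    k = k' := by
  rcases lt_trichotomy k k' with hlt | heq | hlt
  · exact absurd (h.2.1 k' h'.1) (not_le.2 (h'.2.2 k h.1 hlt))
  · exact heq
  · exact absurd (h'.2.1 k h.1) (not_le.2 (h.2.2 k' h'.1 hlt))

theorem IsEPos.unique {x : K → ℤ} {i : Fin n} {k k' : K} (h : IsEPos ι x i k) (h' : IsEPos ι x i k') :
    k = k' := by
  rcases lt_trichotomy k k' with hlt | heq | hlt
  · exact absurd (h'.2.1 k h.1) (not_le.2 (h.2.2 k' h'.1 hlt))
  · exact heq
  · exact absurd (h.2.1 k' h'.1) (not_le.2 (h'.2.2 k h.1 hlt))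

theorem fop_eq {x : K → ℤ} {i : Fin n} {k : K} (h : IsFPos ι x i k) :
    fop ι i x = Function.update x k (x k + 1) := by
  have hex : ∃ k, IsFPos ι x i k := ⟨k, h⟩
  have hc : hex.choose = k := hex.choose_spec.unique h
  unfold fop
  rw [dif_pos hex, hc]

theorem eop_eq {x : K → ℤ} {i : Fin n} {k : K} (h : IsEPos ι x i k) :
    eop ι i x = Function.update x k (x k - 1) := by
  have hex : ∃ k, IsEPos ι x i k := ⟨k, h⟩
  have hc : hex.choose = k := hex.choose_spec.unique h
  unfold eop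
  rw [dif_pos hex, hc]

theorem eps_eq_of_isFPos {x : K → ℤ} {i : Fin n} {k : K} (h : IsFPos ι x i k) :
    eps ι x i = sig ι x k := by
  have hex : ∃ k, IsFPos ι x i k := ⟨k, h⟩
  have hc : hex.choose = k := hex.choose_spec.unique h
  unfold eps
  rw [dif_pos hex, hc]

theorem eps_eq_of_isEPos (hι : Function.Surjective ι) {x : K → ℤ} {i : Fin n} {k : K}
    (h : IsEPos ι x i k) : eps ι x i = sig ι x k := by
  obtain ⟨k', hk'⟩ := exists_isFPos hι x i
  rw [eps_eq_of_isFPos hk']
  exact le_antisymm (h.2.1 k' hk'.1) (hk'.2.1 k h.1)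

theorem sig_le_eps (hι : Function.Surjective ι) (x : K → ℤ) (k : K) : sig ι x k ≤ eps ι x (ι k) := by
  obtain ⟨k', hk'⟩ := exists_isFPos hι x (ι k)
  rw [eps_eq_of_isFPos hk']
  exact hk'.2.1 k rfl

end Claimed.Agent.R282
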