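/-
Row 282, Part I.  File CrysInv (T1c): `fop` and `eop` are mutually inverse; effect on `eps`.
Setting: `K` finite linear order, `ι : K → Fin n`, `2 ≤ n` (only used for `cart_self : cart i i = 2`).
  σ_k(x) = x_k + ∑_{j>k} cart (ι k) (ι j) x_j   (`sig`).
PROOFS (use `sig_update`, `cart_self`, `fop_eq`, `eop_eq`, `exists_isFPos`, `exists_isEPos`, `eps_eq_of_*`).
* `isEPos_fop`: let `k` be the F-position, `M = σ_k(x)`, `y = x + e_k`.  For positions `j` of letter `i`:
    `j < k`: `σ_j(y) = σ_j(x) + 2 ≤ (M-1) + 2 = M+1`;  `σ_k(y) = M+1`;  `j > k`: `σ_j(y) = σ_j(x) ≤ M < M+1`.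
* `isFPos_eop`: `k` the E-position, `y = x - e_k`:  `j < k`: `σ_j(y) = σ_j(x) - 2 ≤ M-2 < M-1`; `σ_k(y) = M-1`;
    `j > k`: `σ_j(y) = σ_j(x) ≤ M-1`.
* `eop_fop`, `fop_eop`: from these and `Function.update` algebra (`Function.update_idem`, `Function.update_eq_self`).
* `eps_fop`, `eps_eop`: read off `σ_k(y) = M ± 1`.
-/
import Claimed.Agent.R282.CrysPos

set_option autoImplicit false

namespace Claimed.Agent.R282
open Claims.C0456

variable {n : ℕ} {K : Type} [Fintype K] [LinearOrder K] {ι : K → Fin n}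

theorem crysInv_sig (hn : 2 ≤ n) (x : K → ℤ) {k j : K} (hjk : ι j = ι k) (t : ℤ) :
    sig ι (Function.update x k (x k + t)) j =
      sig ι x j + (if j = k then t else if j < k then 2 * t else 0) := by
  rw [sig_update, hjk, cart_self hn]

theorem isEPos_fop (hn : 2 ≤ n) {x : K → ℤ} {i : Fin n} {k : K} (h : IsFPos ι x i k) :
    IsEPos ι (fop ι i x) i k := by
  rw [fop_eq h]
  obtain ⟨hk, hmax, hlt⟩ := h
  have hS : ∀ j, ι j = i → sig ι (Function.update x k (x k + 1)) j =
      sig ι x j + (if j = k then 1 else if j < k then 2 * 1 else 0) :=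
    fun j hj => crysInv_sig hn x (hj.trans hk.symm) 1
  have hkk := hS k hk
  rw [if_pos rfl] at hkk
  refine ⟨hk, fun j hj => ?_, fun j hj hkj => ?_⟩
  · rw [hS j hj, hkk]
    rcases lt_trichotomy j k with h1 | h1 | h1
    · rw [if_neg h1.ne, if_pos h1]
      have := hlt j hj h1
      omega
    · rw [if_pos h1, h1]
    · rw [if_neg h1.ne', if_neg (not_lt_of_gt h1)]
      have := hmax j hj
      omega
  · rw [hS j hj, hkk, if_neg hkj.ne', if_neg (not_lt_of_gt hkj)]
    have := hmax j hj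
    omega

theorem isFPos_eop (hn : 2 ≤ n) {x : K → ℤ} {i : Fin n} {k : K} (h : IsEPos ι x i k) :
    IsFPos ι (eop ι i x) i k := by
  rw [eop_eq h, sub_eq_add_neg]
  obtain ⟨hk, hmax, hlt⟩ := h
  have hS : ∀ j, ι j = i → sig ι (Function.update x k (x k + -1)) j =
      sig ι x j + (if j = k then -1 else if j < k then 2 * -1 else 0) :=
    fun j hj => crysInv_sig hn x (hj.trans hk.symm) (-1)
  have hkk := hS k hk
  rw [if_pos rfl] at hkk
  refine ⟨hk, fun j hj => ?_, fun j hj hjk => ?_⟩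
  · rw [hS j hj, hkk]
    rcases lt_trichotomy j k with h1 | h1 | h1
    · rw [if_neg h1.ne, if_pos h1]
      have := hmax j hj
      omega
    · rw [if_pos h1, h1]
    · rw [if_neg h1.ne', if_neg (not_lt_of_gt h1)]
      have := hlt j hj h1
      omega
  · rw [hS j hj, hkk, if_neg hjk.ne, if_pos hjk]
    have := hmax j hj
    omega

theorem eop_fop (hn : 2 ≤ n) (hι : Function.Surjective ι) (i : Fin n) (x : K → ℤ) :
    eop ι i (fop ι i x) = x := by
  obtain ⟨k, h⟩ := exists_isFPos hι x i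
  rw [eop_eq (isEPos_fop hn h), fop_eq h, Function.update_idem, Function.update_self,
    add_sub_cancel_right, Function.update_eq_self]

theorem fop_eop (hn : 2 ≤ n) (hι : Function.Surjective ι) (i : Fin n) (x : K → ℤ) :
    fop ι i (eop ι i x) = x := by
  obtain ⟨k, h⟩ := exists_isEPos hι x i
  rw [fop_eq (isFPos_eop hn h), eop_eq h, Function.update_idem, Function.update_self,
    sub_add_cancel, Function.update_eq_self]

theorem eps_fop (hn : 2 ≤ n) (hι : Function.Surjective ι) (i : Fin n) (x : K → ℤ) :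
    eps ι (fop ι i x) i = eps ι x i + 1 := by
  obtain ⟨k, h⟩ := exists_isFPos hι x i
  rw [eps_eq_of_isEPos hι (isEPos_fop hn h), eps_eq_of_isFPos h, fop_eq h,
    crysInv_sig hn x rfl 1, if_pos rfl]

theorem eps_eop (hn : 2 ≤ n) (hι : Function.Surjective ι) (i : Fin n) (x : K → ℤ) :
    eps ι (eop ι i x) i = eps ι x i - 1 := by
  obtain ⟨k, h⟩ := exists_isEPos hι x i
  rw [eps_eq_of_isFPos (isFPos_eop hn h), eps_eq_of_isEPos hι h, eop_eq h, sub_eq_add_neg (x k),
    crysInv_sig hn x rfl (-1), if_pos rfl, sub_eq_add_neg]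

/-- `f_i` as a permutation of `K → ℤ` (inverse `e_i`). -/
noncomputable def Fp (hn : 2 ≤ n) (hι : Function.Surjective ι) (i : Fin n) : Equiv.Perm (K → ℤ) where
  toFun := fop ι i
  invFun := eop ι i
  left_inv := eop_fop hn hι i
  right_inv := fop_eop hn hι i

end Claimed.Agent.R282
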