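/-
Row 282, Part I.  File CrysWt (T1d): effect of `fop`, `eop` on the weight.
  hw lam x i = lam i - ∑_j cart i (ι j) x_j,     wtv M x = M - ∑_j (2 x_j) • rt (ι j).
PROOFS.  Take the F-position `k` (`exists_isFPos`), `fop ι i x = update x k (x k + 1)` (`fop_eq`), `ι k = i`.
  `∑_j c_j (update x k (x k + 1)) j = ∑_j c_j x_j + c_k`  (`Finset.sum_update_of_mem` or `Finset.sum_congr` + `Finset.sum_ite_eq`);
  `c_k = cart i i = 2` (`cart_self`) for `hw`, and `c_k = 2 • rt i` for `wtv`.  Same for `eop`.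
* `pr_wtv`: `pr i` is additive (`pr_sub`, `pr_sum`, `pr_smul`), `pr i (rt j) = cart i j` by definition.
-/
import Claimed.Agent.R282.CrysPos

set_option autoImplicit false

namespace Claimed.Agent.R282
open Claims.C0456

variable {n : ℕ} {K : Type} [Fintype K] [LinearOrder K] {ι : K → Fin n}

theorem crysWt_hw_update (lam : Fin n → ℤ) (i : Fin n) (x : K → ℤ) (k : K) (t : ℤ) :
    hw ι lam (Function.update x k (x k + t)) i = hw ι lam x i - cart i (ι k) * t := by
  have hu : ∀ l, Function.update x k (x k + t) l = x l + (if l = k then t else 0) := by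
    intro l
    by_cases h : l = k
    · subst h
      simp
    · simp [h]
  unfold hw
  have h1 : ∀ l, cart i (ι l) * (x l + if l = k then t else 0) =
      cart i (ι l) * x l + (if l = k then cart i (ι k) * t else 0) := by
    intro l
    by_cases hl : l = k
    · subst hl
      simp [mul_add]
    · simp [hl]
  simp only [hu, h1, Finset.sum_add_distrib, Finset.sum_ite_eq', Finset.mem_univ, if_true]
  ring

theorem crysWt_wtv_update (M : Fin n → ℤ) (x : K → ℤ) (k : K) (t : ℤ) :
    wtv ι M (Function.update x k (x k + t)) = wtv ι M x - (2 * t) • rt (ι k) := by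
  have hu : ∀ l, Function.update x k (x k + t) l = x l + (if l = k then t else 0) := by
    intro l
    by_cases h : l = k
    · subst h
      simp
    · simp [h]
  unfold wtv
  have h1 : ∀ l, (2 * (x l + if l = k then t else 0)) • rt (ι l) =
      (2 * x l) • rt (ι l) + (if l = k then (2 * t) • rt (ι k) else 0) := by
    intro l
    by_cases hl : l = k
    · subst hl
      simp [mul_add, add_smul]
    · simp [hl]
  simp only [hu, h1, Finset.sum_add_distrib, Finset.sum_ite_eq', Finset.mem_univ, if_true]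
  abel

theorem hw_fop (hn : 2 ≤ n) (hι : Function.Surjective ι) (lam : Fin n → ℤ) (i : Fin n) (x : K → ℤ) :
    hw ι lam (fop ι i x) i = hw ι lam x i - 2 := by
  obtain ⟨k, hk⟩ := exists_isFPos hι x i
  rw [fop_eq hk, crysWt_hw_update, hk.1, cart_self hn]
  ring

theorem hw_eop (hn : 2 ≤ n) (hι : Function.Surjective ι) (lam : Fin n → ℤ) (i : Fin n) (x : K → ℤ) :
    hw ι lam (eop ι i x) i = hw ι lam x i + 2 := by
  obtain ⟨k, hk⟩ := exists_isEPos hι x i
  rw [eop_eq hk, sub_eq_add_neg (x k) 1, crysWt_hw_update, hk.1, cart_self hn]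
  ring

theorem wtv_fop (hι : Function.Surjective ι) (M : Fin n → ℤ) (i : Fin n) (x : K → ℤ) :
    wtv ι M (fop ι i x) = wtv ι M x - (2 : ℤ) • rt i := by
  obtain ⟨k, hk⟩ := exists_isFPos hι x i
  rw [fop_eq hk, crysWt_wtv_update, hk.1]
  norm_num

theorem wtv_eop (hι : Function.Surjective ι) (M : Fin n → ℤ) (i : Fin n) (x : K → ℤ) :
    wtv ι M (eop ι i x) = wtv ι M x + (2 : ℤ) • rt i := by
  obtain ⟨k, hk⟩ := exists_isEPos hι x i
  rw [eop_eq hk, sub_eq_add_neg (x k) 1, crysWt_wtv_update, hk.1]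
  have h2 : (2 * (-1 : ℤ)) = -2 := by norm_num
  rw [h2, neg_smul, sub_neg_eq_add]

theorem pr_wtv (lam M : Fin n → ℤ) (hM : ∀ i, pr i M = 2 * lam i) (x : K → ℤ) (i : Fin n) :
    pr i (wtv ι M x) = 2 * hw ι lam x i := by
  unfold wtv hw
  rw [pr_sub, pr_sum, hM i, mul_sub, Finset.mul_sum]
  congr 1
  refine Finset.sum_congr rfl (fun j _ => ?_)
  rw [pr_smul]
  unfold cart
  ring

end Claimed.Agent.R282
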