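/-
Row 282, Part I.  File CrysPow (T2a): integer powers of the permutation `Fp i` (`= f_i`, inverse `e_i`); `i`-strings stay in a crystal.

PROOFS.  `(Fp hn hι i) y = fop ι i y` and `(Fp hn hι i)⁻¹ y = (Fp hn hι i).symm y = eop ι i y` hold by `rfl`.
All statements by `Int.induction_on t` (or `induction t using Int.induction_on`), with
   `zpow_add_one`, `zpow_sub_one`, `Equiv.Perm.mul_apply`  (write `F^(t+1) = F * F^t` via `zpow_one_add`/`mul_self_zpow` so that the new
   operator is applied LAST: `(F^(t+1)) x = fop ι i ((F^t) x)`, `(F^(-t-1)) x = eop ι i ((F^(-t)) x)`).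
* `eps_zpow`, `hw_zpow`, `wtv_zpow`: one step = `eps_fop`/`eps_eop`, `hw_fop`/`hw_eop`, `wtv_fop`/`wtv_eop`.
* `zpow_mem`: for `0 ≤ t`: induction on `t`; `(F^t) x ∈ X` and `phi ((F^t) x) = phi x - t > 0` (from `eps_zpow`, `hw_zpow`) give
    `(F^(t+1)) x ∈ X` by `IsCrystal.f_mem`.  For `t ≤ 0`: `eps ((F^(-t)) x) = eps x - t > 0` and `IsCrystal.e_mem`.
-/
import Claimed.Agent.R282.CrysInv
import Claimed.Agent.R282.CrysWt

set_option autoImplicit false

namespace Claimed.Agent.R282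
open Claims.C0456

variable {n : ℕ} {K : Type} [Fintype K] [LinearOrder K] {ι : K → Fin n}

theorem Fp_zpow_add_one (hn : 2 ≤ n) (hι : Function.Surjective ι) (i : Fin n) (t : ℤ) (x : K → ℤ) :
    ((Fp hn hι i) ^ (t + 1)) x = fop ι i (((Fp hn hι i) ^ t) x) := by
  rw [add_comm, zpow_add, zpow_one, Equiv.Perm.mul_apply]
  rfl

theorem Fp_zpow_sub_one (hn : 2 ≤ n) (hι : Function.Surjective ι) (i : Fin n) (t : ℤ) (x : K → ℤ) :
    ((Fp hn hι i) ^ (t - 1)) x = eop ι i (((Fp hn hι i) ^ t) x) := by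
  rw [sub_eq_neg_add, zpow_add, zpow_neg_one, Equiv.Perm.mul_apply]
  rfl

theorem eps_zpow (hn : 2 ≤ n) (hι : Function.Surjective ι) (i : Fin n) (t : ℤ) (x : K → ℤ) :
    eps ι (((Fp hn hι i) ^ t) x) i = eps ι x i + t := by
  induction t using Int.induction_on with
  | zero => simp
  | succ k ih => rw [Fp_zpow_add_one, eps_fop hn hι, ih]; ring
  | pred k ih => rw [Fp_zpow_sub_one, eps_eop hn hι, ih]; ring

theorem hw_zpow (hn : 2 ≤ n) (hι : Function.Surjective ι) (lam : Fin n → ℤ) (i : Fin n) (t : ℤ)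
    (x : K → ℤ) : hw ι lam (((Fp hn hι i) ^ t) x) i = hw ι lam x i - 2 * t := by
  induction t using Int.induction_on with
  | zero => simp
  | succ k ih => rw [Fp_zpow_add_one, hw_fop hn hι, ih]; ring
  | pred k ih => rw [Fp_zpow_sub_one, hw_eop hn hι, ih]; ring

theorem wtv_zpow (hn : 2 ≤ n) (hι : Function.Surjective ι) (M : Fin n → ℤ) (i : Fin n) (t : ℤ)
    (x : K → ℤ) : wtv ι M (((Fp hn hι i) ^ t) x) = wtv ι M x - (2 * t) • rt i := by
  induction t using Int.induction_on with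
  | zero => simp
  | succ k ih => rw [Fp_zpow_add_one, wtv_fop hι, ih]; module
  | pred k ih => rw [Fp_zpow_sub_one, wtv_eop hι, ih]; module

theorem zpow_mem (hn : 2 ≤ n) (hι : Function.Surjective ι) {lam : Fin n → ℤ} {X : Finset (K → ℤ)}
    (hX : IsCrystal ι lam X) (i : Fin n) {x : K → ℤ} (hx : x ∈ X) (t : ℤ)
    (h1 : - eps ι x i ≤ t) (h2 : t ≤ phi ι lam x i) : ((Fp hn hι i) ^ t) x ∈ X := by
  have hphi : ∀ s : ℤ, phi ι lam (((Fp hn hι i) ^ s) x) i = phi ι lam x i - s := by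
    intro s
    unfold phi
    rw [eps_zpow, hw_zpow]; ring
  induction t using Int.induction_on with
  | zero => simpa using hx
  | succ k ih =>
    rw [Fp_zpow_add_one]
    refine hX.f_mem _ (ih (by have := hX.eps_nonneg x hx i; omega) (by omega)) i ?_
    rw [hphi]; omega
  | pred k ih =>
    rw [Fp_zpow_sub_one]
    refine hX.e_mem _ (ih (by omega) (by have := hX.phi_nonneg x hx i; omega)) i ?_
    rw [eps_zpow]; omega

end Claimed.Agent.R282
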