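/-
Row 282, Part I.  File WeylGenP: reachability; all pure permutations are reachable from the simple reflections.

`Reach Pr A := ∀ f, Pr f → Pr (f ∘ A)`.   Hypothesis `hs : ∀ i, Reach Pr (refl i)`.
PROOFS.
* `Reach.id`, `Reach.comp`: `f ∘ id = f`, `f ∘ (A ∘ B) = (f ∘ A) ∘ B` (`rfl` / `Function.comp_assoc`).
* `refl_eq_swap`: for `i+1 < n`: `refl i = signedPermAct (swap i ⟨i+1,_⟩) (fun _ => false)` (funext `v`, `k`; `pr_of_lt`; unfold `refl`, `rt`, `signedPermAct`;
     cases `k = i`, `k = i+1`, otherwise; `Equiv.swap_apply_left/right/of_ne_of_ne`, `Equiv.symm_swap`).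
* `reach_perm`: let `P τ := signedPermAct τ (fun _ => false)`.  `P (σ * τ) = P σ ∘ P τ` (`signedPermAct_comp`, `Bool.xor_false`), `P 1 = id` (`signedPermAct_one`).
     The set `{τ | Reach Pr (P τ)}` is a submonoid containing all adjacent transpositions `swap i (i+1)`, hence everything:
     write `n = m + 1`; `Equiv.Perm.mclosure_swap_castSucc_succ m : Submonoid.closure (Set.range fun i : Fin m => swap i.castSucc i.succ) = ⊤`
     and `Submonoid.closure_induction`.
-/
import Claimed.Agent.R282.WeylAct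

set_option autoImplicit false

namespace Claimed.Agent.R282
open Claims.C0456

/-- `A` is reachable: composing on the right with `A` preserves `Pr`. -/
def Reach {n : ℕ} (Pr : ((Fin n → ℤ) → (Fin n → ℤ)) → Prop) (A : (Fin n → ℤ) → (Fin n → ℤ)) : Prop :=
  ∀ f, Pr f → Pr (f ∘ A)

theorem Reach.id {n : ℕ} (Pr : ((Fin n → ℤ) → (Fin n → ℤ)) → Prop) : Reach Pr _root_.id :=
  fun _ hf => hf

theorem Reach.comp {n : ℕ} {Pr : ((Fin n → ℤ) → (Fin n → ℤ)) → Prop}
    {A B : (Fin n → ℤ) → (Fin n → ℤ)} (hA : Reach Pr A) (hB : Reach Pr B) : Reach Pr (A ∘ B) :=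
  fun f hf => hB (f ∘ A) (hA f hf)

theorem refl_eq_swap {n : ℕ} (i : Fin n) (h : (i : ℕ) + 1 < n) :
    refl i = signedPermAct (Equiv.swap i ⟨i + 1, h⟩) (fun _ => false) := by
  funext v k
  simp only [refl, signedPermAct, Pi.sub_apply, Pi.smul_apply, smul_eq_mul, pr_of_lt i h, rt,
    if_pos h, Equiv.symm_swap, Bool.false_eq_true, if_false, one_mul]
  by_cases h1 : k = i
  · subst h1
    rw [Equiv.swap_apply_left]
    have : ¬ ((k : ℕ) = k + 1) := by omega
    simp [this]
  · by_cases h2 : k = ⟨i + 1, h⟩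
    · subst h2
      rw [Equiv.swap_apply_right]
      simp
    · rw [Equiv.swap_apply_of_ne_of_ne h1 h2]
      have e1 : ¬ ((k : ℕ) = i) := fun e => h1 (Fin.ext e)
      have e2 : ¬ ((k : ℕ) = i + 1) := fun e => h2 (Fin.ext e)
      simp [e1, e2]

theorem reach_perm {n : ℕ} (hn : 2 ≤ n) (Pr : ((Fin n → ℤ) → (Fin n → ℤ)) → Prop)
    (hs : ∀ i, Reach Pr (refl i)) (τ : Equiv.Perm (Fin n)) :
    Reach Pr (signedPermAct τ (fun _ => false)) := by
  obtain ⟨m, rfl⟩ : ∃ m, n = m + 1 := ⟨n - 1, by omega⟩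
  have hmul : ∀ σ τ : Equiv.Perm (Fin (m + 1)), signedPermAct (σ * τ) (fun _ => false)
      = signedPermAct σ (fun _ => false) ∘ signedPermAct τ (fun _ => false) := by
    intro σ τ
    funext x
    rw [Function.comp_apply, signedPermAct_comp]
    simp
  have hone : signedPermAct (1 : Equiv.Perm (Fin (m + 1))) (fun _ => false) = _root_.id := by
    funext x; exact signedPermAct_one x
  have hτ : τ ∈ Submonoid.closure (Set.range fun i : Fin m => Equiv.swap i.castSucc i.succ) := by
    rw [Equiv.Perm.mclosure_swap_castSucc_succ]; trivial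
  induction hτ using Submonoid.closure_induction with
  | mem x hx =>
    obtain ⟨i, rfl⟩ := hx
    have h1 : ((i.castSucc : Fin (m + 1)) : ℕ) + 1 < m + 1 := by
      have := i.2
      simp only [Fin.val_castSucc]
      omega
    have h2 := refl_eq_swap i.castSucc h1
    have h3 : (⟨((i.castSucc : Fin (m + 1)) : ℕ) + 1, h1⟩ : Fin (m + 1)) = i.succ := by
      ext; simp
    rw [h3] at h2
    rw [← h2]
    exact hs _
  | one => rw [hone]; exact Reach.id Pr
  | mul x y _ _ hx hy => rw [hmul]; exact hx.comp hy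

end Claimed.Agent.R282
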