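/-
Row 282, Part I.  File WeylGenS: all even sign changes are reachable from the simple reflections.

Notation: `P τ = signedPermAct τ (fun _ => false)` (reachable by `reach_perm`), `Sg s = signedPermAct 1 s`.  Composition rule `signedPermAct_comp`:
   `signedPermAct σ s ∘ signedPermAct τ t = signedPermAct (σ * τ) (fun i => xor (s i) (t (σ.symm i)))`.
PROOFS.
* `reach_two_last`: let `a = ⟨n-2,_⟩`, `b = ⟨n-1,_⟩`, `t₀ k = decide (k = a ∨ k = b)`.   `refl b = signedPermAct (swap a b) t₀` (funext; `pr_last`; unfold), hence
     `Sg t₀ = refl b ∘ P (swap a b)`  (by the composition rule: `(swap a b) * (swap a b) = 1`, `xor (t₀ i) false = t₀ i`).   Both factors are reachable; `Reach.comp`.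
* `reach_two`: for `a' ≠ b'` choose `π` with `π a = a'`, `π b = b'` (e.g. `π = swap b (swap a a' … )`; or `Equiv.Perm` extension: `(swap a a') * (swap b ((swap a a') b'))`-type formula;
     any construction is fine).  Then `Sg (fun k => decide (k = a' ∨ k = b')) = P π ∘ Sg t₀ ∘ P π⁻¹` by the composition rule.
* `reach_signs`: strong induction on `c = #{k | s k = true}` (even).  `c = 0`: `s = fun _ => false`, `Sg s = id` (`signedPermAct_one`).
     `c ≥ 2`: pick `a' ≠ b'` with `s a' = s b' = true` (`Finset.one_lt_card`), `s' = ` `s` switched off at `a', b'` (`c` drops by 2, still even);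
     `Sg s = Sg (indicator of {a',b'}) ∘ Sg s'` by the composition rule (`xor`).
-/
import Claimed.Agent.R282.WeylGenP

set_option autoImplicit false

namespace Claimed.Agent.R282
open Claims.C0456

theorem weylGenS_refl_last {n : ℕ} (hn : 2 ≤ n) :
    refl (⟨n - 1, by omega⟩ : Fin n) = signedPermAct
      (Equiv.swap (⟨n - 2, by omega⟩ : Fin n) ⟨n - 1, by omega⟩)
      (fun k => decide (k = (⟨n - 2, by omega⟩ : Fin n) ∨ k = ⟨n - 1, by omega⟩)) := by
  funext v k
  have hpr := pr_last hn (⟨n - 1, by omega⟩ : Fin n) (by show n - 1 + 1 = n; omega) v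
  have hlt : ¬ ((⟨n - 1, by omega⟩ : Fin n) : ℕ) + 1 < n := by
    show ¬ (n - 1 + 1 < n); omega
  simp only [refl, Pi.sub_apply, Pi.smul_apply, smul_eq_mul, hpr, rt, if_neg hlt, signedPermAct,
    Equiv.symm_swap]
  by_cases h1 : k = ⟨n - 2, by omega⟩
  · subst h1
    have e1 : n - 2 + 2 = n := by omega
    have e2 : ¬ (n - 2 + 1 = n) := by omega
    simp [e1, e2]
  · by_cases h2 : k = ⟨n - 1, by omega⟩
    · subst h2
      have e1 : ¬ (n - 1 + 2 = n) := by omega
      have e2 : n - 1 + 1 = n := by omega
      simp [e1, e2]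
    · have e1 : ¬ ((k : ℕ) + 2 = n) := by
        intro h; apply h1; apply Fin.ext; show (k : ℕ) = n - 2; omega
      have e2 : ¬ ((k : ℕ) + 1 = n) := by
        intro h; apply h2; apply Fin.ext; show (k : ℕ) = n - 1; omega
      simp [e1, e2, h1, h2, Equiv.swap_apply_of_ne_of_ne h1 h2]

theorem weylGenS_two_last {n : ℕ} (hn : 2 ≤ n) (Pr : ((Fin n → ℤ) → (Fin n → ℤ)) → Prop)
    (hs : ∀ i, Reach Pr (refl i)) :
    Reach Pr (signedPermAct 1
      (fun k => decide (k = (⟨n - 2, by omega⟩ : Fin n) ∨ k = ⟨n - 1, by omega⟩))) := by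
  have h := (hs ⟨n - 1, by omega⟩).comp (reach_perm hn Pr hs
    (Equiv.swap (⟨n - 2, by omega⟩ : Fin n) ⟨n - 1, by omega⟩))
  convert h using 1
  funext x
  rw [Function.comp_apply, weylGenS_refl_last hn, signedPermAct_comp, Equiv.swap_mul_self]
  simp

theorem weylGenS_exists_perm {n : ℕ} {a0 b0 a b : Fin n} (h0 : a0 ≠ b0) (hab : a ≠ b) :
    ∃ π : Equiv.Perm (Fin n), π a0 = a ∧ π b0 = b := by
  refine ⟨Equiv.swap (Equiv.swap a0 a b0) b * Equiv.swap a0 a, ?_, ?_⟩
  · rw [Equiv.Perm.mul_apply, Equiv.swap_apply_left]
    apply Equiv.swap_apply_of_ne_of_ne _ hab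
    intro h
    have : Equiv.swap a0 a a0 = Equiv.swap a0 a b0 := by rw [Equiv.swap_apply_left]; exact h
    exact h0 ((Equiv.swap a0 a).injective this)
  · rw [Equiv.Perm.mul_apply, Equiv.swap_apply_left]

theorem reach_two {n : ℕ} (hn : 2 ≤ n) (Pr : ((Fin n → ℤ) → (Fin n → ℤ)) → Prop)
    (hs : ∀ i, Reach Pr (refl i)) (a b : Fin n) (hab : a ≠ b) :
    Reach Pr (signedPermAct 1 (fun k => decide (k = a ∨ k = b))) := by
  have h0 : (⟨n - 2, by omega⟩ : Fin n) ≠ ⟨n - 1, by omega⟩ := by
    intro h
    have := congrArg Fin.val h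
    simp only at this
    omega
  obtain ⟨π, ha, hb⟩ := weylGenS_exists_perm h0 hab
  have h := ((reach_perm hn Pr hs π).comp (weylGenS_two_last hn Pr hs)).comp
    (reach_perm hn Pr hs π⁻¹)
  convert h using 1
  funext x
  rw [Function.comp_apply, Function.comp_apply, signedPermAct_comp, signedPermAct_comp]
  congr 1
  · simp
  · funext i
    simp only [Bool.false_bne, Bool.bne_false]
    rw [← ha, ← hb]
    simp only [Equiv.symm_apply_eq]

theorem reach_signs {n : ℕ} (hn : 2 ≤ n) (Pr : ((Fin n → ℤ) → (Fin n → ℤ)) → Prop)
    (hs : ∀ i, Reach Pr (refl i)) (s : Fin n → Bool)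
    (hev : Even (Finset.univ.filter fun i => s i = true).card) :
    Reach Pr (signedPermAct 1 s) := by
  induction hc : (Finset.univ.filter fun i => s i = true).card using Nat.strong_induction_on
    generalizing s with
  | _ c ih =>
    rcases Nat.eq_zero_or_pos c with h0 | hpos
    · have hs0 : s = fun _ => false := by
        funext i
        rw [h0, Finset.card_eq_zero, Finset.filter_eq_empty_iff] at hc
        simpa using hc (Finset.mem_univ i)
      rw [hs0]
      have : signedPermAct (1 : Equiv.Perm (Fin n)) (fun _ => false) = _root_.id := by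
        funext x
        exact signedPermAct_one x
      rw [this]
      exact Reach.id Pr
    · have h2 : 1 < (Finset.univ.filter fun i => s i = true).card := by
        rw [hc] at hev ⊢
        rcases hev with ⟨r, hr⟩
        omega
      obtain ⟨a, ha, b, hb, hab⟩ := Finset.one_lt_card.1 h2
      have hcard : (Finset.univ.filter fun i =>
          (if i = a ∨ i = b then false else s i) = true).card = c - 2 := by
        have : (Finset.univ.filter fun i => (if i = a ∨ i = b then false else s i) = true) =
            ((Finset.univ.filter fun i => s i = true).erase a).erase b := by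
          ext i
          simp only [Finset.mem_filter, Finset.mem_univ, true_and, Finset.mem_erase]
          by_cases h1 : i = a
          · simp [h1]
          · by_cases h2 : i = b
            · simp [h2]
            · simp [h1, h2]
        rw [this, Finset.card_erase_of_mem (Finset.mem_erase.2 ⟨hab.symm, hb⟩),
          Finset.card_erase_of_mem ha, hc]
        omega
      have hev' : Even (Finset.univ.filter fun i =>
          (if i = a ∨ i = b then false else s i) = true).card := by
        rw [hcard]
        rw [hc] at hev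
        rcases hev with ⟨r, hr⟩
        exact ⟨r - 1, by omega⟩
      have h := (reach_two hn Pr hs a b hab).comp
        (ih (c - 2) (by omega) (fun i => if i = a ∨ i = b then false else s i) hev' hcard)
      convert h using 1
      funext x
      rw [Function.comp_apply, signedPermAct_comp]
      congr 1
      funext i
      have hi : (Equiv.symm (1 : Equiv.Perm (Fin n))) i = i := rfl
      rw [hi]
      simp only [Finset.mem_filter, Finset.mem_univ, true_and] at ha hb
      by_cases h1 : i = a
      · simp [h1, ha]
      · by_cases h2 : i = b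
        · simp [h2, hb]
        · simp [h1, h2]

end Claimed.Agent.R282
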