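/-
Row 282, Part I.  File WeylGen (assembly): the even signed permutations are generated by the simple reflections,
as an induction principle for predicates on maps `(Fin n → ℤ) → (Fin n → ℤ)`.
   `signedPermAct σ s = signedPermAct 1 s ∘ signedPermAct σ (fun _ => false)`.
-/
import Claimed.Agent.R282.WeylGenS

set_option autoImplicit false

namespace Claimed.Agent.R282
open Claims.C0456

theorem W_induction {n : ℕ} (hn : 2 ≤ n) (Pr : ((Fin n → ℤ) → (Fin n → ℤ)) → Prop)
    (h1 : Pr id) (hs : ∀ f i, Pr f → Pr (f ∘ refl i))
    (σ : Equiv.Perm (Fin n)) (s : Fin n → Bool)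
    (hev : Even (Finset.univ.filter fun i => s i = true).card) :
    Pr (signedPermAct σ s) := by
  have hs' : ∀ i, Reach Pr (refl i) := fun i f hf => hs f i hf
  have h := (reach_signs hn Pr hs' s hev).comp (reach_perm hn Pr hs' σ) id h1
  have e : (id ∘ (signedPermAct 1 s ∘ signedPermAct σ (fun _ => false)) :
      (Fin n → ℤ) → (Fin n → ℤ)) = signedPermAct σ s := by
    funext x
    simp only [Function.comp, id]
    rw [signedPermAct_comp]
    simp
  rwa [e] at h

end Claimed.Agent.R282
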