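/-
Row 282, Part I.  File CrysRefl (T2b): the weight multiset of a crystal is invariant under `W(D_n)`.

PROOFS.
* `sum_refl`.  Put `r x := ((Fp hn hι i) ^ (hw ι lam x i)) x`.  With `t = hw ι lam x i = phi - eps`:
    - `r x ∈ X` for `x ∈ X` by `zpow_mem` (`-eps ≤ t` since `phi ≥ 0`; `t ≤ phi` since `eps ≥ 0`);
    - `hw (r x) i = t - 2 t = -t` (`hw_zpow`), hence `r (r x) = (F^(-t)) ((F^t) x) = x` (`zpow_neg`, `Equiv.Perm.inv_apply_self`);
    - `wtv M (r x) = wtv M x - (2 t) • rt i = refl i (wtv M x)` because `pr i (wtv M x) = 2 t` (`pr_wtv`, `wtv_zpow`).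
    So `∑_{x∈X} G (refl i (wtv M x)) = ∑_{x∈X} G (wtv M (r x)) = ∑_{x∈X} G (wtv M x)` (`Finset.sum_nbij'` / `Finset.sum_bij'` with `r`, `r`).
* `sum_W`: apply `W_induction` to `Pr A := ∀ G, ∑_{x∈X} G (A (wtv M x)) = ∑_{x∈X} G (wtv M x)`:
    `Pr id` is trivial; if `Pr f` then `∑ G (f (refl i (wtv x))) = ∑ (G ∘ f) (refl i (wtv x)) = ∑ (G ∘ f) (wtv x) = ∑ G (wtv x)`.
-/
import Claimed.Agent.R282.CrysPow
import Claimed.Agent.R282.WeylGen

set_option autoImplicit false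

namespace Claimed.Agent.R282
open Claims.C0456

variable {n : ℕ} {K : Type} [Fintype K] [LinearOrder K] {ι : K → Fin n}

theorem sum_refl (hn : 2 ≤ n) (hι : Function.Surjective ι) {lam : Fin n → ℤ} {X : Finset (K → ℤ)}
    (hX : IsCrystal ι lam X) (M : Fin n → ℤ) (hM : ∀ i, pr i M = 2 * lam i)
    (G : (Fin n → ℤ) → ℤ) (i : Fin n) :
    ∑ x ∈ X, G (refl i (wtv ι M x)) = ∑ x ∈ X, G (wtv ι M x) := by
  set r : (K → ℤ) → (K → ℤ) := fun x => ((Fp hn hι i) ^ (hw ι lam x i)) x with hr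
  have hmem : ∀ x ∈ X, r x ∈ X := by
    intro x hx
    have h1 := hX.eps_nonneg x hx i
    have h2 := hX.phi_nonneg x hx i
    refine zpow_mem hn hι hX i hx _ ?_ ?_
    · unfold phi at h2; linarith
    · unfold phi; linarith
  have hinv : ∀ x, r (r x) = x := by
    intro x
    have h1 : hw ι lam (r x) i = - hw ι lam x i := by
      simp only [hr]
      rw [hw_zpow]; ring
    show ((Fp hn hι i) ^ (hw ι lam (r x) i)) (r x) = x
    rw [h1, zpow_neg]
    simp only [hr]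
    simp
  have hwt : ∀ x, wtv ι M (r x) = refl i (wtv ι M x) := by
    intro x
    simp only [hr]
    rw [wtv_zpow]
    unfold refl
    rw [pr_wtv lam M hM]
  have e1 : ∑ x ∈ X, G (refl i (wtv ι M x)) = ∑ x ∈ X, G (wtv ι M (r x)) :=
    Finset.sum_congr rfl fun x _ => by rw [hwt]
  rw [e1]
  exact Finset.sum_nbij' r r hmem hmem (fun x _ => hinv x) (fun x _ => hinv x) (fun x _ => rfl)

theorem sum_W (hn : 2 ≤ n) (hι : Function.Surjective ι) {lam : Fin n → ℤ} {X : Finset (K → ℤ)}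
    (hX : IsCrystal ι lam X) (M : Fin n → ℤ) (hM : ∀ i, pr i M = 2 * lam i)
    (G : (Fin n → ℤ) → ℤ) (σ : Equiv.Perm (Fin n)) (s : Fin n → Bool)
    (hev : Even (Finset.univ.filter fun i => s i = true).card) :
    ∑ x ∈ X, G (signedPermAct σ s (wtv ι M x)) = ∑ x ∈ X, G (wtv ι M x) := by
  refine W_induction hn
    (fun A => ∀ G : (Fin n → ℤ) → ℤ, ∑ x ∈ X, G (A (wtv ι M x)) = ∑ x ∈ X, G (wtv ι M x))
    (fun G => rfl) ?_ σ s hev G
  intro f i hf G
  have h1 := sum_refl hn hι hX M hM (fun u => G (f u)) i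
  simp only [Function.comp] at *
  rw [h1]
  exact hf G

end Claimed.Agent.R282
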