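/-
Row 282, Part I.  File CrysKey: the KEY identity (Brauer-Klimyk for a crystal).
   ∑_{x∈X} ∑_w sgn(w) g(wt x + w Lr)  =  ∑_{x∈X good} ∑_w sgn(w) g(w (Lr + wt x)).
Proof: W-invariance of the weight multiset (`sum_W`) turns the left side into `∑_{x∈X} altSum g (Lr + wtv M x)`;
the bad `x` cancel (`sum_bad`).
-/
import Claimed.Agent.R282.CrysBK
import Claimed.Agent.R282.CrysRefl

set_option autoImplicit false

namespace Claimed.Agent.R282
open Claims.C0456

variable {n : ℕ} {K : Type} [Fintype K] [LinearOrder K] {ι : K → Fin n}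

theorem sum_altSum_shift (hn : 2 ≤ n) (hι : Function.Surjective ι) {lam : Fin n → ℤ}
    {X : Finset (K → ℤ)} (hX : IsCrystal ι lam X) (M : Fin n → ℤ) (hM : ∀ i, pr i M = 2 * lam i)
    (Lr : Fin n → ℤ) (g : (Fin n → ℤ) → ℤ) :
    ∑ x ∈ X, altSum (fun a => g (wtv ι M x + a)) Lr = ∑ x ∈ X, altSum g (Lr + wtv ι M x) := by
  unfold altSum
  rw [Finset.sum_comm, Finset.sum_comm (s := X)]
  refine Finset.sum_congr rfl (fun σ _ => ?_)
  rw [Finset.sum_comm, Finset.sum_comm (s := X)]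
  refine Finset.sum_congr rfl (fun s _ => ?_)
  by_cases hev : Even (Finset.univ.filter fun i => s i = true).card
  · simp only [if_pos hev]
    rw [← Finset.mul_sum, ← Finset.mul_sum]
    congr 1
    have h := sum_W hn hι hX M hM (fun u => g (u + signedPermAct σ s Lr)) σ s hev
    rw [← h]
    refine Finset.sum_congr rfl (fun x _ => ?_)
    rw [signedPermAct_add, add_comm]
  · simp only [if_neg hev]

open Classical in
theorem key_identity (hn : 2 ≤ n) (hι : Function.Surjective ι) {lam : Fin n → ℤ}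
    {X : Finset (K → ℤ)} (hX : IsCrystal ι lam X) (M : Fin n → ℤ) (hM : ∀ i, pr i M = 2 * lam i)
    (l : Fin n → ℤ) (hl : ∀ i, 0 ≤ l i) (Lr : Fin n → ℤ) (hLr : ∀ i, pr i Lr = 2 * (l i + 1))
    (g : (Fin n → ℤ) → ℤ) :
    ∑ x ∈ X, altSum (fun a => g (wtv ι M x + a)) Lr =
      ∑ x ∈ X.filter (fun x => Good ι l x), altSum g (Lr + wtv ι M x) := by
  rw [sum_altSum_shift hn hι hX M hM Lr g,
    ← Finset.sum_filter_add_sum_filter_not X (fun x => Good ι l x),
    sum_bad hn hι hX M hM l hl Lr hLr g, add_zero]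

end Claimed.Agent.R282
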