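/-
Row 282, Part I.  File GAlg: the group algebra `ℤ[ℤ^n]`, the exponentials `E v`, and the functional `Lam g` with `Lam g (E v) = g v`.
-/
import Claimed.Agent.R282.Defs

set_option autoImplicit false

namespace Claimed.Agent.R282
open Claims.C0456

/-- the group algebra of the weight lattice. -/
abbrev GA (n : ℕ) := AddMonoidAlgebra ℤ (Fin n → ℤ)

/-- formal exponential. -/
noncomputable def E {n : ℕ} (v : Fin n → ℤ) : GA n := AddMonoidAlgebra.single v 1

theorem E_add {n : ℕ} (a b : Fin n → ℤ) : E (a + b) = E a * E b := by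
  simp [E, AddMonoidAlgebra.single_mul_single]

theorem E_zero {n : ℕ} : E (0 : Fin n → ℤ) = 1 := by
  simp [E, AddMonoidAlgebra.one_def]

theorem E_sum {n : ℕ} {α : Type} (s : Finset α) (f : α → Fin n → ℤ) :
    E (∑ a ∈ s, f a) = ∏ a ∈ s, E (f a) := by
  classical
  induction s using Finset.induction_on with
  | empty => simp [E_zero]
  | insert a s ha ih => rw [Finset.sum_insert ha, Finset.prod_insert ha, E_add, ih]

theorem E_nsmul {n : ℕ} (k : ℕ) (v : Fin n → ℤ) : E (k • v) = E v ^ k := by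
  induction k with
  | zero => simp [E_zero]
  | succ k ih => rw [succ_nsmul, E_add, ih, pow_succ]

theorem E_mul_E_neg {n : ℕ} (v : Fin n → ℤ) : E v * E (-v) = 1 := by
  rw [← E_add, add_neg_cancel, E_zero]

/-- the linear functional on the group algebra extending `g`. -/
noncomputable def Lam {n : ℕ} (g : (Fin n → ℤ) → ℤ) : GA n →ₗ[ℤ] ℤ :=
  (Finsupp.linearCombination ℤ g) ∘ₗ (AddMonoidAlgebra.coeffLinearEquiv ℤ).toLinearMap

theorem Lam_E {n : ℕ} (g : (Fin n → ℤ) → ℤ) (v : Fin n → ℤ) : Lam g (E v) = g v := by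
  simp [Lam, E]

end Claimed.Agent.R282
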