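/-
Row 282, Part I.  File DenomDick (K2, step D3a): the monic polynomials `qpol a` with `qpol a (X + X⁻¹) = X^a + X^{-a}` (`a ≥ 1`), `qpol 0 = 1`.

PROOFS.  `R = GA n` is a nontrivial commutative ring (`Nontrivial`: `E 0 = 1 ≠ 0`, or `inferInstance`).
* `qpol_spec`: prove by strong induction (two-step: `Nat.twoStepInduction` or `induction a using Nat.strong_induction_on`) the statement
      `a ≥ 1 → Monic (dickson 1 1 a) ∧ natDegree (dickson 1 1 a) = a`,   together with `natDegree (dickson 1 1 0) ≤ 0` (`dickson_zero : dickson k c 0 = 3 - k`, a constant),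
   using `Polynomial.dickson_one : dickson k c 1 = X`, `Polynomial.dickson_add_two : dickson k c (m+2) = X * dickson k c (m+1) - C c * dickson k c m`:
   `X * p` is monic of degree `m+2` (`Monic.mul`, `monic_X`, `natDegree_X_mul`/`Monic.natDegree_mul`), and `C 1 * dickson m` has degree `≤ m < m+2`, so `Monic.sub_of_left`/`Polynomial.monic_sub_of_left`-type lemma
   (`Polynomial.Monic.sub_of_left (hp : p.Monic) (hpq : q.degree < p.degree)`), `natDegree_sub_eq_left_of_natDegree_lt`.
* `qpol_eval`: `Polynomial.dickson_one_one_eval_add_inv x y (h : x * y = 1) a : (dickson 1 1 a).eval (x + y) = x^a + y^a` with `x = E (Pi.single i 2)`, `y = E (Pi.single i (-2))`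
   (`x * y = 1`: `← E_add`, `← Pi.single_add`, `E_zero`), and `E (Pi.single i (2 * a)) = x^a` by `E_nsmul` (`Pi.single i (2 * (a:ℤ)) = a • Pi.single i 2`, funext).
-/
import Claimed.Agent.R282.GAlg

set_option autoImplicit false

namespace Claimed.Agent.R282
open Claims.C0456

/-- `y_i = X_i^2 + X_i^{-2}` (doubled coordinates). -/
noncomputable def yv {n : ℕ} (i : Fin n) : GA n := E (Pi.single i 2) + E (Pi.single i (-2))

/-- `1` for `a = 0`, the Dickson polynomial `D_a(x,1)` for `a ≥ 1`. -/
noncomputable def qpol (n a : ℕ) : Polynomial (GA n) :=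
  if a = 0 then 1 else Polynomial.dickson 1 (1 : GA n) a

theorem denomDick_aux (R : Type*) [CommRing R] [Nontrivial R] : ∀ m : ℕ,
    (Polynomial.dickson 1 (1 : R) m).natDegree ≤ m ∧
      ((Polynomial.dickson 1 (1 : R) (m + 1)).Monic ∧
        (Polynomial.dickson 1 (1 : R) (m + 1)).natDegree = m + 1) := by
  intro m
  induction m with
  | zero =>
    refine ⟨?_, ?_, ?_⟩
    · have h : Polynomial.dickson 1 (1 : R) 0 = Polynomial.C (2 : R) := by
        rw [Polynomial.dickson_zero, Nat.cast_one,
          show (Polynomial.C (2 : R) : Polynomial R) = 2 from map_ofNat Polynomial.C 2]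
        norm_num
      rw [h, Polynomial.natDegree_C]
    · rw [zero_add, Polynomial.dickson_one]
      exact Polynomial.monic_X
    · rw [zero_add, Polynomial.dickson_one]
      exact Polynomial.natDegree_X
  | succ m ih =>
    obtain ⟨h0, h1, h2⟩ := ih
    have hp : (Polynomial.X * Polynomial.dickson 1 (1 : R) (m + 1)).Monic := Polynomial.monic_X.mul h1
    have hpd : (Polynomial.X * Polynomial.dickson 1 (1 : R) (m + 1)).natDegree = m + 2 := by
      rw [Polynomial.natDegree_X_mul h1.ne_zero, h2]
    have hqd : (Polynomial.C (1 : R) * Polynomial.dickson 1 (1 : R) m).natDegree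
        < (Polynomial.X * Polynomial.dickson 1 (1 : R) (m + 1)).natDegree := by
      rw [hpd]
      have h3 := Polynomial.natDegree_C_mul_le (1 : R) (Polynomial.dickson 1 (1 : R) m)
      omega
    refine ⟨h2.le, ?_, ?_⟩
    · rw [show m + 1 + 1 = m + 2 from rfl, Polynomial.dickson_add_two]
      exact hp.sub_of_left (Polynomial.degree_lt_degree hqd)
    · rw [show m + 1 + 1 = m + 2 from rfl, Polynomial.dickson_add_two,
        Polynomial.natDegree_sub_eq_left_of_natDegree_lt hqd, hpd]

theorem qpol_spec (n a : ℕ) : (qpol n a).Monic ∧ (qpol n a).natDegree = a := by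
  unfold qpol
  by_cases ha : a = 0
  · rw [if_pos ha, ha]
    exact ⟨Polynomial.monic_one, Polynomial.natDegree_one⟩
  · rw [if_neg ha]
    obtain ⟨m, rfl⟩ := Nat.exists_eq_succ_of_ne_zero ha
    exact (denomDick_aux (GA n) m).2

theorem qpol_eval {n : ℕ} (a : ℕ) (ha : 1 ≤ a) (i : Fin n) :
    (qpol n a).eval (yv i) = E (Pi.single i (2 * (a : ℤ))) + E (Pi.single i (-(2 * (a : ℤ)))) := by
  unfold qpol yv
  rw [if_neg (by omega)]
  have hxy : E (Pi.single i (2 : ℤ)) * E (Pi.single i (-2 : ℤ)) = (1 : GA n) := by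
    rw [← E_add, ← Pi.single_add, add_neg_cancel, Pi.single_zero, E_zero]
  rw [Polynomial.dickson_one_one_eval_add_inv _ _ hxy a, ← E_nsmul, ← E_nsmul]
  have h1 : a • (Pi.single i (2 : ℤ) : Fin n → ℤ) = Pi.single i (2 * (a : ℤ)) := by
    rw [← Pi.single_smul, nsmul_eq_mul, mul_comm]
  have h2 : a • (Pi.single i (-2 : ℤ) : Fin n → ℤ) = Pi.single i (-(2 * (a : ℤ))) := by
    rw [← Pi.single_smul, nsmul_eq_mul]
    congr 1
    ring
  rw [h1, h2]

end Claimed.Agent.R282
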