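/-
Row 282, Part I.  File DenomFac (K2, step D4a): factorisation of `y_i - y_j`; the monomial prefactor.

PROOFS.
 * `yv_sub`: for `i ≠ j`, with `X_i = E (single i 2)` etc. (all `E`-monomials; expand the right side with `mul_sub`, `sub_mul`, `← E_add` into four monomials and compare exponents by `funext`,
   `posRoot2 i j true = 2 e_i + 2 e_j`, `posRoot2 i j false = 2 e_i - 2 e_j`, unfold `posRoot2`, `Pi.single_apply`):
      X_i (1 - X_j/X_i)(1 - 1/(X_i X_j)) = X_i - 1/X_j - X_j + 1/X_i = y_i - y_j.
 * `prod_single_eq_rho`: `∏_i ∏_{j>i} E (single i 2) = ∏_i E (single i 2)^(n-1-i) = E (∑_i (n-1-i) • single i 2) = E (rho2 n)`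
   (`Finset.prod_const`, `Fin.card_Ioi`, `E_nsmul`, `E_sum`; last step `funext k`, `Finset.sum_apply`, `Pi.single_apply`, `Finset.sum_ite_eq`, unfold `rho2`).
-/
import Claimed.Agent.R282.DenomDick

set_option autoImplicit false

namespace Claimed.Agent.R282
open Claims.C0456

theorem yv_sub {n : ℕ} (i j : Fin n) (hij : i ≠ j) :
    yv i - yv j =
      E (Pi.single i 2) * (1 - E (-(posRoot2 i j false))) * (1 - E (-(posRoot2 i j true))) := by
  have h1 : E (Pi.single i 2) * E (-(posRoot2 i j false)) = E (Pi.single j (2 : ℤ)) := by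
    rw [← E_add]
    congr 1
    funext k
    simp only [Pi.add_apply, Pi.neg_apply, posRoot2, Pi.single_apply]
    split_ifs <;> simp_all
  have h2 : E (Pi.single i 2) * E (-(posRoot2 i j true)) = E (Pi.single j (-2 : ℤ)) := by
    rw [← E_add]
    congr 1
    funext k
    simp only [Pi.add_apply, Pi.neg_apply, posRoot2, Pi.single_apply]
    split_ifs <;> simp_all
  have h3 : E (Pi.single j (2 : ℤ)) * E (-(posRoot2 i j true)) = E (Pi.single i (-2 : ℤ)) := by
    rw [← E_add]
    congr 1
    funext k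
    simp only [Pi.add_apply, Pi.neg_apply, posRoot2, Pi.single_apply]
    split_ifs <;> simp_all
  unfold yv
  calc E (Pi.single i 2) + E (Pi.single i (-2)) - (E (Pi.single j 2) + E (Pi.single j (-2)))
      = E (Pi.single i 2) - E (Pi.single j (2 : ℤ)) - E (Pi.single j (-2 : ℤ)) + E (Pi.single i (-2 : ℤ)) := by ring
    _ = E (Pi.single i 2) - E (Pi.single i 2) * E (-(posRoot2 i j false))
          - E (Pi.single i 2) * E (-(posRoot2 i j true))
          + (E (Pi.single i 2) * E (-(posRoot2 i j false))) * E (-(posRoot2 i j true)) := by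
        rw [h1, h2, h3]
    _ = E (Pi.single i 2) * (1 - E (-(posRoot2 i j false))) * (1 - E (-(posRoot2 i j true))) := by ring

theorem prod_single_eq_rho (n : ℕ) :
    ∏ i : Fin n, ∏ _j ∈ Finset.Ioi i, E (Pi.single i (2 : ℤ)) = E (rho2 n) := by
  have h : rho2 n = ∑ i : Fin n, (n - 1 - (i : ℕ)) • (Pi.single i (2 : ℤ) : Fin n → ℤ) := by
    funext k
    rw [Finset.sum_apply]
    simp only [Pi.smul_apply, Pi.single_apply, smul_ite, smul_zero]
    rw [Finset.sum_ite_eq Finset.univ k, if_pos (Finset.mem_univ k)]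
    unfold rho2
    have hk := k.2
    rw [nsmul_eq_mul, Nat.cast_sub (by omega), Nat.cast_sub (by omega)]
    push_cast
    ring
  rw [h, E_sum]
  refine Finset.prod_congr rfl fun i _ => ?_
  rw [Finset.prod_const, Fin.card_Ioi, E_nsmul]

end Claimed.Agent.R282
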