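/-
Row 282, Part I.  File KostFin (K1a): the set of Kostant partitions of a vector is finite.

`PR n` = index type of the positive roots (as in the frozen `kostantD`), `proot r` = the doubled root `2(e_i ± e_j)`, `i < j`.
PROOF of `kost_finite`.  Height `ht β = ∑_k ((n : ℤ) - k) * β k` is additive (`Finset.sum_add_distrib`, `Finset.mul_sum`) and `ht (proot r) ≥ 2`:
   `proot r = 2 e_i ± 2 e_j` with `i < j < n`, so `ht = 2 (n - i) ± 2 (n - j) ≥ 2 (j - i) ≥ 2`  (unfold `posRoot2`; `Finset.sum_ite_eq`).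
 If `∑_r c r • proot r = β` then `ht β = ∑_r c r * ht (proot r) ≥ c r₀` for every `r₀` (`Finset.single_le_sum`).  So the solution set is contained in
 `{c | ∀ r, c r ≤ (ht β).toNat}`, which is finite: `Set.Finite.subset (Set.finite_Iic (fun _ => (ht β).toNat))` (order on `PR n → ℕ` is locally finite with bottom),
 or `Set.Finite.pi`.
-/
import Claimed.Agent.R282.Defs

set_option autoImplicit false

namespace Claimed.Agent.R282
open Claims.C0456

/-- index type of the positive roots of `D_n` (as in the frozen `kostantD`). -/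
abbrev PR (n : ℕ) := {r : Fin n × Fin n × Bool // r.1 < r.2.1}

/-- the (doubled) positive root with index `r`. -/
def proot {n : ℕ} (r : PR n) : Fin n → ℤ := posRoot2 r.1.1 r.1.2.1 r.1.2.2

/-- height functional. -/
def kostFin_ht {n : ℕ} (β : Fin n → ℤ) : ℤ := ∑ k : Fin n, ((n : ℤ) - (k : ℕ)) * β k

theorem kostFin_ht_sum {n : ℕ} {ι : Type} (s : Finset ι) (c : ι → ℕ) (f : ι → Fin n → ℤ) :
    kostFin_ht (∑ r ∈ s, c r • f r) = ∑ r ∈ s, (c r : ℤ) * kostFin_ht (f r) := by
  unfold kostFin_ht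
  simp only [Finset.sum_apply, Pi.smul_apply, Finset.mul_sum]
  rw [Finset.sum_comm]
  refine Finset.sum_congr rfl fun r _ => Finset.sum_congr rfl fun k _ => ?_
  rw [nsmul_eq_mul]
  ring

theorem kostFin_ht_proot {n : ℕ} (r : PR n) : 2 ≤ kostFin_ht (proot r) := by
  obtain ⟨⟨i, j, b⟩, hij⟩ := r
  have hij' : (i : ℕ) < (j : ℕ) := hij
  have hj : (j : ℕ) < n := j.2
  have e : kostFin_ht (proot ⟨⟨i, j, b⟩, hij⟩)
      = 2 * ((n : ℤ) - (i : ℕ)) + 2 * (if b then 1 else -1) * ((n : ℤ) - (j : ℕ)) := by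
    unfold kostFin_ht proot posRoot2
    have h1 : ∀ k : Fin n, ((n : ℤ) - (k : ℕ)) * (2 * ((if k = i then 1 else 0)
        + (if b then 1 else -1) * (if k = j then 1 else 0)))
        = (if k = i then 2 * ((n : ℤ) - (k : ℕ)) else 0)
          + (if k = j then 2 * (if b then 1 else -1) * ((n : ℤ) - (k : ℕ)) else 0) := by
      intro k
      split_ifs <;> ring
    simp only [h1, Finset.sum_add_distrib, Finset.sum_ite_eq', Finset.mem_univ, if_true]
  rw [e]
  have h1 : ((i : ℕ) : ℤ) + 1 ≤ ((j : ℕ) : ℤ) := by exact_mod_cast hij'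
  have h2 : ((j : ℕ) : ℤ) + 1 ≤ (n : ℤ) := by exact_mod_cast hj
  cases b
  · simp only [Bool.false_eq_true, if_false]; linarith
  · simp only [if_true]; linarith

theorem kost_finite {n : ℕ} (β : Fin n → ℤ) :
    Set.Finite {c : PR n → ℕ | ∑ r, c r • proot r = β} := by
  refine Set.Finite.subset (Set.finite_Iic (fun _ : PR n => (kostFin_ht β).toNat)) ?_
  intro c hc r₀
  have hc' : ∑ r, c r • proot r = β := hc
  have h := kostFin_ht_sum (Finset.univ : Finset (PR n)) c proot
  rw [hc'] at h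
  have h2 : (c r₀ : ℤ) * kostFin_ht (proot r₀) ≤ ∑ r, (c r : ℤ) * kostFin_ht (proot r) :=
    Finset.single_le_sum (f := fun r => (c r : ℤ) * kostFin_ht (proot r))
      (fun r _ => mul_nonneg (Int.natCast_nonneg _) (by linarith [kostFin_ht_proot r]))
      (Finset.mem_univ r₀)
  have h3 : (c r₀ : ℤ) ≤ (c r₀ : ℤ) * kostFin_ht (proot r₀) := by
    nlinarith [kostFin_ht_proot r₀, Int.natCast_nonneg (c r₀)]
  have h4 : (c r₀ : ℤ) ≤ kostFin_ht β := by rw [h]; linarith
  show c r₀ ≤ (kostFin_ht β).toNat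
  omega

end Claimed.Agent.R282
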