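/-
Row 282, Part I.  File DenomProd (K2, steps D4b, D5): the Vandermonde product is `E ρ ∏_{α>0} (1 - E(-α))`, expanded over subsets.

PROOFS (black boxes: `yv_sub`, `prod_single_eq_rho` of file DenomFac).
 * `vand_eq`: by `yv_sub` (`j ∈ Ioi i` gives `i ≠ j`) and `Finset.prod_mul_distrib`:
     `∏_i ∏_{j>i} (y_i - y_j) = (∏_i ∏_{j>i} E (single i 2)) * ∏_i ∏_{j>i} (F i j false * F i j true)`, `F i j b = 1 - E (-(posRoot2 i j b))`.
     Then `∏_i ∏_{j>i} (F i j false * F i j true) = ∏_{r : PR n} F r.1.1 r.1.2.1 r.1.2.2`: re-index the product over the subtype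
     `PR n = {r : Fin n × Fin n × Bool // r.1 < r.2.1}` (`Finset.prod_subtype`/`Finset.prod_coe_sort`, `Finset.prod_filter`, `Fintype.prod_prod_type`, `Fintype.prod_bool`; `Finset.mem_Ioi`).   `proot r` unfolds to `posRoot2 ..`.
 * `prod_one_sub_E`: `Finset.prod_one_add` (or `Finset.prod_add`) with `f r = - E (- proot r)` (`sub_eq_add_neg`):
     `∏_{r∈S} (- E (- proot r)) = (-1)^{|S|} • E (- ∑_{r∈S} proot r)`  (`Finset.prod_neg`-type lemma: `Finset.prod_mul_distrib` with `-x = (-1) * x`, `Finset.prod_const`, `E_sum`, `Finset.sum_neg_distrib`).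
-/
import Claimed.Agent.R282.DenomFac
import Claimed.Agent.R282.KostFin

set_option autoImplicit false

namespace Claimed.Agent.R282
open Claims.C0456

theorem denomProd_reindex (n : ℕ) (F : Fin n → Fin n → Bool → GA n) :
    ∏ i : Fin n, ∏ j ∈ Finset.Ioi i, (F i j false * F i j true) =
      ∏ r : PR n, F r.1.1 r.1.2.1 r.1.2.2 := by
  classical
  have h2 : ∏ r : PR n, F r.1.1 r.1.2.1 r.1.2.2 =
      ∏ r ∈ (Finset.univ : Finset (Fin n × Fin n × Bool)).filter (fun r => r.1 < r.2.1),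
        F r.1 r.2.1 r.2.2 := by
    rw [Finset.prod_subtype (p := fun r : Fin n × Fin n × Bool => r.1 < r.2.1)
      ((Finset.univ : Finset (Fin n × Fin n × Bool)).filter (fun r => r.1 < r.2.1))
      (fun x => by simp) (fun r => F r.1 r.2.1 r.2.2)]
  rw [h2, Finset.prod_filter, Fintype.prod_prod_type]
  refine Finset.prod_congr rfl fun i _ => ?_
  rw [Fintype.prod_prod_type]
  have h3 : ∏ j ∈ Finset.Ioi i, (F i j false * F i j true) =
      ∏ j : Fin n, if i < j then (F i j false * F i j true) else 1 := by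
    rw [← Finset.prod_filter]
    refine Finset.prod_congr ?_ fun _ _ => rfl
    ext j
    simp
  rw [h3]
  refine Finset.prod_congr rfl fun j _ => ?_
  rw [Fintype.prod_bool]
  by_cases h : i < j
  · simp [h, mul_comm]
  · simp [h]

theorem vand_eq (n : ℕ) :
    ∏ i : Fin n, ∏ j ∈ Finset.Ioi i, (yv i - yv j) = E (rho2 n) * ∏ r : PR n, (1 - E (-(proot r))) := by
  classical
  have h1 : ∏ i : Fin n, ∏ j ∈ Finset.Ioi i, (yv i - yv j) =
      (∏ i : Fin n, ∏ _j ∈ Finset.Ioi i, E (Pi.single i (2 : ℤ))) *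
        ∏ i : Fin n, ∏ j ∈ Finset.Ioi i,
          ((1 - E (-(posRoot2 i j false))) * (1 - E (-(posRoot2 i j true)))) := by
    rw [← Finset.prod_mul_distrib]
    refine Finset.prod_congr rfl fun i _ => ?_
    rw [← Finset.prod_mul_distrib]
    refine Finset.prod_congr rfl fun j hj => ?_
    rw [yv_sub i j (ne_of_lt (Finset.mem_Ioi.mp hj)), mul_assoc]
  rw [h1, prod_single_eq_rho]
  congr 1
  exact denomProd_reindex n (fun i j b => 1 - E (-(posRoot2 i j b)))

theorem prod_one_sub_E (n : ℕ) :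
    ∏ r : PR n, (1 - E (-(proot r))) =
      ∑ S ∈ (Finset.univ : Finset (PR n)).powerset, ((-1 : ℤ) ^ S.card) • E (-(∑ r ∈ S, proot r)) := by
  classical
  have h1 : ∏ r : PR n, (1 - E (-(proot r))) = ∏ r : PR n, (1 + -E (-(proot r))) :=
    Finset.prod_congr rfl fun r _ => by rw [sub_eq_add_neg]
  rw [h1, Finset.prod_one_add]
  refine Finset.sum_congr rfl fun S _ => ?_
  have h2 : ∏ r ∈ S, -E (-(proot r)) = ∏ r ∈ S, ((-1 : GA n) * E (-(proot r))) :=
    Finset.prod_congr rfl fun r _ => by rw [neg_one_mul]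
  rw [h2, Finset.prod_mul_distrib, Finset.prod_const, ← Finset.sum_neg_distrib, E_sum]
  rw [zsmul_eq_mul]
  push_cast
  rfl

end Claimed.Agent.R282
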