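/-
Row 282, Part I.  File DenomSign (K2, step D1): at `rho2` the sum over EVEN sign vectors is half the sum over ALL sign vectors.

PROOF.  `rho2 n k = 2 (n-1-k)` vanishes at the last index `z = ⟨n-1,_⟩`.  Fix `σ`.  Let `q = σ z` and `flip s := Function.update s q (!s q)`.
 * `signedPermAct σ (flip s) (rho2 n) = signedPermAct σ s (rho2 n)`: the two differ at most at the index `q`, where the entry is
   `± rho2 n (σ.symm q) = ± rho2 n z = 0`.
 * `flip` is an involution of `Fin n → Bool` and changes `#{i | s i = true}` by `±1`, so it exchanges even and odd `s`.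
 Hence `∑_{s odd} F s = ∑_{s even} F s` for `F s = g (signedPermAct σ s (rho2 n))`, and `∑_{all s} = 2 ∑_{s even}`
 (`Finset.sum_ite`/`Finset.sum_filter_add_sum_filter_not`, `Finset.sum_nbij'` with `flip`, `flip`; `Nat.not_even_iff_odd`).
-/
import Claimed.Agent.R282.Defs

set_option autoImplicit false

namespace Claimed.Agent.R282
open Claims.C0456

theorem denomSign_card_flip {n : ℕ} (q : Fin n) (s : Fin n → Bool) :
    Even (Finset.univ.filter fun i => Function.update s q (!s q) i = true).card ↔
      ¬ Even (Finset.univ.filter fun i => s i = true).card := by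
  cases hq : s q with
  | true =>
    have e : (Finset.univ.filter fun i => Function.update s q (!true) i = true) =
        (Finset.univ.filter fun i => s i = true).erase q := by
      ext i
      by_cases h : i = q
      · subst h; simp
      · simp [h]
    have hmem : q ∈ Finset.univ.filter fun i => s i = true := by simp [hq]
    have hpos : 0 < (Finset.univ.filter fun i => s i = true).card := Finset.card_pos.2 ⟨q, hmem⟩
    rw [e, Finset.card_erase_of_mem hmem, Nat.even_iff, Nat.even_iff]
    omega
  | false =>
    have e : (Finset.univ.filter fun i => Function.update s q (!false) i = true) =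
        insert q (Finset.univ.filter fun i => s i = true) := by
      ext i
      by_cases h : i = q
      · subst h; simp
      · simp [h]
    have hmem : q ∉ Finset.univ.filter fun i => s i = true := by simp [hq]
    rw [e, Finset.card_insert_of_notMem hmem, Nat.even_iff, Nat.even_iff]
    omega

theorem denomSign_sum {n : ℕ} (q : Fin n) (F : (Fin n → Bool) → ℤ)
    (hF : ∀ s, F (Function.update s q (!s q)) = F s) :
    ∑ s, F s = 2 * ∑ s : Fin n → Bool,
      if Even (Finset.univ.filter fun i => s i = true).card then F s else 0 := by
  have hinv : Function.Involutive (fun s : Fin n → Bool => Function.update s q (!s q)) := by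
    intro s
    ext i
    by_cases h : i = q
    · subst h; simp
    · simp [Function.update_of_ne h]
  have h1 : ∑ s, F s =
      (∑ s : Fin n → Bool, if Even (Finset.univ.filter fun i => s i = true).card then F s else 0) +
      ∑ s : Fin n → Bool, if ¬ Even (Finset.univ.filter fun i => s i = true).card then F s else 0 := by
    rw [← Finset.sum_add_distrib]
    apply Finset.sum_congr rfl
    intro s _
    by_cases h : Even (Finset.univ.filter fun i => s i = true).card
    · simp [h]
    · simp [h]
  have h2 : (∑ s : Fin n → Bool,
        if ¬ Even (Finset.univ.filter fun i => s i = true).card then F s else 0) =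
      ∑ s : Fin n → Bool, if Even (Finset.univ.filter fun i => s i = true).card then F s else 0 := by
    apply Fintype.sum_equiv hinv.toPerm
    intro s
    show (if ¬ Even (Finset.univ.filter fun i => s i = true).card then F s else 0) =
      if Even (Finset.univ.filter fun i => Function.update s q (!s q) i = true).card then
        F (Function.update s q (!s q)) else 0
    rw [hF]
    simp only [denomSign_card_flip]
  rw [h1, h2]
  ring

theorem two_mul_altSum_rho {n : ℕ} (hn : 2 ≤ n) (g : (Fin n → ℤ) → ℤ) :
    2 * altSum g (rho2 n) =
      ∑ σ : Equiv.Perm (Fin n), ∑ s : Fin n → Bool,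
        ((Equiv.Perm.sign σ : ℤˣ) : ℤ) * g (signedPermAct σ s (rho2 n)) := by
  unfold altSum
  rw [Finset.mul_sum]
  apply Finset.sum_congr rfl
  intro σ _
  have hz : n - 1 < n := by omega
  have h0 : rho2 n ⟨n - 1, hz⟩ = 0 := by
    unfold rho2
    have : ((n - 1 : ℕ) : ℤ) = (n : ℤ) - 1 := by omega
    simp [this]
  have key := denomSign_sum (σ ⟨n - 1, hz⟩)
    (fun s => ((Equiv.Perm.sign σ : ℤˣ) : ℤ) * g (signedPermAct σ s (rho2 n))) (by
      intro s
      have e : signedPermAct σ (Function.update s (σ ⟨n - 1, hz⟩) (!s (σ ⟨n - 1, hz⟩))) (rho2 n) =
          signedPermAct σ s (rho2 n) := by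
        funext i
        unfold signedPermAct
        by_cases h : i = σ ⟨n - 1, hz⟩
        · subst h
          simp [h0]
        · rw [Function.update_of_ne h]
      simp only [e])
  rw [key]

end Claimed.Agent.R282
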