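/-
Row 282, Part I.  File DenomDet (K2, step D2): the sum over all signed permutations is a determinant in the group algebra.

`dmat n : Matrix (Fin n) (Fin n) (GA n)`,  `dmat n i j = E (Pi.single i (rho2 n j)) + E (Pi.single i (- rho2 n j))`.
CLAIM   ∑_σ ∑_s sign σ • E (signedPermAct σ s (rho2 n)) = det (dmat n).

PROOF.  `Matrix.det_apply`: `det A = ∑_σ sign σ • ∏_j A (σ j) j`.   Fix `σ`.  With `a_j = rho2 n j`:
   ∏_j (E (single (σ j) a_j) + E (single (σ j) (-a_j)))
     = ∑_{s' : Fin n → Bool} ∏_j E (single (σ j) (if s' j then -a_j else a_j))          (`Finset.prod_univ_sum` over `Bool`-valued choices,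
                                                                                     or `Finset.prod_add` + re-indexing subsets by indicator functions)
     = ∑_{s'} E (∑_j single (σ j) (if s' j then -a_j else a_j))                           (`E_sum`)
   and `∑_j single (σ j) (ε_j a_j) = signedPermAct σ (s' ∘ σ.symm) (rho2 n)` (evaluate at `i`: only `j = σ.symm i` contributes;
   `Finset.sum_apply`, `Pi.single_apply`, `Finset.sum_ite_eq`).  Finally re-index `s = s' ∘ σ.symm` (`Equiv.sum_comp` with `Equiv.arrowCongr σ (Equiv.refl _)`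
   or `Function.Surjective`-free: `Fintype.sum_equiv`).
-/
import Claimed.Agent.R282.GAlg

set_option autoImplicit false

namespace Claimed.Agent.R282
open Claims.C0456

/-- the matrix `(X_i^{a_j} + X_i^{-a_j})`, `a_j = rho2 n j`. -/
noncomputable def dmat (n : ℕ) : Matrix (Fin n) (Fin n) (GA n) :=
  Matrix.of fun i j => E (Pi.single i (rho2 n j)) + E (Pi.single i (- rho2 n j))

theorem denomDet_single_sum (n : ℕ) (σ : Equiv.Perm (Fin n)) (s' : Fin n → Bool) :
    ∑ j, (Pi.single (σ j) (if s' j then - rho2 n j else rho2 n j) : Fin n → ℤ)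
      = signedPermAct σ (s' ∘ σ.symm) (rho2 n) := by
  funext i
  rw [Finset.sum_apply]
  have h : ∀ j, (Pi.single (σ j) (if s' j then - rho2 n j else rho2 n j) : Fin n → ℤ) i
      = if j = σ.symm i then (if s' j then - rho2 n j else rho2 n j) else 0 := by
    intro j
    rw [Pi.single_apply]
    by_cases hj : j = σ.symm i
    · subst hj
      simp
    · have : i ≠ σ j := by
        intro e
        apply hj
        rw [e, Equiv.symm_apply_apply]
      rw [if_neg this, if_neg hj]
  simp only [h]
  rw [Finset.sum_ite_eq' Finset.univ (σ.symm i), if_pos (Finset.mem_univ _)]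
  unfold signedPermAct
  simp only [Function.comp]
  split_ifs <;> ring

theorem denomDet_sum_eq_prod (n : ℕ) (σ : Equiv.Perm (Fin n)) :
    ∑ s : Fin n → Bool, E (signedPermAct σ s (rho2 n)) = ∏ j, dmat n (σ j) j := by
  have h1 : ∀ j, dmat n (σ j) j
      = ∑ b : Bool, E (Pi.single (σ j) (if b then - rho2 n j else rho2 n j)) := by
    intro j
    rw [Fintype.sum_bool]
    simp only [dmat, Matrix.of_apply, if_true, Bool.false_eq_true, if_false]
    rw [add_comm]
  simp only [h1]
  rw [Finset.prod_univ_sum, Fintype.piFinset_univ]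
  have h2 : ∀ s' : Fin n → Bool,
      ∏ j, E (Pi.single (σ j) (if s' j then - rho2 n j else rho2 n j) : Fin n → ℤ)
        = E (signedPermAct σ (s' ∘ σ.symm) (rho2 n)) := by
    intro s'
    rw [← E_sum, denomDet_single_sum]
  simp only [h2]
  refine Fintype.sum_equiv (Equiv.arrowCongr σ.symm (Equiv.refl Bool)) _ _ fun s => ?_
  congr 2
  funext i
  simp [Equiv.arrowCongr]

theorem sum_signed_eq_det (n : ℕ) :
    ∑ σ : Equiv.Perm (Fin n), ∑ s : Fin n → Bool,
        ((Equiv.Perm.sign σ : ℤˣ) : ℤ) • E (signedPermAct σ s (rho2 n)) = (dmat n).det := by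
  rw [Matrix.det_apply]
  refine Finset.sum_congr rfl fun σ _ => ?_
  rw [← Finset.smul_sum, Units.smul_def]
  congr 1
  exact denomDet_sum_eq_prod n σ

end Claimed.Agent.R282
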