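/-
Row 282, Part I.  File DenomVand (K2, step D3b): `det (dmat n) = 2 ∏_{i<j} (y_i - y_j)`,  `y_i = yv i`.

   dmat n i j = E (Pi.single i (rho2 n j)) + E (Pi.single i (- rho2 n j)),     rho2 n j = 2 (n-1-j).
PROOF.
 (1) For `j` with `a = n-1-j ≥ 1`:  `dmat n i j = (qpol n a).eval (yv i)` (`qpol_eval`; `rho2 n j = 2 * (a : ℤ)`: unfold `rho2`, `push_cast`, `omega`-style).
     For the last column `j = n-1` (`a = 0`): `dmat n i j = E 0 + E 0 = 2 = 2 * (qpol n 0).eval (yv i)` (`Pi.single_zero`, `E_zero`, `qpol n 0 = 1`).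
     So `dmat n = B * diagonal d` with `B i j = (qpol n (n-1-j)).eval (yv i)`, `d j = if j = n-1 then 2 else 1`; `Matrix.det_mul`, `Matrix.det_diagonal`, `∏ d = 2` (`Finset.prod_ite_eq`).
     (Or `Matrix.det_updateCol_smul`.)
 (2) Re-index rows and columns by `Fin.revPerm` (`Matrix.det_submatrix_equiv_self Fin.revPerm B`):
     `det B = det (fun i j => (qpol n j).eval (yv (Fin.rev i)))`       (`n - 1 - (Fin.rev j) = j`: `Fin.val_rev`, `omega`)
       `= det (vandermonde (fun i => yv (Fin.rev i)))`                 (`Matrix.det_eval_matrixOfPolynomials_eq_det_vandermonde` with `p j = qpol n j`, `qpol_spec`)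
       `= ∏ i, ∏ j ∈ Ioi i, (yv (rev j) - yv (rev i))`                 (`Matrix.det_vandermonde`)
       `= ∏ i, ∏ j ∈ Ioi i, (yv i - yv j)`                             (bijection `(i,j) ↦ (rev j, rev i)` on pairs `i < j`; `Finset.prod_sigma'`, `Finset.prod_bij'`, `Fin.rev_lt_rev`).
-/
import Claimed.Agent.R282.DenomDet
import Claimed.Agent.R282.DenomDick

set_option autoImplicit false

namespace Claimed.Agent.R282
open Claims.C0456

/-- the matrix of the polynomials `qpol` evaluated at the `yv i`. -/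
noncomputable def denomVand_B (n : ℕ) : Matrix (Fin n) (Fin n) (GA n) :=
  Matrix.of fun i j => (qpol n (n - 1 - (j : ℕ))).eval (yv i)

theorem denomVand_entry {n : ℕ} (i j : Fin n) :
    dmat n i j = denomVand_B n i j * (if (j : ℕ) + 1 = n then 2 else 1) := by
  have hj := j.isLt
  by_cases h : (j : ℕ) + 1 = n
  · have h0 : n - 1 - (j : ℕ) = 0 := by omega
    have hr : rho2 n j = 0 := by
      unfold rho2
      have : (n : ℤ) = (j : ℕ) + 1 := by exact_mod_cast h.symm
      rw [this]; ring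
    simp only [dmat, denomVand_B, Matrix.of_apply, hr, h0, h, if_true, neg_zero, Pi.single_zero,
      E_zero, qpol, Polynomial.eval_one]
    norm_num
  · have h1 : 1 ≤ n - 1 - (j : ℕ) := by omega
    have hr : rho2 n j = 2 * ((n - 1 - (j : ℕ) : ℕ) : ℤ) := by
      unfold rho2
      have : ((n - 1 - (j : ℕ) : ℕ) : ℤ) = (n : ℤ) - 1 - (j : ℕ) := by omega
      rw [this]
    simp only [dmat, denomVand_B, Matrix.of_apply, h, if_false, mul_one]
    rw [qpol_eval _ h1, hr]

theorem denomVand_prod_rev {n : ℕ} {R : Type} [CommRing R] (y : Fin n → R) :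
    ∏ i : Fin n, ∏ j ∈ Finset.Ioi i, (y (Fin.rev j) - y (Fin.rev i)) =
      ∏ i : Fin n, ∏ j ∈ Finset.Ioi i, (y i - y j) := by
  rw [Finset.prod_sigma', Finset.prod_sigma']
  refine Finset.prod_bij' (fun p _ => ⟨Fin.rev p.2, Fin.rev p.1⟩)
    (fun p _ => ⟨Fin.rev p.2, Fin.rev p.1⟩) ?_ ?_ ?_ ?_ ?_
  · rintro ⟨i, j⟩ h
    simp only [Finset.mem_sigma, Finset.mem_univ, Finset.mem_Ioi, true_and] at h ⊢
    exact Fin.rev_lt_rev.mpr h
  · rintro ⟨i, j⟩ h
    simp only [Finset.mem_sigma, Finset.mem_univ, Finset.mem_Ioi, true_and] at h ⊢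
    exact Fin.rev_lt_rev.mpr h
  · rintro ⟨i, j⟩ _
    simp
  · rintro ⟨i, j⟩ _
    simp
  · rintro ⟨i, j⟩ _
    rfl

theorem denomVand_det_B (n : ℕ) :
    (denomVand_B n).det = ∏ i : Fin n, ∏ j ∈ Finset.Ioi i, (yv i - yv j) := by
  rw [← Matrix.det_submatrix_equiv_self Fin.revPerm (denomVand_B n)]
  have h1 : (denomVand_B n).submatrix Fin.revPerm Fin.revPerm =
      Matrix.of (fun i j : Fin n => ((fun k : Fin n => qpol n (k : ℕ)) j).eval
        ((fun k : Fin n => yv (Fin.rev k)) i)) := by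
    ext i j
    have hj := j.isLt
    have : n - 1 - (Fin.rev j : ℕ) = (j : ℕ) := by
      rw [Fin.val_rev]; omega
    simp only [denomVand_B, Matrix.submatrix_apply, Matrix.of_apply, Fin.revPerm_apply, this]
  rw [h1, ← Matrix.det_eval_matrixOfPolynomials_eq_det_vandermonde
    (fun k : Fin n => yv (Fin.rev k)) (fun k : Fin n => qpol n (k : ℕ))
    (fun i => (qpol_spec n i).2) (fun i => (qpol_spec n i).1), Matrix.det_vandermonde]
  exact denomVand_prod_rev (fun k : Fin n => yv k)

theorem det_dmat {n : ℕ} (hn : 2 ≤ n) :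
    (dmat n).det = 2 * ∏ i : Fin n, ∏ j ∈ Finset.Ioi i, (yv i - yv j) := by
  have h1 : dmat n = denomVand_B n *
      Matrix.diagonal (fun j : Fin n => if (j : ℕ) + 1 = n then (2 : GA n) else 1) := by
    ext i j
    rw [Matrix.mul_diagonal, denomVand_entry]
  have h2 : ∏ j : Fin n, (if (j : ℕ) + 1 = n then (2 : GA n) else 1) = 2 := by
    have h3 : ∀ j : Fin n, (if (j : ℕ) + 1 = n then (2 : GA n) else 1) =
        if j = (⟨n - 1, by omega⟩ : Fin n) then (2 : GA n) else 1 := by
      intro j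
      have : ((j : ℕ) + 1 = n) ↔ j = (⟨n - 1, by omega⟩ : Fin n) := by
        rw [Fin.ext_iff]; simp only; omega
      simp only [this]
    simp only [h3]
    rw [Finset.prod_ite_eq']
    simp
  rw [h1, Matrix.det_mul, Matrix.det_diagonal, h2, denomVand_det_B, mul_comm]

end Claimed.Agent.R282
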