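/-
Row 282, Part I.  File DenomFun (K2, assembly): Weyl denominator identity of D_n as an identity of functionals.
   ∑_w sgn(w) g(w ρ) = ∑_{S ⊆ Φ⁺} (-1)^{|S|} g(ρ - ∑ S).
-/
import Claimed.Agent.R282.DenomSign
import Claimed.Agent.R282.DenomProd
import Claimed.Agent.R282.DenomVand

set_option autoImplicit false

namespace Claimed.Agent.R282
open Claims.C0456

theorem denominator_functional {n : ℕ} (hn : 2 ≤ n) (g : (Fin n → ℤ) → ℤ) :
    altSum g (rho2 n) =
      ∑ S ∈ (Finset.univ : Finset (PR n)).powerset,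
        (-1 : ℤ) ^ S.card * g (rho2 n - ∑ r ∈ S, proot r) := by
  have h1 := two_mul_altSum_rho hn g
  have h2 := congrArg (Lam g) (sum_signed_eq_det n)
  rw [det_dmat hn, vand_eq, prod_one_sub_E] at h2
  simp only [map_sum, map_smul, Lam_E, smul_eq_mul] at h2
  rw [h2] at h1
  have h3 : Lam g (2 * (E (rho2 n) * ∑ S ∈ (Finset.univ : Finset (PR n)).powerset,
      ((-1 : ℤ) ^ S.card) • E (-(∑ r ∈ S, proot r)))) =
      2 * ∑ S ∈ (Finset.univ : Finset (PR n)).powerset,
        (-1 : ℤ) ^ S.card * g (rho2 n - ∑ r ∈ S, proot r) := by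
    rw [two_mul, map_add, Finset.mul_sum, map_sum, ← two_mul]
    congr 1
    refine Finset.sum_congr rfl (fun S _ => ?_)
    rw [mul_smul_comm, map_smul, ← E_add, Lam_E, smul_eq_mul, sub_eq_add_neg]
  rw [h3] at h1
  exact mul_left_cancel₀ (two_ne_zero) h1

end Claimed.Agent.R282
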