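/-
Row 282, Part I.  File KostStep (K1b): partition functions `kp T` with parts in a finset `T` of positive roots; one-step recursion.

   kp T β := Nat.card {c : PR n → ℕ // (∀ r ∉ T, c r = 0) ∧ ∑ r, c r • proot r = β}.
PROOFS.
* `kp_univ`: the side condition is void: `Nat.card_congr` (`Equiv.subtypeEquivRight`), and `kostantD β` unfolds to `Nat.card {c // ∑ r, c r • posRoot2 .. = β}` (`proot` is `rfl`).
* `kp_empty`: `c = 0` is forced; the subtype is `Unique` if `β = 0` (`Nat.card_unique`) and empty otherwise (`Nat.card_of_isEmpty`).
* `kp_insert` (`r ∉ T`):  `A = {c | supp ⊆ insert r T, ∑ = β}` is finite (subset of `kost_finite β`).  `A = A₀ ⊔ A₁`, `A₀ = {c ∈ A | c r = 0}`, `A₁ = {c ∈ A | 1 ≤ c r}`.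
     `A₀` = solutions with support in `T`.   `A₁ ≃ {c | supp ⊆ insert r T, ∑ = β - proot r}` via `c ↦ Function.update c r (c r - 1)` (inverse `+1`);
     `∑_q (update c r (c r - 1)) q • proot q = ∑_q c q • proot q - proot r`  (`Finset.sum_update_of_mem` or split off `r`).
     Cardinalities: work with `Set.ncard` (`Set.ncard_union_eq` with finiteness, `Set.ncard_congr`/`Set.ncard_image_of_injective`; `Nat.card_coe_set_eq`) or with `Nat.card_congr` + `Nat.card_sum` for an
     explicit `Equiv` `A ≃ A₀ ⊕ A₁` (needs `Finite` instances from `kost_finite`: `Set.Finite.to_subtype`, `Finite.of_injective`).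
-/
import Claimed.Agent.R282.KostFin

set_option autoImplicit false

namespace Claimed.Agent.R282
open Claims.C0456

/-- partition function with parts in `T`. -/
noncomputable def kp {n : ℕ} (T : Finset (PR n)) (β : Fin n → ℤ) : ℕ :=
  Nat.card {c : PR n → ℕ // (∀ r, r ∉ T → c r = 0) ∧ ∑ r, c r • proot r = β}

theorem kp_univ {n : ℕ} (β : Fin n → ℤ) : kp Finset.univ β = kostantD β := by
  unfold kp kostantD
  apply Nat.card_congr
  exact Equiv.subtypeEquivRight (fun c => by simp [proot])

theorem kp_empty {n : ℕ} (β : Fin n → ℤ) : kp (∅ : Finset (PR n)) β = if β = 0 then 1 else 0 := by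
  unfold kp
  split_ifs with h
  · subst h
    have : Unique {c : PR n → ℕ // (∀ r, r ∉ (∅ : Finset (PR n)) → c r = 0) ∧
        ∑ r, c r • proot r = 0} :=
      { default := ⟨0, by simp⟩
        uniq := fun ⟨c, hc, _⟩ => by
          apply Subtype.ext
          funext r
          simpa using hc r (by simp) }
    exact Nat.card_unique
  · have : IsEmpty {c : PR n → ℕ // (∀ r, r ∉ (∅ : Finset (PR n)) → c r = 0) ∧
        ∑ r, c r • proot r = β} :=
      ⟨fun ⟨c, hc, hs⟩ => h (by
        rw [← hs]
        apply Finset.sum_eq_zero
        intro r _
        rw [hc r (by simp)]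
        simp)⟩
    exact Nat.card_of_isEmpty

/-- the solution set counted by `kp`. -/
def kostStep_sol {n : ℕ} (T : Finset (PR n)) (β : Fin n → ℤ) : Set (PR n → ℕ) :=
  {c | (∀ r, r ∉ T → c r = 0) ∧ ∑ r, c r • proot r = β}

theorem kostStep_kp_eq {n : ℕ} (T : Finset (PR n)) (β : Fin n → ℤ) :
    kp T β = (kostStep_sol T β).ncard := by
  unfold kp kostStep_sol
  exact Nat.card_coe_set_eq _

theorem kostStep_sol_finite {n : ℕ} (T : Finset (PR n)) (β : Fin n → ℤ) :
    (kostStep_sol T β).Finite :=
  (kost_finite β).subset (fun _ hc => hc.2)

theorem kostStep_sum_update {n : ℕ} (c : PR n → ℕ) (r : PR n) :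
    ∑ q, (Function.update c r (c r + 1)) q • proot q = ∑ q, c q • proot q + proot r := by
  classical
  rw [← Finset.add_sum_erase _ _ (Finset.mem_univ r), ← Finset.add_sum_erase _ (fun q => c q • proot q) (Finset.mem_univ r)]
  have : ∑ q ∈ Finset.univ.erase r, (Function.update c r (c r + 1)) q • proot q
      = ∑ q ∈ Finset.univ.erase r, c q • proot q := by
    apply Finset.sum_congr rfl
    intro q hq
    rw [Function.update_of_ne (Finset.ne_of_mem_erase hq)]
  rw [this, Function.update_self, add_smul, one_smul]
  abel

theorem kp_insert {n : ℕ} (T : Finset (PR n)) (r : PR n) (hr : r ∉ T) (β : Fin n → ℤ) :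
    kp (insert r T) β = kp T β + kp (insert r T) (β - proot r) := by
  classical
  rw [kostStep_kp_eq, kostStep_kp_eq, kostStep_kp_eq]
  set g : (PR n → ℕ) → (PR n → ℕ) := fun c => Function.update c r (c r + 1) with hg
  have hinj : Function.Injective g := by
    intro c d h
    funext q
    by_cases hq : q = r
    · subst hq
      have := congrFun h q
      simp only [hg, Function.update_self] at this
      omega
    · have := congrFun h q
      simpa only [hg, Function.update_of_ne hq] using this
  have hunion : kostStep_sol (insert r T) β
      = kostStep_sol T β ∪ g '' kostStep_sol (insert r T) (β - proot r) := by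
    ext c
    constructor
    · rintro ⟨h1, h2⟩
      by_cases h0 : c r = 0
      · left
        refine ⟨fun q hq => ?_, h2⟩
        by_cases hqr : q = r
        · rw [hqr]; exact h0
        · exact h1 q (by simp [hqr, hq])
      · right
        refine ⟨Function.update c r (c r - 1), ⟨fun q hq => ?_, ?_⟩, ?_⟩
        · have hqr : q ≠ r := by
            rintro rfl
            exact hq (Finset.mem_insert_self _ _)
          rw [Function.update_of_ne hqr]
          exact h1 q hq
        · have h3 := kostStep_sum_update (Function.update c r (c r - 1)) r
          have h4 : Function.update (Function.update c r (c r - 1)) r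
              ((Function.update c r (c r - 1)) r + 1) = c := by
            funext q
            by_cases hqr : q = r
            · subst hqr
              simp only [Function.update_self]
              omega
            · simp only [Function.update_of_ne hqr]
          rw [h4, h2] at h3
          rw [h3]
          abel
        · funext q
          by_cases hqr : q = r
          · subst hqr
            simp only [hg, Function.update_self]
            omega
          · simp only [hg, Function.update_of_ne hqr]
    · rintro (⟨h1, h2⟩ | ⟨d, ⟨h1, h2⟩, rfl⟩)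
      · exact ⟨fun q hq => h1 q (fun h => hq (Finset.mem_insert_of_mem h)), h2⟩
      · refine ⟨fun q hq => ?_, ?_⟩
        · have hqr : q ≠ r := by
            rintro rfl
            exact hq (Finset.mem_insert_self _ _)
          simp only [hg, Function.update_of_ne hqr]
          exact h1 q hq
        · simp only [hg]
          rw [kostStep_sum_update, h2]
          abel
  have hdisj : Disjoint (kostStep_sol T β) (g '' kostStep_sol (insert r T) (β - proot r)) := by
    rw [Set.disjoint_left]
    rintro c ⟨h1, _⟩ ⟨d, _, rfl⟩
    have := h1 r hr
    simp only [hg, Function.update_self] at this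
    omega
  rw [hunion, Set.ncard_union_eq hdisj (kostStep_sol_finite _ _)
    ((kostStep_sol_finite _ _).image _), Set.ncard_image_of_injective _ hinj]

end Claimed.Agent.R282
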