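/-
Row 282, Part I.  File KostRec (K1c): inclusion-exclusion for the Kostant partition function of D_n.
CLAIM.  ∑_{S ⊆ T} (-1)^{|S|} kp T (β - ∑_{r∈S} proot r) = [β = 0]   for every finset `T` of positive roots and every `β`.

PROOF.  Induction on `T` (`Finset.induction_on`), for all `β` simultaneously.   `T = ∅`: `Finset.powerset_empty`, `kp_empty`.
 Step `insert r T`, `r ∉ T`:  `Finset.sum_powerset_insert hr`: the subsets of `insert r T` are `S` and `insert r S` with `S ⊆ T` (`r ∉ S`), and
   `(-1)^{|insert r S|} = - (-1)^{|S|}` (`Finset.card_insert_of_notMem`), `∑_{insert r S} proot = proot r + ∑_S proot` (`Finset.sum_insert`).  With `γ = β - ∑_S proot`: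
   `kp (insert r T) γ - kp (insert r T) (γ - proot r) = kp T γ` by `kp_insert` (cast to `ℤ`: `push_cast`).  So the sum equals `∑_{S ⊆ T} (-1)^{|S|} kp T (β - ∑_S)`, use the induction hypothesis.
-/
import Claimed.Agent.R282.KostStep

set_option autoImplicit false

namespace Claimed.Agent.R282
open Claims.C0456

theorem kp_inclusion_exclusion {n : ℕ} (T : Finset (PR n)) (β : Fin n → ℤ) :
    ∑ S ∈ T.powerset, (-1 : ℤ) ^ S.card * (kp T (β - ∑ r ∈ S, proot r) : ℤ) =
      if β = 0 then 1 else 0 := by
  classical
  induction T using Finset.induction_on generalizing β with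
  | empty =>
    rw [Finset.powerset_empty, Finset.sum_singleton, Finset.card_empty, pow_zero, one_mul,
      Finset.sum_empty, sub_zero, kp_empty]
    split_ifs <;> simp
  | insert r T hr ih =>
    rw [Finset.sum_powerset_insert hr, ← ih β, ← Finset.sum_add_distrib]
    refine Finset.sum_congr rfl (fun S hS => ?_)
    have hrS : r ∉ S := fun h => hr (Finset.mem_powerset.1 hS h)
    rw [Finset.card_insert_of_notMem hrS, Finset.sum_insert hrS, pow_succ]
    have h1 := kp_insert T r hr (β - ∑ q ∈ S, proot q)
    have h2 : β - (proot r + ∑ q ∈ S, proot q) = β - ∑ q ∈ S, proot q - proot r := by abel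
    rw [h2, h1]
    push_cast
    ring

theorem kostant_inclusion_exclusion {n : ℕ} (β : Fin n → ℤ) :
    ∑ S ∈ (Finset.univ : Finset (PR n)).powerset,
      (-1 : ℤ) ^ S.card * (kostantD (β - ∑ r ∈ S, proot r) : ℤ) = if β = 0 then 1 else 0 := by
  have h := kp_inclusion_exclusion (Finset.univ : Finset (PR n)) β
  simpa only [kp_univ] using h

end Claimed.Agent.R282
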