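/-
Row 282, Part I.  File KP: the Kostant recursion  ∑_w sgn(w) P(w ρ + d) = [d + ρ = 0]   for D_n (frozen `kostantD`, `rho2`).
Assembled from `kostant_inclusion_exclusion` (K1) and `denominator_functional` (K2).
-/
import Claimed.Agent.R282.KostRec
import Claimed.Agent.R282.DenomFun

set_option autoImplicit false

namespace Claimed.Agent.R282
open Claims.C0456

theorem kostant_alt {n : ℕ} (hn : 2 ≤ n) (d : Fin n → ℤ) :
    altSum (fun a => (kostantD (a + d) : ℤ)) (rho2 n) = if d + rho2 n = 0 then 1 else 0 := by
  rw [denominator_functional hn (fun a => (kostantD (a + d) : ℤ))]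
  have h := kostant_inclusion_exclusion (n := n) (d + rho2 n)
  rw [← h]
  refine Finset.sum_congr rfl (fun S _ => ?_)
  congr 3
  abel

end Claimed.Agent.R282
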