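/-
Row 282, Part I.  File WeylAct: the frozen `signedPermAct` as a group action; simple reflections.

PROOFS.
* `signedPermAct_add`, `signedPermAct_comp`: `funext i`, unfold, case on the Booleans.
    (σ,s)·((τ,t)·x) i = ε(s i) ε(t (σ⁻¹ i)) x (τ⁻¹ σ⁻¹ i).
* `even_card_xor`: with `c s = #{i | s i = true}`: `c (fun i => xor (s i) (t (σ.symm i))) ≡ c s + c t (mod 2)`.
    E.g. `(-1)^(c s) = ∏ i, (if s i then -1 else 1)`, the product is multiplicative for `xor`, and
    `∏ i, g (σ.symm i) = ∏ i, g i` (`Equiv.prod_comp`).  Or: induction.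
* `refl_eq_act`:  for `i+1 < n` take `τ = swap i (i+1)`, `t = fun _ => false`;
    for `i+1 = n` take `τ = swap (n-2) (n-1)`, `t k = (k = n-2 ∨ k = n-1)` (two signs, even).
    `refl i v = v - (pr i v) • rt i`; use `pr_of_lt` / `pr_last`, `funext k`, cases `k = i`, `k = i+1`, else.
    `Equiv.Perm.sign_swap` gives sign `-1`.
-/
import Claimed.Agent.R282.RootData

set_option autoImplicit false

namespace Claimed.Agent.R282
open Claims.C0456

theorem signedPermAct_add {n : ℕ} (σ : Equiv.Perm (Fin n)) (s : Fin n → Bool) (a b : Fin n → ℤ) :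
    signedPermAct σ s (a + b) = signedPermAct σ s a + signedPermAct σ s b := by
  funext i
  simp [signedPermAct, mul_add]

theorem signedPermAct_comp {n : ℕ} (σ τ : Equiv.Perm (Fin n)) (s t : Fin n → Bool) (x : Fin n → ℤ) :
    signedPermAct σ s (signedPermAct τ t x) =
      signedPermAct (σ * τ) (fun i => xor (s i) (t (σ.symm i))) x := by
  funext i
  have h : (σ * τ).symm i = τ.symm (σ.symm i) := rfl
  simp only [signedPermAct, h]
  rcases Bool.eq_false_or_eq_true (s i) with hs | hs <;>
    rcases Bool.eq_false_or_eq_true (t (σ.symm i)) with ht | ht <;> simp [hs, ht]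

theorem signedPermAct_one {n : ℕ} (x : Fin n → ℤ) :
    signedPermAct (1 : Equiv.Perm (Fin n)) (fun _ => false) x = x := by
  funext i
  have h : (Equiv.symm (1 : Equiv.Perm (Fin n))) i = i := rfl
  simp [signedPermAct, h]

theorem weylAct_neg_one_pow_card {n : ℕ} (s : Fin n → Bool) :
    (-1 : ℤ) ^ (Finset.univ.filter fun i => s i = true).card = ∏ i, (if s i = true then (-1 : ℤ) else 1) := by
  rw [Finset.prod_ite]
  simp

theorem weylAct_even_iff {n : ℕ} (s : Fin n → Bool) :
    Even (Finset.univ.filter fun i => s i = true).card ↔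
      ∏ i, (if s i = true then (-1 : ℤ) else 1) = 1 := by
  rw [← weylAct_neg_one_pow_card]
  exact (neg_one_pow_eq_one_iff_even (by norm_num)).symm

theorem even_card_xor {n : ℕ} (σ : Equiv.Perm (Fin n)) (s t : Fin n → Bool)
    (ht : Even (Finset.univ.filter fun i => t i = true).card) :
    Even (Finset.univ.filter fun i => xor (s i) (t (σ.symm i)) = true).card ↔
      Even (Finset.univ.filter fun i => s i = true).card := by
  rw [weylAct_even_iff] at ht
  rw [weylAct_even_iff, weylAct_even_iff]
  have h1 : ∏ i, (if xor (s i) (t (σ.symm i)) = true then (-1 : ℤ) else 1) =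
      (∏ i, (if s i = true then (-1 : ℤ) else 1)) *
        ∏ i, (if t (σ.symm i) = true then (-1 : ℤ) else 1) := by
    rw [← Finset.prod_mul_distrib]
    refine Finset.prod_congr rfl (fun i _ => ?_)
    cases s i <;> cases t (σ.symm i) <;> simp
  have h2 : ∏ i, (if t (σ.symm i) = true then (-1 : ℤ) else 1) =
      ∏ i, (if t i = true then (-1 : ℤ) else 1) :=
    Equiv.prod_comp σ.symm (fun i => if t i = true then (-1 : ℤ) else 1)
  rw [h1, h2, ht, mul_one]

theorem refl_eq_act {n : ℕ} (hn : 2 ≤ n) (i : Fin n) :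
    ∃ (τ : Equiv.Perm (Fin n)) (t : Fin n → Bool), Equiv.Perm.sign τ = -1 ∧
      Even (Finset.univ.filter fun k => t k = true).card ∧ ∀ v, refl i v = signedPermAct τ t v := by
  by_cases h : (i : ℕ) + 1 < n
  · refine ⟨Equiv.swap i ⟨i + 1, h⟩, fun _ => false, ?_, by simp, ?_⟩
    · apply Equiv.Perm.sign_swap
      intro hh
      have := congrArg Fin.val hh
      simp at this
    · intro v
      funext k
      simp only [refl, signedPermAct, pr_of_lt i h, Equiv.symm_swap, Pi.sub_apply, Pi.smul_apply,
        smul_eq_mul, rt, if_pos h]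
      by_cases hk1 : k = i
      · subst hk1
        simp
      · by_cases hk2 : k = ⟨i + 1, h⟩
        · subst hk2
          simp
        · rw [Equiv.swap_apply_of_ne_of_ne hk1 hk2]
          have h1 : ¬ (k : ℕ) = i := fun hh => hk1 (Fin.ext hh)
          have h2 : ¬ (k : ℕ) = i + 1 := fun hh => hk2 (Fin.ext hh)
          simp [h1, h2]
  · have hi : (i : ℕ) + 1 = n := by have := i.2; omega
    have hab : (⟨n - 2, by omega⟩ : Fin n) ≠ ⟨n - 1, by omega⟩ := by
      intro hh
      have := congrArg Fin.val hh
      simp only at this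
      omega
    refine ⟨Equiv.swap ⟨n - 2, by omega⟩ ⟨n - 1, by omega⟩,
      fun k => decide ((k : ℕ) + 2 = n ∨ (k : ℕ) + 1 = n), Equiv.Perm.sign_swap hab, ?_, ?_⟩
    · have hf : (Finset.univ.filter fun k : Fin n =>
          decide ((k : ℕ) + 2 = n ∨ (k : ℕ) + 1 = n) = true) =
          {(⟨n - 2, by omega⟩ : Fin n), ⟨n - 1, by omega⟩} := by
        ext k
        simp only [Finset.mem_filter, Finset.mem_univ, true_and, decide_eq_true_eq,
          Finset.mem_insert, Finset.mem_singleton, Fin.ext_iff]
        omega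
      rw [hf, Finset.card_pair hab]
      exact ⟨1, rfl⟩
    · intro v
      funext k
      simp only [refl, signedPermAct, pr_last hn i hi, Equiv.symm_swap, Pi.sub_apply,
        Pi.smul_apply, smul_eq_mul, rt, if_neg h, decide_eq_true_eq]
      by_cases hk1 : k = ⟨n - 2, by omega⟩
      · subst hk1
        have e1 : n - 2 + 2 = n := by omega
        have e2 : ¬ (n - 2 + 1 = n) := by omega
        simp [e1, e2]
      · by_cases hk2 : k = ⟨n - 1, by omega⟩
        · subst hk2
          have e1 : ¬ (n - 1 + 2 = n) := by omega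
          have e2 : n - 1 + 1 = n := by omega
          simp [e1, e2]
        · rw [Equiv.swap_apply_of_ne_of_ne hk1 hk2]
          have h1 : ¬ (k : ℕ) + 2 = n := fun hh => hk1 (Fin.ext (by simp only; omega))
          have h2 : ¬ (k : ℕ) + 1 = n := fun hh => hk2 (Fin.ext (by simp only; omega))
          simp [h1, h2]

end Claimed.Agent.R282
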