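/-
Row 282, Part I.  File WeylReg: a strictly dominant vector has trivial stabiliser and meets each orbit once.

PROOF of `act_eq_of_strictDom`.  By `pr_of_lt`, `pr_last`: `0 < pr i v ∀ i` means
   v_0 > v_1 > ⋯ > v_{n-1}  and  v_{n-2} + v_{n-1} > 0,
hence `v_k > 0` for `k ≤ n-2` and `k ↦ |v_k|` is strictly decreasing (`StrictAnti`); same for `z`.
If `signedPermAct σ s v = z` then `|z_k| = |v_{σ⁻¹ k}|`, so `σ⁻¹` is strictly monotone on `Fin n`, hence `σ = 1`
(a strictly monotone self-map of `Fin n` is the identity: e.g. `StrictMono.id_le` + injectivity/finite counting, or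
 `Fin.strictMono_unique`/`OrderIso` uniqueness `Subsingleton (Fin n ≃o Fin n)`).
Then `z_k = ± v_k`; for `k ≤ n-2` both are positive, so `s k = false`; as the number of `true`s is even, also `s (n-1) = false`.
`altSum_regular`: in the double sum only the term `(1, fun _ => false)` can be non-zero (`Finset.sum_eq_single` twice),
and it equals `if v = z then 1 else 0` by `signedPermAct_one`.
-/
import Claimed.Agent.R282.WeylAct

set_option autoImplicit false

namespace Claimed.Agent.R282
open Claims.C0456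

theorem weylReg_step {n : ℕ} (v : Fin n → ℤ) (hv : ∀ i, 0 < pr i v) (d : ℕ) :
    ∀ (i : ℕ) (h : i + d + 1 < n), v ⟨i + d + 1, h⟩ < v ⟨i, by omega⟩ := by
  induction d with
  | zero =>
    intro i h
    have h1 := hv ⟨i, by omega⟩
    rw [pr_of_lt ⟨i, by omega⟩ h] at h1
    have h2 : v ⟨i + 0 + 1, h⟩ = v ⟨i + 1, h⟩ := rfl
    rw [h2]
    linarith
  | succ d ih =>
    intro i h
    have h1 := ih i (by omega)
    have h2 := hv ⟨i + d + 1, by omega⟩
    rw [pr_of_lt ⟨i + d + 1, by omega⟩ (by show i + d + 1 + 1 < n; omega)] at h2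
    have h3 : v ⟨i + (d + 1) + 1, h⟩ = v ⟨i + d + 1 + 1, by omega⟩ := rfl
    rw [h3]
    linarith

theorem weylReg_anti {n : ℕ} (v : Fin n → ℤ) (hv : ∀ i, 0 < pr i v) : StrictAnti v := by
  intro i j hij
  have hij' : (i : ℕ) < j := hij
  obtain ⟨d, hd⟩ : ∃ d, (j : ℕ) = i + d + 1 := ⟨j - i - 1, by omega⟩
  have h := weylReg_step v hv d i (by have := j.2; omega)
  have e : (⟨(i : ℕ) + d + 1, by have := j.2; omega⟩ : Fin n) = j := Fin.ext hd.symm
  rw [e] at h
  exact h

theorem weylReg_last {n : ℕ} (hn : 2 ≤ n) (v : Fin n → ℤ) (hv : ∀ i, 0 < pr i v) :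
    0 < v ⟨n - 2, by omega⟩ + v ⟨n - 1, by omega⟩ := by
  have h := hv ⟨n - 1, by omega⟩
  rwa [pr_last hn ⟨n - 1, by omega⟩ (by simp; omega)] at h

theorem weylReg_pos {n : ℕ} (hn : 2 ≤ n) (v : Fin n → ℤ) (hv : ∀ i, 0 < pr i v) (k : Fin n)
    (hk : (k : ℕ) + 2 ≤ n) : 0 < v k := by
  have h1 := weylReg_last hn v hv
  have h2 : v ⟨n - 1, by omega⟩ < v ⟨n - 2, by omega⟩ :=
    weylReg_anti v hv (show (⟨n - 2, by omega⟩ : Fin n) < ⟨n - 1, by omega⟩ from by
      show n - 2 < n - 1
      omega)
  have h3 : v ⟨n - 2, by omega⟩ ≤ v k :=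
    (weylReg_anti v hv).antitone (show k ≤ (⟨n - 2, by omega⟩ : Fin n) from by
      show (k : ℕ) ≤ n - 2
      omega)
  linarith

theorem weylReg_abs_anti {n : ℕ} (hn : 2 ≤ n) (v : Fin n → ℤ) (hv : ∀ i, 0 < pr i v) :
    StrictAnti (fun k => |v k|) := by
  intro i j hij
  have hij' : (i : ℕ) < j := hij
  have hi : 0 < v i := weylReg_pos hn v hv i (by have := j.2; omega)
  show |v j| < |v i|
  rw [abs_of_pos hi, abs_lt]
  refine ⟨?_, weylReg_anti v hv hij⟩
  by_cases hj : (j : ℕ) + 2 ≤ n
  · have := weylReg_pos hn v hv j hj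
    linarith
  · have e : j = ⟨n - 1, by omega⟩ := Fin.ext (by have := j.2; show (j : ℕ) = n - 1; omega)
    have h1 := weylReg_last hn v hv
    have h3 : v ⟨n - 2, by omega⟩ ≤ v i :=
      (weylReg_anti v hv).antitone (show i ≤ (⟨n - 2, by omega⟩ : Fin n) from by
        show (i : ℕ) ≤ n - 2
        have := j.2
        omega)
    rw [e]
    linarith

theorem act_eq_of_strictDom {n : ℕ} (hn : 2 ≤ n) (v z : Fin n → ℤ) (hv : ∀ i, 0 < pr i v)
    (hz : ∀ i, 0 < pr i z) (σ : Equiv.Perm (Fin n)) (s : Fin n → Bool)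
    (hev : Even (Finset.univ.filter fun i => s i = true).card) (h : signedPermAct σ s v = z) :
    σ = 1 ∧ s = fun _ => false := by
  have hk : ∀ k, z k = (if s k then -1 else 1) * v (σ.symm k) := fun k => by rw [← h]; rfl
  have habs : ∀ k, |z k| = |v (σ.symm k)| := by
    intro k
    rw [hk k]
    cases s k <;> simp
  have hmono : StrictMono (σ.symm : Fin n → Fin n) := by
    intro i j hij
    have h1 := weylReg_abs_anti hn z hz hij
    simp only [habs] at h1
    exact (StrictAnti.lt_iff_gt (weylReg_abs_anti hn v hv)).1 h1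
  have hid : ∀ k, σ.symm k = k := fun k => le_antisymm hmono.apply_le hmono.le_apply
  have hσ : σ = 1 := by
    ext k
    have := hid (σ k)
    rw [Equiv.symm_apply_apply] at this
    rw [← this]
    rfl
  refine ⟨hσ, ?_⟩
  have hs : ∀ k : Fin n, (k : ℕ) + 2 ≤ n → s k = false := by
    intro k hk2
    have h1 := weylReg_pos hn v hv k hk2
    have h2 := weylReg_pos hn z hz k hk2
    rw [hk k, hid k] at h2
    by_contra hc
    rw [Bool.not_eq_false] at hc
    rw [hc] at h2
    simp at h2
    linarith
  funext k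
  by_cases hk2 : (k : ℕ) + 2 ≤ n
  · exact hs k hk2
  · by_contra hc
    rw [Bool.not_eq_false] at hc
    have e : (Finset.univ.filter fun i => s i = true) = {k} := by
      ext i
      simp only [Finset.mem_filter, Finset.mem_univ, true_and, Finset.mem_singleton]
      constructor
      · intro hi
        by_contra hne
        have : (i : ℕ) + 2 ≤ n := by
          have h1 := i.2
          have h2 := k.2
          have h3 : (i : ℕ) ≠ k := fun h => hne (Fin.ext h)
          omega
        rw [hs i this] at hi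
        exact Bool.false_ne_true hi
      · rintro rfl
        exact hc
    rw [e, Finset.card_singleton] at hev
    exact absurd hev (by decide)

theorem altSum_regular {n : ℕ} (hn : 2 ≤ n) (v z : Fin n → ℤ) (hv : ∀ i, 0 < pr i v)
    (hz : ∀ i, 0 < pr i z) :
    altSum (fun u => if u = z then 1 else 0) v = if v = z then 1 else 0 := by
  unfold altSum
  rw [Finset.sum_eq_single (1 : Equiv.Perm (Fin n)), Finset.sum_eq_single (fun _ => false)]
  · simp [signedPermAct_one]
  · intro s _ hs
    by_cases h1 : Even (Finset.univ.filter fun i => s i = true).card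
    · rw [if_pos h1]
      by_cases h2 : signedPermAct 1 s v = z
      · exact absurd (act_eq_of_strictDom hn v z hv hz 1 s h1 h2).2 hs
      · show _ * (if _ = z then (1 : ℤ) else 0) = 0
        rw [if_neg h2, mul_zero]
    · rw [if_neg h1]
  · intro h; exact absurd (Finset.mem_univ _) h
  · intro σ _ hσ
    refine Finset.sum_eq_zero fun s _ => ?_
    by_cases h1 : Even (Finset.univ.filter fun i => s i = true).card
    · rw [if_pos h1]
      by_cases h2 : signedPermAct σ s v = z
      · exact absurd (act_eq_of_strictDom hn v z hv hz σ s h1 h2).1 hσ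
      · show _ * (if _ = z then (1 : ℤ) else 0) = 0
        rw [if_neg h2, mul_zero]
    · rw [if_neg h1]
  · intro h; exact absurd (Finset.mem_univ _) h

end Claimed.Agent.R282
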