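/-
Row 282, Part I.  File CrysMult: Steinberg's formula (the frozen `tensorMult`) counts the good elements of a crystal.

Let `X` be a finite crystal of highest weight `m` (`IsCrystal ι m X`) containing `0`, in which `0` is the only element with all `σ_k ≤ 0`.
Then for `L, M, Kw` (doubled coordinates) with `pr i L = 2 l i`, `pr i M = 2 m i`, `l ≥ 0`, `Kw` dominant:
    tensorMult L M Kw = #{x ∈ X | x is l-good, L + wtv M x = Kw}.
Chain:  (A) `weyl_char`  : altSum g (ρ + M) = ∑_{x∈X} altSum (g (wt x + ·)) ρ          (key identity with l = 0)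
        (B) `kostant_alt`: ∑_w sgn(w) P(w ρ + d) = [d + ρ = 0]
        (C) key identity with `l`, and `altSum_regular`.
-/
import Claimed.Agent.R282.CrysKey
import Claimed.Agent.R282.KP
import Claimed.Agent.R282.WeylReg

set_option autoImplicit false

namespace Claimed.Agent.R282
open Claims.C0456

theorem tensorMult_eq_altSum {n : ℕ} (L M Kw : Fin n → ℤ) :
    tensorMult L M Kw =
      altSum (fun a => altSum (fun b => (kostantD (a + b - (Kw + 2 • rho2 n)) : ℤ)) (M + rho2 n))
        (L + rho2 n) := by
  unfold tensorMult altSum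
  refine Finset.sum_congr rfl (fun σ _ => Finset.sum_congr rfl (fun s _ => ?_))
  by_cases hs : Even (Finset.univ.filter fun i => s i = true).card
  · simp only [hs, true_and, if_true, Finset.mul_sum]
    refine Finset.sum_congr rfl (fun τ _ => Finset.sum_congr rfl (fun t _ => ?_))
    split_ifs
    · ring
    · simp
  · simp [hs]

variable {n : ℕ} {K : Type} [Fintype K] [LinearOrder K] {ι : K → Fin n}

omit [LinearOrder K] in
theorem wtv_zero (M : Fin n → ℤ) : wtv ι M (0 : K → ℤ) = M := by
  simp [wtv]

open Classical in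
theorem weyl_char (hn : 2 ≤ n) (hι : Function.Surjective ι) {m : Fin n → ℤ}
    {X : Finset (K → ℤ)} (hX : IsCrystal ι m X) (h0 : (0 : K → ℤ) ∈ X)
    (huniq : ∀ x ∈ X, (∀ k, sig ι x k ≤ 0) → x = 0)
    (M : Fin n → ℤ) (hM : ∀ i, pr i M = 2 * m i) (g : (Fin n → ℤ) → ℤ) :
    ∑ x ∈ X, altSum (fun a => g (wtv ι M x + a)) (rho2 n) = altSum g (M + rho2 n) := by
  rw [key_identity hn hι hX M hM (fun _ => 0) (fun _ => le_refl _) (rho2 n)
    (fun i => by rw [pr_rho2 hn]; norm_num) g]
  have hf : X.filter (fun x => Good ι (fun _ => 0) x) = {0} := by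
    ext x
    simp only [Finset.mem_filter, Finset.mem_singleton]
    constructor
    · rintro ⟨hx, hg⟩
      exact huniq x hx hg
    · rintro rfl
      refine ⟨h0, fun k => ?_⟩
      simp [sig]
  rw [hf, Finset.sum_singleton, wtv_zero, add_comm]

open Classical in
theorem tensorMult_eq_card (hn : 2 ≤ n) (hι : Function.Surjective ι) {m : Fin n → ℤ}
    {X : Finset (K → ℤ)} (hX : IsCrystal ι m X) (h0 : (0 : K → ℤ) ∈ X)
    (huniq : ∀ x ∈ X, (∀ k, sig ι x k ≤ 0) → x = 0)
    (L M Kw : Fin n → ℤ) (l : Fin n → ℤ) (hl : ∀ i, 0 ≤ l i) (hL : ∀ i, pr i L = 2 * l i)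
    (hM : ∀ i, pr i M = 2 * m i) (hK : ∀ i, 0 ≤ pr i Kw) :
    tensorMult L M Kw = ((X.filter (fun x => Good ι l x ∧ L + wtv ι M x = Kw)).card : ℤ) := by
  rw [tensorMult_eq_altSum]
  -- inner sum
  have hin : ∀ a : Fin n → ℤ,
      altSum (fun b => (kostantD (a + b - (Kw + 2 • rho2 n)) : ℤ)) (M + rho2 n) =
        ∑ x ∈ X, (if wtv ι M x + a = Kw + rho2 n then 1 else 0) := by
    intro a
    rw [← weyl_char hn hι hX h0 huniq M hM]
    refine Finset.sum_congr rfl (fun x _ => ?_)
    have h := kostant_alt hn (a + wtv ι M x - (Kw + 2 • rho2 n))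
    have e1 : (fun c : Fin n → ℤ => (kostantD (a + (wtv ι M x + c) - (Kw + 2 • rho2 n)) : ℤ)) =
        fun c => (kostantD (c + (a + wtv ι M x - (Kw + 2 • rho2 n))) : ℤ) := by
      funext c
      congr 2
      abel
    rw [e1, h]
    have e2 : (a + wtv ι M x - (Kw + 2 • rho2 n) + rho2 n = 0) ↔ (wtv ι M x + a = Kw + rho2 n) := by
      constructor
      · intro h
        have : wtv ι M x + a = (a + wtv ι M x - (Kw + 2 • rho2 n) + rho2 n) + (Kw + rho2 n) := by abel
        rw [this, h, zero_add]
      · intro h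
        have : a + wtv ι M x - (Kw + 2 • rho2 n) + rho2 n = (wtv ι M x + a) - (Kw + rho2 n) := by abel
        rw [this, h, sub_self]
    simp only [e2]
  simp only [hin]
  -- exchange
  have hex : altSum (fun a => ∑ x ∈ X, (if wtv ι M x + a = Kw + rho2 n then (1 : ℤ) else 0)) (L + rho2 n) =
      ∑ x ∈ X, altSum (fun a => (fun u => if u = Kw + rho2 n then (1 : ℤ) else 0) (wtv ι M x + a))
        (L + rho2 n) := by
    unfold altSum
    rw [Finset.sum_comm (s := X)]
    refine Finset.sum_congr rfl (fun σ _ => ?_)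
    rw [Finset.sum_comm (s := X)]
    refine Finset.sum_congr rfl (fun s _ => ?_)
    split_ifs
    · rw [Finset.mul_sum]
    · simp
  rw [hex, key_identity hn hι hX M hM l hl (L + rho2 n)
    (fun i => by rw [pr_add, hL, pr_rho2 hn]; ring)
    (fun u => if u = Kw + rho2 n then (1 : ℤ) else 0)]
  -- regularity
  have hreg : ∀ x ∈ X.filter (fun x => Good ι l x),
      altSum (fun u => if u = Kw + rho2 n then (1 : ℤ) else 0) (L + rho2 n + wtv ι M x) =
        if L + wtv ι M x = Kw then 1 else 0 := by
    intro x hx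
    rw [Finset.mem_filter] at hx
    obtain ⟨hxX, hg⟩ := hx
    rw [altSum_regular hn]
    · have e3 : (L + rho2 n + wtv ι M x = Kw + rho2 n) ↔ (L + wtv ι M x = Kw) := by
        constructor
        · intro h
          have : L + wtv ι M x = (L + rho2 n + wtv ι M x) - rho2 n := by abel
          rw [this, h]; abel
        · intro h
          have : L + rho2 n + wtv ι M x = (L + wtv ι M x) + rho2 n := by abel
          rw [this, h]
      simp only [e3]
    · intro i
      rw [pr_add, pr_add, hL, pr_rho2 hn, pr_wtv m M hM]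
      have h1 := hX.phi_nonneg x hxX i
      obtain ⟨k, hk⟩ := exists_isFPos hι x i
      have h2 : eps ι x i ≤ l i := by
        rw [eps_eq_of_isFPos hk]
        have := hg k
        rwa [hk.1] at this
      unfold phi at h1
      linarith
    · intro i
      rw [pr_add, pr_rho2 hn]
      have := hK i
      linarith
  rw [Finset.sum_congr rfl hreg, Finset.sum_ite, Finset.sum_const_zero, add_zero, Finset.sum_const,
    Finset.filter_filter]
  simp

end Claimed.Agent.R282
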