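/-
Row 282, Part I.  File GlueED: `X(lam)` is stable under `e_i`, case by case according to the position where `e_i` acts.
GENERAL RECIPE.  Let `k` be the position in the statement, `y = Function.update x k (x k ± 1)` (for `-1` write `x k - 1 = x k + (-1)`).
 `InX lam y` unfolds to `InXf n (la lam) (uu y) (vv y)`; by `uu_update`, `vv_update` (simp the `if` on `k.d`) one of the arrays is `bump (..) i s (±1)` and the other is unchanged.
 Apply the array-level closure lemma of file ClosF (`clos_f_U`, …) with `hX := hx`, `supp_uu x`, `supp_vv x`.  Its numerical hypotheses come from: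
   * strictness in `IsFPos` (`hk.2.2 j hletter hlt : sig lett x j < sig lett x k`, for EARLIER positions `j` of the same letter), resp. `IsEPos` (LATER positions);
     `hletter : lett j = lett k` by `Fin.ext` + `lett_val` (+ `simp`/`omega`), `hlt` by `Pos.lt_iff` (+ `Pos.code`, `simp`, `omega`);
   * the formulas of the files Beta* for differences of `sig`;  integers: `a < b ↔ a + 1 ≤ b` (`omega`/`linarith`);
   * `phi lett lam x i = eps lett x i + hw lett lam x i` (unfold `phi`), `eps lett x i = sig lett x k` (`eps_eq_of_isFPos hk`, `eps_eq_of_isEPos (lett_surjective hn) hk`).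
CASES (`heps : 0 < eps lett x (lett k)`, i.e. `1 ≤ sig lett x k`).
 * `e_mem_D` (`clos_e_D`):  hA0 (`s = 0, i = 0`): `sig_last_D0` + `heps`.   hA1 (`s = 0`, `i = j+1`): `sig_last_D x j` + `heps`.
      hB: later position `⟨s',j+1,false⟩`, `sig_D_sub_U x s' j`.    hC: later position `⟨s',i,true⟩`, `sig_D_sub_U x s' j` + `sig_U_sub_D x s' i`.
-/
import Claimed.Agent.R282.ClosF
import Claimed.Agent.R282.BetaUD
import Claimed.Agent.R282.BetaDU
import Claimed.Agent.R282.BetaS
import Claimed.Agent.R282.BetaLast
import Claimed.Agent.R282.CrysPos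

set_option autoImplicit false

namespace Claimed.Agent.R282

theorem e_mem_D {n : ℕ} (lam : Fin n → ℤ) (x : Pos n → ℤ) (hx : InX lam x) (s i : ℕ) (h1 : s ≤ i)
    (h3 : i + 3 ≤ n) (k : Pos n) (hkdef : k = ⟨s, i, true, h1, by omega⟩)
    (hk : IsEPos lett x (lett k) k) (heps : 0 < eps lett x (lett k)) :
    InX lam (Function.update x k (x k - 1)) := by
  subst hkdef
  have hn : 2 ≤ n := by omega
  have hsig : 1 ≤ sig lett x (⟨s, i, true, h1, by omega⟩ : Pos n) := by
    have h := eps_eq_of_isEPos (lett_surjective hn) hk
    omega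
  have hlater : ∀ q : Pos n, q.s < s → q.i = i →
      sig lett x q < sig lett x (⟨s, i, true, h1, by omega⟩ : Pos n) := by
    intro q hqs hqi
    apply hk.2.2 q
    · apply Fin.ext
      rw [lett_val, lett_val]
      have e1 : ¬ (q.d = true ∧ q.i + 2 = n) := by
        rintro ⟨_, h⟩; omega
      have e2 : ¬ ((⟨s, i, true, h1, by omega⟩ : Pos n).d = true ∧
          (⟨s, i, true, h1, by omega⟩ : Pos n).i + 2 = n) := by
        rintro ⟨_, h⟩
        simp only at h
        omega
      rw [if_neg e1, if_neg e2]
      exact hqi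
    · rw [Pos.lt_iff]
      left
      exact hqs
  unfold InX
  have hsub : x (⟨s, i, true, h1, by omega⟩ : Pos n) - 1 =
      x (⟨s, i, true, h1, by omega⟩ : Pos n) + (-1) := by ring
  rw [hsub, uu_update, vv_update]
  simp only [Bool.true_eq_false, if_false, if_true]
  apply clos_e_D hx (supp_uu x) (supp_vv x) i s h1 h3
  · intro hs hi
    subst hs hi
    have h := sig_last_D0 x (by omega : 3 ≤ n)
    rw [← h]
    exact hsig
  · intro j hs hi
    subst hs hi
    have h := sig_last_D x j (by omega : j + 4 ≤ n)
    rw [← h]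
    exact hsig
  · intro s' j hs hi
    subst hs hi
    have h := sig_D_sub_U x s' j (by omega) (by omega : j + 4 ≤ n)
    have h2 := hlater ⟨s', j + 1, false, by omega, by omega⟩ (by simp) rfl
    rw [← h]
    omega
  · intro s' j hs hi
    subst hs hi
    have h := sig_D_sub_U x s' j (by omega) (by omega : j + 4 ≤ n)
    have h' := sig_U_sub_D x s' (j + 1) (by omega) (by omega : j + 1 + 3 ≤ n)
    have h2 := hlater ⟨s', j + 1, true, by omega, by omega⟩ (by simp) rfl
    rw [← h, ← h']
    omega

end Claimed.Agent.R282
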