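/-
Row 282, Part I.  File GlueES: `X(lam)` is stable under `e_i`, case by case according to the position where `e_i` acts.
GENERAL RECIPE.  Let `k` be the position in the statement, `y = Function.update x k (x k ± 1)` (for `-1` write `x k - 1 = x k + (-1)`).
 `InX lam y` unfolds to `InXf n (la lam) (uu y) (vv y)`; by `uu_update`, `vv_update` (simp the `if` on `k.d`) one of the arrays is `bump (..) i s (±1)` and the other is unchanged.
 Apply the array-level closure lemma of file ClosF (`clos_f_U`, …) with `hX := hx`, `supp_uu x`, `supp_vv x`.  Its numerical hypotheses come from: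
   * strictness in `IsFPos` (`hk.2.2 j hletter hlt : sig lett x j < sig lett x k`, for EARLIER positions `j` of the same letter), resp. `IsEPos` (LATER positions);
     `hletter : lett j = lett k` by `Fin.ext` + `lett_val` (+ `simp`/`omega`), `hlt` by `Pos.lt_iff` (+ `Pos.code`, `simp`, `omega`);
   * the formulas of the files Beta* for differences of `sig`;  integers: `a < b ↔ a + 1 ≤ b` (`omega`/`linarith`);
   * `phi lett lam x i = eps lett x i + hw lett lam x i` (unfold `phi`), `eps lett x i = sig lett x k` (`eps_eq_of_isFPos hk`, `eps_eq_of_isEPos (lett_surjective hn) hk`).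
CASES (`heps : 0 < eps lett x (lett k)`, i.e. `1 ≤ sig lett x k`).
 * `e_mem_Sm` (`clos_e_Sm`): hA0 (`s = 0, i = 0`, so `n = 2`): `sig_last_Sm2`.  hA1: `sig_last_Sm x j`.   hB: later position `⟨s',j+1,false⟩`, `sig_Sm_sub x s' j`.
 * `e_mem_Sp` (`clos_e_Sp`): `sig_last_Sp2`, `sig_last_Sp`, `sig_Sp_sub`.
-/
import Claimed.Agent.R282.ClosF
import Claimed.Agent.R282.BetaUD
import Claimed.Agent.R282.BetaDU
import Claimed.Agent.R282.BetaS
import Claimed.Agent.R282.BetaLast
import Claimed.Agent.R282.CrysPos

set_option autoImplicit false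

namespace Claimed.Agent.R282

theorem e_mem_Sm {n : ℕ} (lam : Fin n → ℤ) (x : Pos n → ℤ) (hx : InX lam x) (s i : ℕ) (h1 : s ≤ i)
    (h2 : i + 2 = n) (k : Pos n) (hkdef : k = ⟨s, i, false, h1, by omega⟩)
    (hk : IsEPos lett x (lett k) k) (heps : 0 < eps lett x (lett k)) :
    InX lam (Function.update x k (x k - 1)) := by
  have hn : 2 ≤ n := by omega
  have hsig : 1 ≤ sig lett x k := by
    have h := eps_eq_of_isEPos (lett_surjective hn) hk
    omega
  subst hkdef
  unfold InX
  rw [sub_eq_add_neg, uu_update, vv_update]
  simp only [if_true, Bool.false_eq_true, if_false]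
  apply clos_e_Sm hx (supp_uu x) (supp_vv x) i s h1 h2
  · intro hs hi
    subst hs hi
    have h := sig_last_Sm2 x (by omega)
    rw [← h]
    exact hsig
  · intro j hs hi
    subst hs hi
    have h := sig_last_Sm x j (by omega)
    rw [← h]
    exact hsig
  · intro s' j hs hi
    subst hs hi
    have h := sig_Sm_sub x s' j (by omega) (by omega)
    rw [← h]
    have hlt := hk.2.2 ⟨s', j + 1, false, by omega, by omega⟩
      (by
        apply Fin.ext
        rw [lett_val, lett_val])
      (by
        rw [Pos.lt_iff]
        left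
        simp)
    omega

theorem e_mem_Sp {n : ℕ} (lam : Fin n → ℤ) (x : Pos n → ℤ) (hx : InX lam x) (s i : ℕ) (h1 : s ≤ i)
    (h2 : i + 2 = n) (k : Pos n) (hkdef : k = ⟨s, i, true, h1, by omega⟩)
    (hk : IsEPos lett x (lett k) k) (heps : 0 < eps lett x (lett k)) :
    InX lam (Function.update x k (x k - 1)) := by
  have hn : 2 ≤ n := by omega
  have hsig : 1 ≤ sig lett x k := by
    have h := eps_eq_of_isEPos (lett_surjective hn) hk
    omega
  subst hkdef
  unfold InX
  rw [sub_eq_add_neg, uu_update, vv_update]
  simp only [if_true, Bool.true_eq_false, if_false]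
  apply clos_e_Sp hx (supp_uu x) (supp_vv x) i s h1 h2
  · intro hs hi
    subst hs hi
    have h := sig_last_Sp2 x (by omega)
    rw [← h]
    exact hsig
  · intro j hs hi
    subst hs hi
    have h := sig_last_Sp x j (by omega)
    rw [← h]
    exact hsig
  · intro s' j hs hi
    subst hs hi
    have h := sig_Sp_sub x s' j (by omega) (by omega)
    rw [← h]
    have hlt := hk.2.2 ⟨s', j + 1, true, by omega, by omega⟩
      (by
        apply Fin.ext
        rw [lett_val, lett_val])
      (by
        rw [Pos.lt_iff]
        left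
        simp)
    omega

end Claimed.Agent.R282
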