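/-
Row 282, Part I.  File GlueEU: `X(lam)` is stable under `e_i`, case by case according to the position where `e_i` acts.
GENERAL RECIPE.  Let `k` be the position in the statement, `y = Function.update x k (x k ± 1)` (for `-1` write `x k - 1 = x k + (-1)`).
 `InX lam y` unfolds to `InXf n (la lam) (uu y) (vv y)`; by `uu_update`, `vv_update` (simp the `if` on `k.d`) one of the arrays is `bump (..) i s (±1)` and the other is unchanged.
 Apply the array-level closure lemma of file ClosF (`clos_f_U`, …) with `hX := hx`, `supp_uu x`, `supp_vv x`.  Its numerical hypotheses come from: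
   * strictness in `IsFPos` (`hk.2.2 j hletter hlt : sig lett x j < sig lett x k`, for EARLIER positions `j` of the same letter), resp. `IsEPos` (LATER positions);
     `hletter : lett j = lett k` by `Fin.ext` + `lett_val` (+ `simp`/`omega`), `hlt` by `Pos.lt_iff` (+ `Pos.code`, `simp`, `omega`);
   * the formulas of the files Beta* for differences of `sig`;  integers: `a < b ↔ a + 1 ≤ b` (`omega`/`linarith`);
   * `phi lett lam x i = eps lett x i + hw lett lam x i` (unfold `phi`), `eps lett x i = sig lett x k` (`eps_eq_of_isFPos hk`, `eps_eq_of_isEPos (lett_surjective hn) hk`).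
CASES (`heps : 0 < eps lett x (lett k)`, i.e. `1 ≤ sig lett x k`).
 * `e_mem_U` (`clos_e_U`):  hA: later position `⟨s,i,true⟩`, `sig_U_sub_D x s i`.
      hB (`s = s'+1`, `i = j+1`): later position `⟨s',i,false⟩`; `σ_{U(i,s)} - σ_{U(i,s')} = bUD i s + bDU j s'` (`sig_U_sub_D x s i` + `sig_D_sub_U x s' j`).
-/
import Claimed.Agent.R282.ClosF
import Claimed.Agent.R282.BetaUD
import Claimed.Agent.R282.BetaDU
import Claimed.Agent.R282.BetaS
import Claimed.Agent.R282.BetaLast
import Claimed.Agent.R282.CrysPos

set_option autoImplicit false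

namespace Claimed.Agent.R282

theorem e_mem_U {n : ℕ} (lam : Fin n → ℤ) (x : Pos n → ℤ) (hx : InX lam x) (s i : ℕ) (h1 : s ≤ i)
    (h3 : i + 3 ≤ n) (k : Pos n) (hkdef : k = ⟨s, i, false, h1, by omega⟩)
    (hk : IsEPos lett x (lett k) k) :
    InX lam (Function.update x k (x k - 1)) := by
  subst hkdef
  unfold InX
  rw [sub_eq_add_neg, uu_update, vv_update]
  simp only [if_true, Bool.false_eq_true, if_false]
  refine clos_e_U hx (supp_uu x) (supp_vv x) i s h1 h3 ?_ ?_
  · rw [← sig_U_sub_D x s i h1 h3]
    have h := hk.2.2 ⟨s, i, true, h1, by omega⟩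
      (Fin.ext (by rw [lett_val, lett_val]; simp; omega))
      ((Pos.lt_iff _ _).2 (Or.inr ⟨rfl, by simp [Pos.code]; omega⟩))
    linarith
  · intro s' j hs hi
    subst hs hi
    rw [← sig_U_sub_D x (s' + 1) (j + 1) h1 h3, ← sig_D_sub_U x s' j (by omega) (by omega)]
    have h := hk.2.2 ⟨s', j + 1, false, by omega, by omega⟩
      (Fin.ext (by rw [lett_val, lett_val]))
      ((Pos.lt_iff _ _).2 (Or.inl (by simp)))
    linarith

end Claimed.Agent.R282
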