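/-
Row 282, Part I.  File GlueFD: `X(lam)` is stable under `f_i`, case by case according to the position where `f_i` acts.
GENERAL RECIPE.  Let `k` be the position in the statement, `y = Function.update x k (x k ± 1)` (for `-1` write `x k - 1 = x k + (-1)`).
 `InX lam y` unfolds to `InXf n (la lam) (uu y) (vv y)`; by `uu_update`, `vv_update` (simp the `if` on `k.d`) one of the arrays is `bump (..) i s (±1)` and the other is unchanged.
 Apply the array-level closure lemma of file ClosF (`clos_f_U`, …) with `hX := hx`, `supp_uu x`, `supp_vv x`.  Its numerical hypotheses come from: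
   * strictness in `IsFPos` (`hk.2.2 j hletter hlt : sig lett x j < sig lett x k`, for EARLIER positions `j` of the same letter), resp. `IsEPos` (LATER positions);
     `hletter : lett j = lett k` by `Fin.ext` + `lett_val` (+ `simp`/`omega`), `hlt` by `Pos.lt_iff` (+ `Pos.code`, `simp`, `omega`);
   * the formulas of the files Beta* for differences of `sig`;  integers: `a < b ↔ a + 1 ≤ b` (`omega`/`linarith`);
   * `phi lett lam x i = eps lett x i + hw lett lam x i` (unfold `phi`), `eps lett x i = sig lett x k` (`eps_eq_of_isFPos hk`, `eps_eq_of_isEPos (lett_surjective hn) hk`).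
CASES.
 * `f_mem_D` (`clos_f_D`):  hA: earlier position `⟨s,i,false⟩`, `sig_U_sub_D x s i`.   hB: earlier position `⟨s+1,j+1,true⟩`, `sig_D_sub_U x s j` + `sig_U_sub_D x s i`.
-/
import Claimed.Agent.R282.ClosF
import Claimed.Agent.R282.BetaUD
import Claimed.Agent.R282.BetaDU
import Claimed.Agent.R282.BetaS
import Claimed.Agent.R282.BetaFirst
import Claimed.Agent.R282.CrysPos

set_option autoImplicit false

namespace Claimed.Agent.R282

theorem f_mem_D {n : ℕ} (lam : Fin n → ℤ) (x : Pos n → ℤ) (hx : InX lam x) (s i : ℕ) (h1 : s ≤ i)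
    (h3 : i + 3 ≤ n) (k : Pos n) (hkdef : k = ⟨s, i, true, h1, by omega⟩)
    (hk : IsFPos lett x (lett k) k) :
    InX lam (Function.update x k (x k + 1)) := by
  subst hkdef
  have hlk : ∀ (s' : ℕ) (d : Bool) (hs : s' ≤ i),
      lett (⟨s', i, d, hs, by omega⟩ : Pos n) = lett (⟨s, i, true, h1, by omega⟩ : Pos n) := by
    intro s' d hs
    apply Fin.ext
    rw [lett_val, lett_val, if_neg (by simp only; omega), if_neg (by simp only; omega)]
  have hUD := sig_U_sub_D x s i h1 h3
  have hA : bUD (uu x) (vv x) i s ≤ -1 := by
    have h := hk.2.2 ⟨s, i, false, h1, by omega⟩ (hlk s false h1) (by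
      rw [Pos.lt_iff]
      right
      simp only [Pos.code, Bool.false_eq_true, if_false, if_true, true_and]
      omega)
    omega
  have hB : ∀ j, i = j + 1 → s ≤ j → bDU (uu x) (vv x) j s + bUD (uu x) (vv x) i s ≤ -1 := by
    intro j hj hsj
    subst hj
    have h := hk.2.2 ⟨s + 1, j + 1, true, by omega, by omega⟩ (hlk (s + 1) true (by omega)) (by
      rw [Pos.lt_iff]
      left
      simp only
      omega)
    have hDU := sig_D_sub_U x s j hsj (by omega)
    omega
  unfold InX
  rw [uu_update, vv_update]
  simp only [Bool.true_eq_false, if_false, if_true]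
  exact clos_f_D hx (supp_uu x) (supp_vv x) i s h1 h3 hA hB

end Claimed.Agent.R282
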