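/-
Row 282, Part I.  File XBasic: elementary properties of `X(lam) = {x | InX lam x}`: non-negativity, `0 ∈ X`.

`InX lam x` is `InXf n (la lam) (uu x) (vv x)`; write `u = uu x`, `v = vv x`, `a = la lam`.  Outside the range `s ≤ i ≤ n-2` the entries are `0` (`supp_uu`, `supp_vv`).
PROOFS.
* `X_vv_nonneg`: out of range: `0`.  In range: `0 ≤ v s s` (C5) and `v i s ≤ v (i+1) s` (C4, `s ≤ i ≤ n-3`): induction on `i` from `s` (`Nat.le_induction`).
* `X_uu_nonneg`: top entry `i = n-2`: if `s = n-2` this is C5u; if `s ≤ n-3`: `u (n-2) s ≥ v (n-3) s ≥ 0` (C3 with `i = n-3`, and `X_vv_nonneg`).  Then `u i s ≥ u (i+1) s` (C1):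
    downward induction (`Nat.decreasingInduction`, or induct on `d` with `i + d + 2 = n`).
* `X_zero_mem`: all `uu 0 i s`, `vv 0 i s` vanish (unfold, `split_ifs`, `rfl`); each inequality reduces to `0 ≤ la lam s` (unfold `la`, `split_ifs`) or `0 ≤ 0`.
-/
import Claimed.Agent.R282.PosApi

set_option autoImplicit false

namespace Claimed.Agent.R282

theorem X_vv_nonneg {n : ℕ} {lam : Fin n → ℤ} {x : Pos n → ℤ} (hx : InX lam x) (i s : ℕ) :
    0 ≤ vv x i s := by
  by_cases h : s ≤ i ∧ i + 2 ≤ n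
  · obtain ⟨h1, h2⟩ := h
    induction i, h1 using Nat.le_induction with
    | base => exact hx.C5 s h2
    | succ i hi ih => exact (ih (by omega)).trans (hx.C4 s i hi (by omega))
  · rw [supp_vv x i s h]

theorem X_uu_nonneg {n : ℕ} {lam : Fin n → ℤ} {x : Pos n → ℤ} (hx : InX lam x) (i s : ℕ) :
    0 ≤ uu x i s := by
  by_cases h : s ≤ i ∧ i + 2 ≤ n
  · obtain ⟨h1, h2⟩ := h
    -- induction on the distance to the top entry
    have key : ∀ d i : ℕ, s ≤ i → i + d + 2 = n → 0 ≤ uu x i s := by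
      intro d
      induction d with
      | zero =>
        intro i hi hn
        rcases Nat.eq_or_lt_of_le hi with rfl | hlt
        · exact hx.C5u s (by omega)
        · obtain ⟨k, rfl⟩ : ∃ k, i = k + 1 := ⟨i - 1, by omega⟩
          exact (X_vv_nonneg hx k s).trans (hx.C3 s k (by omega) (by omega))
      | succ d ih =>
        intro i hi hn
        exact (ih (i + 1) (by omega) (by omega)).trans (hx.C1 s i hi (by omega))
    exact key (n - 2 - i) i h1 (by omega)
  · rw [supp_uu x i s h]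

theorem X_nonneg {n : ℕ} {lam : Fin n → ℤ} {x : Pos n → ℤ} (hx : InX lam x) (k : Pos n) :
    0 ≤ x k := by
  obtain ⟨s, i, d, h1, h2⟩ := k
  cases d
  · rw [← uu_of x s i h1 h2]; exact X_uu_nonneg hx i s
  · rw [← vv_of x s i h1 h2]; exact X_vv_nonneg hx i s

theorem xBasic_uu_zero {n : ℕ} (i s : ℕ) : uu (0 : Pos n → ℤ) i s = 0 := by
  unfold uu
  split_ifs <;> rfl

theorem xBasic_vv_zero {n : ℕ} (i s : ℕ) : vv (0 : Pos n → ℤ) i s = 0 := by
  unfold vv
  split_ifs <;> rfl

theorem xBasic_la_nonneg {n : ℕ} (lam : Fin n → ℤ) (hlam : ∀ i, 0 ≤ lam i) (s : ℕ) : 0 ≤ la lam s := by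
  unfold la
  split_ifs
  · exact hlam _
  · exact le_refl _

theorem X_zero_mem {n : ℕ} (lam : Fin n → ℤ) (hlam : ∀ i, 0 ≤ lam i) : InX lam (0 : Pos n → ℤ) := by
  have ha := xBasic_la_nonneg lam hlam
  constructor <;> intros <;> simp only [xBasic_uu_zero, xBasic_vv_zero, add_zero, sub_zero, le_refl] <;>
    exact ha _

end Claimed.Agent.R282
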