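/-
Row 282, Part I.  File XBound: `X(lam)` is bounded, hence finite.

`InX lam x` is `InXf n (la lam) (uu x) (vv x)`; write `u = uu x`, `v = vv x`, `a = la lam`.
PROOFS.
* `X_bounded`: let `Λ = ∑ i, |lam i|`, so `a s ≤ Λ` for all `s` (`la` is an entry of `lam` or `0`; `Finset.single_le_sum`, `le_abs_self`) and `0 ≤ Λ`.
    Claim: all entries `u i s`, `v i s` of row `s` are `≤ b s := 2^(n-s) * Λ` (any similar bound is fine; then `B = 2^n * Λ`).
    Row `s = n-2`: R2m, R2p.   Row `s ≤ n-3`: every entry of the row is `≤ u s s`  (chains  `v i s ≤ v (n-2) s ≤ u (n-3) s ≤ u s s`  and  `u i s ≤ u s s`, by C4, C2, C1; inductions on `i`),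
    and Ea2 at `(s,s)`:  `u s s ≤ a s + u (s+1) (s+1) + v (s+1) (s+1) - v s (s+1)`, with `v s (s+1) = 0` (`supp_vv`).  So `u s s ≤ Λ + 2 b (s+1) ≤ b s`.  Downward induction on `s`
    (induct on `d` with `s + d + 2 = n`).   Finally every position is `⟨s,i,false,_,_⟩` or `⟨s,i,true,_,_⟩` (`uu_of`, `vv_of`).
* `X_finite`: with `B` from `X_bounded` and `X_nonneg`: `{x | InX lam x} ⊆ Set.Icc 0 (fun _ => B)`, finite by `Set.finite_Icc` (the order on `Pos n → ℤ` is locally finite), or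
    `⊆ Set.pi Set.univ (fun _ => Set.Icc 0 B)` and `Set.Finite.pi`.
-/
import Claimed.Agent.R282.XBasic

set_option autoImplicit false

namespace Claimed.Agent.R282

theorem xBound_la_le {n : ℕ} (lam : Fin n → ℤ) (s : ℕ) : la lam s ≤ ∑ i, |lam i| := by
  unfold la
  split_ifs with h
  · exact (le_abs_self _).trans
      (Finset.single_le_sum (f := fun i => |lam i|) (fun i _ => abs_nonneg _) (Finset.mem_univ _))
  · exact Finset.sum_nonneg (fun i _ => abs_nonneg _)

theorem xBound_uu_le_diag {n : ℕ} {lam : Fin n → ℤ} {x : Pos n → ℤ} (hx : InX lam x) (s i : ℕ)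
    (h1 : s ≤ i) (h2 : i + 2 ≤ n) : uu x i s ≤ uu x s s := by
  induction i, h1 using Nat.le_induction with
  | base => exact le_rfl
  | succ i hi ih => exact (hx.C1 s i hi (by omega)).trans (ih (by omega))

theorem xBound_vv_le_top {n : ℕ} {lam : Fin n → ℤ} {x : Pos n → ℤ} (hx : InX lam x) (s : ℕ) :
    ∀ d i : ℕ, s ≤ i → i + d + 2 = n → vv x i s ≤ vv x (n - 2) s := by
  intro d
  induction d with
  | zero =>
    intro i _ hn
    have : i = n - 2 := by omega
    rw [this]
  | succ d ih =>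
    intro i hi hn
    exact (hx.C4 s i hi (by omega)).trans (ih (i + 1) (by omega) (by omega))

theorem xBound_row {n : ℕ} {lam : Fin n → ℤ} {x : Pos n → ℤ} (hx : InX lam x) :
    ∀ d s : ℕ, s + d + 2 = n → ∀ i : ℕ,
      uu x i s ≤ 3 ^ d * ∑ j, |lam j| ∧ vv x i s ≤ 3 ^ d * ∑ j, |lam j| := by
  have hL : (0 : ℤ) ≤ ∑ j, |lam j| := Finset.sum_nonneg (fun i _ => abs_nonneg _)
  intro d
  induction d with
  | zero =>
    intro s hs i
    by_cases h : s ≤ i ∧ i + 2 ≤ n
    · have hi : i = s := by omega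
      subst hi
      refine ⟨?_, ?_⟩
      · have := (hx.R2m i (by omega)).trans (xBound_la_le lam i)
        simpa using this
      · have := (hx.R2p i (by omega)).trans (xBound_la_le lam (i + 1))
        simpa using this
    · rw [supp_uu x i s h, supp_vv x i s h]
      simpa using hL
  | succ d ih =>
    intro s hs i
    have h3 : (0 : ℤ) ≤ 3 ^ d * ∑ j, |lam j| := mul_nonneg (by positivity) hL
    have h3' : (∑ j, |lam j|) ≤ 3 ^ d * ∑ j, |lam j| := by
      have : (1 : ℤ) ≤ 3 ^ d := one_le_pow₀ (by norm_num)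
      nlinarith
    have hdiag : uu x s s ≤ 3 ^ (d + 1) * ∑ j, |lam j| := by
      have e := hx.Ea2 s s le_rfl (by omega)
      have z : vv x s (s + 1) = 0 := supp_vv x s (s + 1) (by omega)
      have a1 := (ih (s + 1) (by omega) (s + 1)).1
      have a2 := (ih (s + 1) (by omega) (s + 1)).2
      have a3 := xBound_la_le lam s
      rw [z] at e
      rw [pow_succ]
      linarith
    by_cases h : s ≤ i ∧ i + 2 ≤ n
    · refine ⟨(xBound_uu_le_diag hx s i h.1 h.2).trans hdiag, ?_⟩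
      have b1 := xBound_vv_le_top hx s (n - 2 - i) i h.1 (by omega)
      have b2 := hx.C2 s (n - 3) (by omega) (by omega)
      have e : n - 3 + 1 = n - 2 := by omega
      rw [e] at b2
      have b3 := xBound_uu_le_diag hx s (n - 3) (by omega) (by omega)
      linarith
    · rw [supp_uu x i s h, supp_vv x i s h]
      have : (0 : ℤ) ≤ 3 ^ (d + 1) * ∑ j, |lam j| := mul_nonneg (by positivity) hL
      exact ⟨this, this⟩

theorem X_bounded {n : ℕ} (lam : Fin n → ℤ) : ∃ B : ℤ, ∀ x, InX lam x → ∀ k, x k ≤ B := by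
  have hL : (0 : ℤ) ≤ ∑ j, |lam j| := Finset.sum_nonneg (fun i _ => abs_nonneg _)
  refine ⟨3 ^ n * ∑ j, |lam j|, ?_⟩
  intro x hx k
  obtain ⟨s, i, d, h1, h2⟩ := k
  have hr := xBound_row hx (n - 2 - s) s (by omega) i
  have hp : (3 : ℤ) ^ (n - 2 - s) ≤ 3 ^ n := pow_le_pow_right₀ (by norm_num) (by omega)
  have hm : (3 : ℤ) ^ (n - 2 - s) * ∑ j, |lam j| ≤ 3 ^ n * ∑ j, |lam j| :=
    mul_le_mul_of_nonneg_right hp hL
  cases d
  · rw [← uu_of x s i h1 h2]; exact hr.1.trans hm
  · rw [← vv_of x s i h1 h2]; exact hr.2.trans hm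

theorem X_finite {n : ℕ} (lam : Fin n → ℤ) : Set.Finite {x : Pos n → ℤ | InX lam x} := by
  obtain ⟨B, hB⟩ := X_bounded lam
  refine (Set.Finite.pi (ι := Pos n) (t := fun _ => Set.Icc (0 : ℤ) B)
    (fun _ => Set.finite_Icc 0 B)).subset ?_
  intro x hx
  rw [Set.mem_pi]
  intro k _
  exact ⟨X_nonneg hx k, hB x hx k⟩

end Claimed.Agent.R282
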