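/-
Row 282, Part I.  File XEps: on `X(lam)`: `ε_i ≥ 0`, `φ_i ≥ 0`, and `0` is the only element with all `σ_k ≤ 0`.

PROOFS (`u = uu x`, `v = vv x`, `a = la lam`, `hι = lett_surjective hn`; `sig_le_eps hι x k : sig lett x k ≤ eps lett x (lett k)`).
* `X_eps_nonneg`: for the letter `i` take the LAST position `k` of that letter (row `0`) and show `0 ≤ sig lett x k` with file BetaLast:
     `i ≤ n-3`, `i = j+1`: `k = ⟨0,j+1,true⟩`, `σ = v (j+1) 0 - v j 0 ≥ 0` (C4 at `(0,j)`);    `i = 0 ≤ n-3`: `k = ⟨0,0,true⟩`, `σ = v 0 0 ≥ 0` (C5);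
     `i = n-2`, `n ≥ 3`: `k = ⟨0,n-2,false⟩`, `σ = u (n-2) 0 - v (n-3) 0 ≥ 0` (C3);       `i = n-1`, `n ≥ 3`: `k = ⟨0,n-2,true⟩`, `σ = v (n-2) 0 - v (n-3) 0 ≥ 0` (C4);
     `n = 2`: `σ = u 0 0` (C5u), `σ = v 0 0` (C5).      (`lett k = i` by `Fin.ext`, `lett_val`.)
* `X_phi_nonneg`: `phi = eps + hw ≥ σ_k + hw` for the FIRST position `k` of the letter `i`, file BetaFirst:
     `i = s ≤ n-3`: `σ_k + hw = a s + u (s+1) (s+1) + v (s+1) (s+1) - u s s ≥ 0`: this is Ea2 at `(s,s)` because `v s (s+1) = 0` (`supp_vv`);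
     `i = n-2`: `a (n-2) - u (n-2) (n-2) ≥ 0` (R2m);   `i = n-1`: `a (n-1) - v (n-2) (n-2) ≥ 0` (R2p).
* `sig_last_nonzero` (abstract): if `x k ≠ 0` and `x j = 0` for all `j > k` then `σ_k(x) = x_k` (all terms of the sum vanish).
* `X_uniq`: if `x ≠ 0`, the finset of `k` with `x k ≠ 0` is non-empty; let `k` be its `Finset.max'`.  Then `σ_k = x_k > 0` (`X_nonneg`), contradiction.
-/
import Claimed.Agent.R282.XBasic
import Claimed.Agent.R282.BetaLast
import Claimed.Agent.R282.BetaFirst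
import Claimed.Agent.R282.CrysPos

set_option autoImplicit false

namespace Claimed.Agent.R282

theorem xEps_of_pos {n : ℕ} (hn : 2 ≤ n) (x : Pos n → ℤ) (i : Fin n) (k : Pos n)
    (hk : ((lett k : Fin n) : ℕ) = i) (h : 0 ≤ sig lett x k) : 0 ≤ eps lett x i := by
  have h1 : lett k = i := Fin.ext hk
  rw [← h1]
  exact h.trans (sig_le_eps (lett_surjective hn) x k)

theorem xEps_phi_of_pos {n : ℕ} (hn : 2 ≤ n) (lam : Fin n → ℤ) (x : Pos n → ℤ) (i : Fin n)
    (k : Pos n) (hk : ((lett k : Fin n) : ℕ) = i)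
    (h : 0 ≤ sig lett x k + hw lett lam x (lett k)) : 0 ≤ phi lett lam x i := by
  have h1 : lett k = i := Fin.ext hk
  rw [← h1]
  unfold phi
  have := sig_le_eps (lett_surjective hn) x k
  linarith

theorem xEps_sig_last_nonzero {n : ℕ} {K : Type} [Fintype K] [LinearOrder K] (ι : K → Fin n)
    (x : K → ℤ) (k : K) (h : ∀ j, k < j → x j = 0) : sig ι x k = x k := by
  unfold sig
  rw [Finset.sum_eq_zero, add_zero]
  intro j hj
  rw [h j (Finset.mem_filter.1 hj).2, mul_zero]

theorem X_eps_nonneg {n : ℕ} (hn : 2 ≤ n) {lam : Fin n → ℤ} {x : Pos n → ℤ} (hx : InX lam x)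
    (i : Fin n) : 0 ≤ eps lett x i := by
  have hi := i.2
  rcases Nat.lt_or_ge 2 n with h3 | h2
  · by_cases c1 : (i : ℕ) = 0
    · refine xEps_of_pos hn x i ⟨0, 0, true, le_refl _, by omega⟩ ?_ ?_
      · rw [lett_val]
        simp only
        rw [if_neg (by omega)]
        omega
      · rw [sig_last_D0 x h3]
        exact hx.C5 0 (by omega)
    by_cases c2 : (i : ℕ) + 3 ≤ n
    · obtain ⟨j, hj⟩ : ∃ j, (i : ℕ) = j + 1 := ⟨i - 1, by omega⟩
      refine xEps_of_pos hn x i ⟨0, j + 1, true, by omega, by omega⟩ ?_ ?_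
      · rw [lett_val]
        simp only
        rw [if_neg (by omega)]
        omega
      · rw [sig_last_D x j (by omega)]
        have := hx.C4 0 j (by omega) (by omega)
        linarith
    obtain ⟨j, hj⟩ : ∃ j, j + 3 = n := ⟨n - 3, by omega⟩
    by_cases c3 : (i : ℕ) + 2 = n
    · refine xEps_of_pos hn x i ⟨0, j + 1, false, by omega, by omega⟩ ?_ ?_
      · rw [lett_val]
        simp only
        rw [if_neg (by simp)]
        omega
      · rw [sig_last_Sm x j hj]
        have := hx.C3 0 j (by omega) hj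
        linarith
    · refine xEps_of_pos hn x i ⟨0, j + 1, true, by omega, by omega⟩ ?_ ?_
      · rw [lett_val]
        simp only
        rw [if_pos ⟨trivial, by omega⟩]
        omega
      · rw [sig_last_Sp x j hj]
        have := hx.C4 0 j (by omega) (by omega)
        linarith
  · have h2' : n = 2 := by omega
    by_cases c1 : (i : ℕ) = 0
    · refine xEps_of_pos hn x i ⟨0, 0, false, le_refl _, by omega⟩ ?_ ?_
      · rw [lett_val]
        simp only
        rw [if_neg (by simp)]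
        omega
      · rw [sig_last_Sm2 x h2']
        exact hx.C5u 0 (by omega)
    · refine xEps_of_pos hn x i ⟨0, 0, true, le_refl _, by omega⟩ ?_ ?_
      · rw [lett_val]
        simp only
        rw [if_pos ⟨trivial, by omega⟩]
        omega
      · rw [sig_last_Sp2 x h2']
        exact hx.C5 0 (by omega)

theorem X_phi_nonneg {n : ℕ} (hn : 2 ≤ n) {lam : Fin n → ℤ} {x : Pos n → ℤ} (hx : InX lam x)
    (i : Fin n) : 0 ≤ phi lett lam x i := by
  have hi := i.2
  by_cases c1 : (i : ℕ) + 3 ≤ n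
  · refine xEps_phi_of_pos hn lam x i ⟨i, i, false, le_refl _, by omega⟩ ?_ ?_
    · rw [lett_val]
      simp only
      rw [if_neg (by simp)]
    · rw [sig_first_U lam x i c1]
      have h1 := hx.Ea2 i i le_rfl c1
      have h2 : vv x i (i + 1) = 0 := supp_vv x i (i + 1) (by omega)
      rw [h2] at h1
      linarith
  by_cases c2 : (i : ℕ) + 2 = n
  · refine xEps_phi_of_pos hn lam x i ⟨i, i, false, le_refl _, by omega⟩ ?_ ?_
    · rw [lett_val]
      simp only
      rw [if_neg (by simp)]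
    · rw [sig_first_Sm lam x i c2]
      have h1 := hx.R2m i c2
      linarith
  · obtain ⟨s, hs⟩ : ∃ s, s + 2 = n := ⟨n - 2, by omega⟩
    refine xEps_phi_of_pos hn lam x i ⟨s, s, true, le_refl _, by omega⟩ ?_ ?_
    · rw [lett_val]
      simp only
      rw [if_pos ⟨trivial, hs⟩]
      omega
    · rw [sig_first_Sp lam x s hs]
      have h1 := hx.R2p s hs
      linarith

theorem X_uniq {n : ℕ} {lam : Fin n → ℤ} {x : Pos n → ℤ} (hx : InX lam x)
    (h : ∀ k, sig lett x k ≤ 0) : x = 0 := by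
  by_contra hne
  have hne' : ∃ k, x k ≠ 0 := by
    by_contra hcon
    push Not at hcon
    exact hne (funext hcon)
  let A : Finset (Pos n) := Finset.univ.filter (fun k => x k ≠ 0)
  have hA : A.Nonempty := by
    obtain ⟨k, hk⟩ := hne'
    exact ⟨k, by simp [A, hk]⟩
  have hk : x (A.max' hA) ≠ 0 := (Finset.mem_filter.1 (A.max'_mem hA)).2
  have hlast : ∀ j, A.max' hA < j → x j = 0 := by
    intro j hj
    by_contra hj0
    have h1 : j ≤ A.max' hA := A.le_max' j (by simp [A, hj0])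
    exact absurd hj (not_lt.2 h1)
  have h1 := xEps_sig_last_nonzero lett x (A.max' hA) hlast
  have h2 := h (A.max' hA)
  have h3 := X_nonneg hx (A.max' hA)
  rw [h1] at h2
  exact hk (le_antisymm h2 h3)

end Claimed.Agent.R282
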