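/-
Row 282, Part I.  File XCrystal (assembly): `Xfin lam` is a crystal in the sense of `IsCrystal`.
-/
import Claimed.Agent.R282.XEps
import Claimed.Agent.R282.XBound
import Claimed.Agent.R282.GlueF
import Claimed.Agent.R282.GlueE

set_option autoImplicit false

namespace Claimed.Agent.R282

/-- `X(lam)` as a finset. -/
noncomputable def Xfin {n : ℕ} (lam : Fin n → ℤ) : Finset (Pos n → ℤ) := (X_finite lam).toFinset

theorem mem_Xfin {n : ℕ} (lam : Fin n → ℤ) (x : Pos n → ℤ) : x ∈ Xfin lam ↔ InX lam x := by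
  simp [Xfin]

theorem X_f_mem {n : ℕ} (hn : 2 ≤ n) {lam : Fin n → ℤ} {x : Pos n → ℤ} (hx : InX lam x) (i : Fin n)
    (hphi : 0 < phi lett lam x i) : InX lam (fop lett i x) := by
  obtain ⟨k, hk⟩ := exists_isFPos (lett_surjective hn) x i
  rw [fop_eq hk]
  have hi : lett k = i := hk.1
  subst hi
  have hin := k.hin
  rcases hd : k.d with _ | _
  · by_cases h3 : k.i + 3 ≤ n
    · exact f_mem_U lam x hx k.s k.i k.hsi h3 k ((Pos.ext_iff' _ _).2 ⟨rfl, rfl, hd⟩) hk hphi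
    · exact f_mem_Sm lam x hx k.s k.i k.hsi (by omega) k ((Pos.ext_iff' _ _).2 ⟨rfl, rfl, hd⟩) hk hphi
  · by_cases h3 : k.i + 3 ≤ n
    · exact f_mem_D lam x hx k.s k.i k.hsi h3 k ((Pos.ext_iff' _ _).2 ⟨rfl, rfl, hd⟩) hk
    · exact f_mem_Sp lam x hx k.s k.i k.hsi (by omega) k ((Pos.ext_iff' _ _).2 ⟨rfl, rfl, hd⟩) hk hphi

theorem X_e_mem {n : ℕ} (hn : 2 ≤ n) {lam : Fin n → ℤ} {x : Pos n → ℤ} (hx : InX lam x) (i : Fin n)
    (heps : 0 < eps lett x i) : InX lam (eop lett i x) := by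
  obtain ⟨k, hk⟩ := exists_isEPos (lett_surjective hn) x i
  rw [eop_eq hk]
  have hi : lett k = i := hk.1
  subst hi
  have hin := k.hin
  rcases hd : k.d with _ | _
  · by_cases h3 : k.i + 3 ≤ n
    · exact e_mem_U lam x hx k.s k.i k.hsi h3 k ((Pos.ext_iff' _ _).2 ⟨rfl, rfl, hd⟩) hk
    · exact e_mem_Sm lam x hx k.s k.i k.hsi (by omega) k ((Pos.ext_iff' _ _).2 ⟨rfl, rfl, hd⟩) hk heps
  · by_cases h3 : k.i + 3 ≤ n
    · exact e_mem_D lam x hx k.s k.i k.hsi h3 k ((Pos.ext_iff' _ _).2 ⟨rfl, rfl, hd⟩) hk heps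
    · exact e_mem_Sp lam x hx k.s k.i k.hsi (by omega) k ((Pos.ext_iff' _ _).2 ⟨rfl, rfl, hd⟩) hk heps

theorem isCrystal_Xfin {n : ℕ} (hn : 2 ≤ n) (lam : Fin n → ℤ) : IsCrystal lett lam (Xfin lam) where
  eps_nonneg := fun x hx i => X_eps_nonneg hn ((mem_Xfin lam x).1 hx) i
  phi_nonneg := fun x hx i => X_phi_nonneg hn ((mem_Xfin lam x).1 hx) i
  f_mem := fun x hx i h => (mem_Xfin lam _).2 (X_f_mem hn ((mem_Xfin lam x).1 hx) i h)
  e_mem := fun x hx i h => (mem_Xfin lam _).2 (X_e_mem hn ((mem_Xfin lam x).1 hx) i h)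

end Claimed.Agent.R282
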