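/-
Row 282, Part I.  File Main: the frozen statement S0528 follows from `Crux`.
-/
import Claimed.Agent.R282.CrysMult
import Claimed.Agent.R282.XCrystal
import Claimed.Agent.R282.BridgeDom
import Claimed.Agent.R282.BridgeWt
import Claimed.Agent.R282.BridgeLat
import Claimed.Agent.R282.BridgeSum

set_option autoImplicit false

namespace Claimed.Agent.R282
open Claims.C0456

/-- Part I: a tensor invariant exists iff the polytope `P(l,m,v)` has a lattice point. -/
theorem hasInv_iff {n : ℕ} (hn : 2 ≤ n) (L M K l m v : Fin n → ℤ)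
    (hl : ∀ i, 0 ≤ l i) (hL : ∀ i, pr i L = 2 * l i) (hm : ∀ i, 0 ≤ m i)
    (hM : ∀ i, pr i M = 2 * m i) (hK : ∀ i, 0 ≤ pr i (dualWeightD K))
    (hv : L + M - dualWeightD K = ∑ i, (2 * v i) • rt i) :
    HasTensorInvariant L M K ↔ ∃ x, PolyPt l m v x := by
  classical
  unfold HasTensorInvariant
  rw [tensorMult_eq_card hn (lett_surjective hn) (isCrystal_Xfin hn m)
    ((mem_Xfin m 0).2 (X_zero_mem m hm)) (fun x hx h => X_uniq ((mem_Xfin m x).1 hx) h)
    L M (dualWeightD K) l hl hL hM hK]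
  rw [Ne, Nat.cast_eq_zero, Finset.card_eq_zero, ← Ne, ← Finset.nonempty_iff_ne_empty]
  constructor
  · rintro ⟨x, hx⟩
    rw [Finset.mem_filter, mem_Xfin] at hx
    exact ⟨x, hx.1, hx.2.1, (wt_cond_iff hn L M _ v hv x).1 hx.2.2⟩
  · rintro ⟨x, h1, h2, h3⟩
    refine ⟨x, ?_⟩
    rw [Finset.mem_filter, mem_Xfin]
    exact ⟨h1, h2, (wt_cond_iff hn L M _ v hv x).2 h3⟩

theorem result_of_crux (hC : Crux) (n : ℕ) (hn : 2 ≤ n) (L M K : Fin n → ℤ)
    (hL : IsDominantWeight2 L) (hM : IsDominantWeight2 M) (hK : IsDominantWeight2 K)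
    (hQ : SumInRootLatticeD L M K) (N : ℕ) (hN : 1 ≤ N) :
    HasTensorInvariant L M K ↔ HasTensorInvariant (N • L) (N • M) (N • K) := by
  obtain ⟨l, hl0, hl⟩ := dom_fund hn L hL
  obtain ⟨m, hm0, hm⟩ := dom_fund hn M hM
  obtain ⟨k', hk0, hk⟩ := dom_fund hn _ (dual_dominant K hK)
  obtain ⟨h2, h4⟩ := sum_in_lattice hn L M K hK hQ
  obtain ⟨v, hv⟩ := mem_root_lattice hn _ h2 h4
  have hKd : ∀ i, 0 ≤ pr i (dualWeightD K) := fun i => by rw [hk]; have := hk0 i; omega
  rw [hasInv_iff hn L M K l m v hl0 hl hm0 hm hKd hv]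
  rw [hasInv_iff hn (N • L) (N • M) (N • K) (N • l) (N • m) (N • v)
    (fun i => by simpa using mul_nonneg (Nat.cast_nonneg N) (hl0 i))
    (fun i => by rw [pr_nsmul, hl]; simp; ring)
    (fun i => by simpa using mul_nonneg (Nat.cast_nonneg N) (hm0 i))
    (fun i => by rw [pr_nsmul, hm]; simp; ring)
    (fun i => by rw [dual_nsmul, pr_nsmul]; exact mul_nonneg (Nat.cast_nonneg N) (hKd i))
    (by
      rw [dual_nsmul, ← nsmul_add, ← nsmul_sub, hv, Finset.smul_sum]
      refine Finset.sum_congr rfl (fun i _ => ?_)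
      funext k
      simp
      ring)]
  constructor
  · rintro ⟨x, hx⟩
    exact ⟨N • x, hx.nsmul N⟩
  · exact hC n hn l m v hl0 hm0 N hN

end Claimed.Agent.R282
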