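/-
Row 282, Part I.  File WeylAlt: `altSum` is alternating under simple reflections.

PROOF (uses `refl_eq_act`, `signedPermAct_comp`, `even_card_xor` of file WeylAct as black boxes).
* `altSum_refl`: write `refl i v = (τ,t)·v`; by `signedPermAct_comp`
    `altSum F ((τ,t)·v) = ∑_{σ,s} [s even] sign σ F((σ τ, s xor t∘σ⁻¹)·v)`.
    Re-index the double sum (as a sum over `Perm × (Fin n → Bool)`, `Finset.sum_product'`, `Finset.sum_bij'` or `Equiv.sum_comp`)
    by the bijection `(σ,s) ↦ (σ τ, s xor t∘σ⁻¹)` (inverse `(σ',s') ↦ (σ' τ⁻¹, s' xor t∘(σ' τ⁻¹)⁻¹)`);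
    evenness is preserved by `even_card_xor`, `sign (σ τ) = - sign σ`.
-/
import Claimed.Agent.R282.WeylAct

set_option autoImplicit false

namespace Claimed.Agent.R282
open Claims.C0456

theorem altSum_refl {n : ℕ} (hn : 2 ≤ n) (F : (Fin n → ℤ) → ℤ) (i : Fin n) (v : Fin n → ℤ) :
    altSum F (refl i v) = - altSum F v := by
  obtain ⟨τ, t, hsign, ht, hact⟩ := refl_eq_act hn i
  rw [hact v]
  unfold altSum
  have key : ∀ σ : Equiv.Perm (Fin n),
      (∑ s : Fin n → Bool, if Even (Finset.univ.filter fun i => s i = true).card then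
        ((Equiv.Perm.sign σ : ℤˣ) : ℤ) * F (signedPermAct σ s (signedPermAct τ t v)) else 0) =
      - ∑ s : Fin n → Bool, if Even (Finset.univ.filter fun i => s i = true).card then
        ((Equiv.Perm.sign (σ * τ) : ℤˣ) : ℤ) * F (signedPermAct (σ * τ) s v) else 0 := by
    intro σ
    let φ : (Fin n → Bool) → (Fin n → Bool) := fun s i => xor (s i) (t (σ.symm i))
    have hφ : Function.Involutive φ := by
      intro s
      funext i
      simp [φ]
    rw [← hφ.bijective.sum_comp, ← Finset.sum_neg_distrib]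
    refine Finset.sum_congr rfl (fun s _ => ?_)
    have h1 : (fun i => xor (φ s i) (t (σ.symm i))) = s := hφ s
    have h2 : Even (Finset.univ.filter fun i => φ s i = true).card ↔
        Even (Finset.univ.filter fun i => s i = true).card := even_card_xor σ s t ht
    have h3 : ((Equiv.Perm.sign (σ * τ) : ℤˣ) : ℤ) = - ((Equiv.Perm.sign σ : ℤˣ) : ℤ) := by
      rw [Equiv.Perm.sign_mul, hsign]
      simp
    rw [signedPermAct_comp, h1, h3]
    by_cases he : Even (Finset.univ.filter fun i => s i = true).card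
    · rw [if_pos (h2.2 he), if_pos he]
      ring
    · rw [if_neg (fun h => he (h2.1 h)), if_neg he]
      simp
  rw [Finset.sum_congr rfl (fun σ _ => key σ), Finset.sum_neg_distrib]
  congr 1
  exact Equiv.sum_comp (Equiv.mulRight τ) (fun σ' : Equiv.Perm (Fin n) =>
    ∑ s : Fin n → Bool, if Even (Finset.univ.filter fun i => s i = true).card then
      ((Equiv.Perm.sign σ' : ℤˣ) : ℤ) * F (signedPermAct σ' s v) else 0)

end Claimed.Agent.R282
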